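import Mathlib

/-! Finitely supported signed measures on a monoid, with a domination calculus. -/

set_option linter.unusedSectionVars false

namespace Vale.Agent.P321

open MonoidAlgebra

variable {M : Type*} [Monoid M]

/-- Signed measures with convolution. -/
abbrev A (M : Type*) : Type _ := MonoidAlgebra ℝ M

/-- Nonnegative measures. -/
def NN {M : Type*} (x : A M) : Prop := ∀ w, 0 ≤ x.coeff w

/-- Total mass. -/
noncomputable def mass : A M →ₐ[ℝ] ℝ := MonoidAlgebra.lift ℝ ℝ M 1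

@[simp] lemma mass_single (w : M) (r : ℝ) : mass (single w r) = r := by simp [mass]

lemma eq_sum (x : A M) : x = ∑ w ∈ x.coeff.support, single w (x.coeff w) :=
  (sum_coeff_single x).symm

lemma mass_eq (x : A M) : mass x = ∑ w ∈ x.coeff.support, x.coeff w := by
  conv_lhs => rw [eq_sum x, map_sum]
  simp

lemma mass_eq' (x : A M) (s : Finset M) (hs : x.coeff.support ⊆ s) :
    mass x = ∑ w ∈ s, x.coeff w := by
  rw [mass_eq]
  exact Finset.sum_subset hs fun w _ hw => by simpa using hw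

section

lemma NN.zero : NN (0 : A M) := fun _ => le_rfl

lemma NN.add {x y : A M} (hx : NN x) (hy : NN y) : NN (x + y) := fun w => by
  simpa using add_nonneg (hx w) (hy w)

lemma NN.smul {x : A M} {c : ℝ} (hc : 0 ≤ c) (hx : NN x) : NN (c • x) := fun w => by
  simpa using mul_nonneg hc (hx w)

lemma NN.sum {ι : Type*} {s : Finset ι} {f : ι → A M} (h : ∀ i ∈ s, NN (f i)) :
    NN (∑ i ∈ s, f i) := Finset.sum_induction f NN (fun _ _ => NN.add) NN.zero h

lemma NN.single (w : M) {r : ℝ} (hr : 0 ≤ r) : NN (single w r) := fun w' => by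
  classical
  simp only [coeff_single, Finsupp.single_apply]
  split_ifs <;> simp [hr]

lemma NN.of_eq {x y : A M} (hx : NN x) (e : x = y) : NN y := e ▸ hx

lemma NN.map {N : Type*} [Monoid N] (Φ : A M →ₗ[ℝ] A N) (h : ∀ w, NN (Φ (MonoidAlgebra.single w 1)))
    {x : A M} (hx : NN x) : NN (Φ x) := by
  rw [eq_sum x, map_sum]
  refine NN.sum fun w _ => ?_
  have : (MonoidAlgebra.single w (x.coeff w) : A M) = x.coeff w • MonoidAlgebra.single w 1 := by
    simp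
  rw [this, map_smul]
  exact (h w).smul (hx w)

end

lemma NN.one : NN (1 : A M) := NN.single 1 zero_le_one

lemma NN.mul {x y : A M} (hx : NN x) (hy : NN y) : NN (x * y) := by
  rw [eq_sum x, eq_sum y, Finset.sum_mul_sum]
  refine NN.sum fun w _ => NN.sum fun w' _ => ?_
  rw [single_mul_single]
  exact NN.single _ (mul_nonneg (hx w) (hy w'))

lemma NN.pow {x : A M} (hx : NN x) (n : ℕ) : NN (x ^ n) := by
  induction n with
  | zero => simpa using NN.one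
  | succ n ih => rw [pow_succ]; exact ih.mul hx

lemma NN.mass_nonneg {x : A M} (hx : NN x) : 0 ≤ mass x := by
  rw [mass_eq]
  exact Finset.sum_nonneg fun w _ => hx w

/-- Probability measures. -/
def Prob (x : A M) : Prop := NN x ∧ mass x = 1

lemma Prob.one : Prob (1 : A M) := ⟨NN.one, map_one _⟩

lemma Prob.mul {x y : A M} (hx : Prob x) (hy : Prob y) : Prob (x * y) :=
  ⟨hx.1.mul hy.1, by rw [map_mul, hx.2, hy.2, one_mul]⟩

lemma Prob.pow {x : A M} (hx : Prob x) (n : ℕ) : Prob (x ^ n) :=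
  ⟨hx.1.pow n, by rw [map_pow, hx.2, one_pow]⟩

/-- `|Δ| ≤ G`. -/
def Abs {M : Type*} (Δ G : A M) : Prop := NN (G - Δ) ∧ NN (G + Δ)

section

lemma abs_iff {Δ G : A M} : Abs Δ G ↔ ∀ w, |Δ.coeff w| ≤ G.coeff w := by
  simp only [Abs, NN, abs_le, coeff_sub, coeff_add, Finsupp.sub_apply, Finsupp.add_apply]
  exact ⟨fun h w => ⟨by linarith [h.2 w], by linarith [h.1 w]⟩,
    fun h => ⟨fun w => by linarith [(h w).2], fun w => by linarith [(h w).1]⟩⟩

lemma Abs.nn {Δ G : A M} (h : Abs Δ G) : NN G := fun w =>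
  (abs_nonneg _).trans (abs_iff.1 h w)

lemma Abs.refl {G : A M} (h : NN G) : Abs G G :=
  abs_iff.2 fun w => (abs_of_nonneg (h w)).le

lemma Abs.add {Δ G Δ' G' : A M} (h : Abs Δ G) (h' : Abs Δ' G') : Abs (Δ + Δ') (G + G') :=
  ⟨(h.1.add h'.1).of_eq (by abel), (h.2.add h'.2).of_eq (by abel)⟩

lemma Abs.neg {Δ G : A M} (h : Abs Δ G) : Abs (-Δ) G :=
  ⟨h.2.of_eq (by abel), h.1.of_eq (by abel)⟩

lemma Abs.smul {Δ G : A M} (h : Abs Δ G) (c : ℝ) : Abs (c • Δ) (|c| • G) :=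
  abs_iff.2 fun w => by
    simp only [coeff_smul, Finsupp.smul_apply, smul_eq_mul, abs_mul]
    exact mul_le_mul_of_nonneg_left (abs_iff.1 h w) (abs_nonneg c)

lemma Abs.mono {Δ G G' : A M} (h : Abs Δ G) (h' : NN (G' - G)) : Abs Δ G' :=
  ⟨(h.1.add h').of_eq (by abel), (h.2.add h').of_eq (by abel)⟩

lemma Abs.zero {G : A M} (h : NN G) : Abs 0 G := ⟨by simpa using h, by simpa using h⟩

lemma Abs.sum {ι : Type*} {s : Finset ι} {f g : ι → A M} (h : ∀ i ∈ s, Abs (f i) (g i)) :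
    Abs (∑ i ∈ s, f i) (∑ i ∈ s, g i) := by
  classical
  induction s using Finset.induction_on with
  | empty => simpa using Abs.zero NN.zero
  | insert i s hi ih =>
    rw [Finset.sum_insert hi, Finset.sum_insert hi]
    exact (h i (by simp)).add (ih fun j hj => h j (by simp [hj]))

lemma Abs.bilin {N O : Type*} [Monoid N] [Monoid O] (Φ : A M →ₗ[ℝ] A N →ₗ[ℝ] A O)
    (hΦ : ∀ x y, NN x → NN y → NN (Φ x y)) {Δ G : A M} {Δ' G' : A N} (h : Abs Δ G)
    (h' : Abs Δ' G') : Abs (Φ Δ Δ') (Φ G G') := by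
  constructor
  · refine (((hΦ _ _ h.1 h'.2).add (hΦ _ _ h.2 h'.1)).smul (c := 1 / 2) (by norm_num)).of_eq ?_
    simp only [map_add, map_sub, LinearMap.add_apply, LinearMap.sub_apply]
    module
  · refine (((hΦ _ _ h.1 h'.1).add (hΦ _ _ h.2 h'.2)).smul (c := 1 / 2) (by norm_num)).of_eq ?_
    simp only [map_add, map_sub, LinearMap.add_apply, LinearMap.sub_apply]
    module

end

lemma Abs.mul {Δ G Δ' G' : A M} (h : Abs Δ G) (h' : Abs Δ' G') : Abs (Δ * Δ') (G * G') :=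
  Abs.bilin (LinearMap.mul ℝ (A M)) (fun _ _ => NN.mul) h h'

lemma Abs.mass_le {Δ G : A M} (h : Abs Δ G) : |mass Δ| ≤ mass G := by
  have h1 := h.1.mass_nonneg
  have h2 := h.2.mass_nonneg
  rw [map_sub] at h1
  rw [map_add] at h2
  exact abs_le.2 ⟨by linarith, by linarith⟩

/-- Total variation norm bound. -/
def Nm (Δ : A M) (x : ℝ) : Prop := ∃ G, Abs Δ G ∧ mass G ≤ x

lemma Nm.nonneg {Δ : A M} {x : ℝ} (h : Nm Δ x) : 0 ≤ x := by
  obtain ⟨G, h, hx⟩ := h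
  exact h.nn.mass_nonneg.trans hx

lemma Nm.mono {Δ : A M} {x y : ℝ} (h : Nm Δ x) (hxy : x ≤ y) : Nm Δ y := by
  obtain ⟨G, h, hx⟩ := h
  exact ⟨G, h, hx.trans hxy⟩

lemma Nm.of_eq {Δ Δ' : A M} {x : ℝ} (h : Nm Δ x) (e : Δ = Δ') : Nm Δ' x := e ▸ h

lemma Nm.zero : Nm (0 : A M) 0 := ⟨0, Abs.zero NN.zero, by simp⟩

lemma Nm.add {Δ Δ' : A M} {x y : ℝ} (h : Nm Δ x) (h' : Nm Δ' y) : Nm (Δ + Δ') (x + y) := by
  obtain ⟨G, h, hx⟩ := h
  obtain ⟨G', h', hy⟩ := h'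
  exact ⟨G + G', h.add h', by rw [map_add]; linarith⟩

lemma Nm.neg {Δ : A M} {x : ℝ} (h : Nm Δ x) : Nm (-Δ) x := by
  obtain ⟨G, h, hx⟩ := h
  exact ⟨G, h.neg, hx⟩

lemma Nm.smul {Δ : A M} {x : ℝ} (h : Nm Δ x) (c : ℝ) : Nm (c • Δ) (|c| * x) := by
  obtain ⟨G, h, hx⟩ := h
  exact ⟨|c| • G, h.smul c, by
    rw [map_smul, smul_eq_mul]; exact mul_le_mul_of_nonneg_left hx (abs_nonneg c)⟩

lemma Nm.mul {Δ Δ' : A M} {x y : ℝ} (h : Nm Δ x) (h' : Nm Δ' y) : Nm (Δ * Δ') (x * y) := by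
  have hx0 := h.nonneg
  obtain ⟨G, h, hx⟩ := h
  obtain ⟨G', h', hy⟩ := h'
  exact ⟨G * G', h.mul h', by
    rw [map_mul]; exact mul_le_mul hx hy h'.nn.mass_nonneg hx0⟩

lemma NN.nm {P : A M} (h : NN P) : Nm P (mass P) := ⟨P, Abs.refl h, le_rfl⟩

lemma Prob.nm {P : A M} (h : Prob P) : Nm P 1 := h.2 ▸ h.1.nm

lemma Nm.sum {ι : Type*} {s : Finset ι} {f : ι → A M} {x : ι → ℝ} (h : ∀ i ∈ s, Nm (f i) (x i)) :
    Nm (∑ i ∈ s, f i) (∑ i ∈ s, x i) := by
  classical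
  induction s using Finset.induction_on with
  | empty => simpa using Nm.zero
  | insert i s hi ih =>
    rw [Finset.sum_insert hi, Finset.sum_insert hi]
    exact (h i (by simp)).add (ih fun j hj => h j (by simp [hj]))

lemma Nm.mass_le {Δ : A M} {x : ℝ} (h : Nm Δ x) : |mass Δ| ≤ x := by
  obtain ⟨G, h, hx⟩ := h
  exact h.mass_le.trans hx

lemma Nm.pow_sub {x y : A M} {η : ℝ} (hx : Prob x) (hy : Prob y) (h : Nm (x - y) η) (n : ℕ) :
    Nm (x ^ n - y ^ n) (n * η) := by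
  induction n with
  | zero => simpa using Nm.zero
  | succ n ih =>
    have := (ih.mul hx.nm).add ((hy.pow n).nm.mul h)
    refine (this.of_eq ?_).mono (le_of_eq (by push_cast; ring))
    rw [pow_succ, pow_succ]
    noncomm_ring

/-- `|Δ| ≤ ε P` up to a remainder of mass `δ`. -/
def Dom (Δ : A M) (ε : ℝ) (P : A M) (δ : ℝ) : Prop :=
  ∃ R, NN R ∧ mass R ≤ δ ∧ Abs Δ (ε • P + R)

lemma Dom.nonneg {Δ P : A M} {ε δ : ℝ} (h : Dom Δ ε P δ) : 0 ≤ δ := by
  obtain ⟨R, h1, h2, -⟩ := h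
  exact h1.mass_nonneg.trans h2

lemma Dom.mono {Δ P : A M} {ε δ ε' δ' : ℝ} (h : Dom Δ ε P δ) (hP : NN P) (he : ε ≤ ε')
    (hd : δ ≤ δ') : Dom Δ ε' P δ' := by
  obtain ⟨R, h1, h2, h3⟩ := h
  exact ⟨R, h1, h2.trans hd, h3.mono ((hP.smul (sub_nonneg.2 he)).of_eq (by module))⟩

lemma Abs.dom {Δ P : A M} {ε : ℝ} (h : Abs Δ (ε • P)) : Dom Δ ε P 0 :=
  ⟨0, NN.zero, by simp, by simpa using h⟩

lemma Dom.refl {P : A M} (hP : NN P) : Dom P 1 P 0 := Abs.dom (by simpa using Abs.refl hP)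

lemma Nm.dom {Δ : A M} {x : ℝ} (h : Nm Δ x) (P : A M) : Dom Δ 0 P x := by
  obtain ⟨G, h, hx⟩ := h
  exact ⟨G, h.nn, hx, by simpa using h⟩

lemma Dom.nm {Δ P : A M} {ε δ : ℝ} (h : Dom Δ ε P δ) (hP : Prob P) : Nm Δ (ε + δ) := by
  obtain ⟨R, -, h2, h3⟩ := h
  exact ⟨_, h3, by rw [map_add, map_smul, hP.2, smul_eq_mul, mul_one]; linarith⟩

lemma Dom.add {Δ Δ' P : A M} {ε δ ε' δ' : ℝ} (h : Dom Δ ε P δ) (h' : Dom Δ' ε' P δ') :
    Dom (Δ + Δ') (ε + ε') P (δ + δ') := by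
  obtain ⟨R, h1, h2, h3⟩ := h
  obtain ⟨R', h1', h2', h3'⟩ := h'
  refine ⟨R + R', h1.add h1', by rw [map_add]; linarith, ?_⟩
  have e : (ε + ε') • P + (R + R') = ε • P + R + (ε' • P + R') := by module
  rw [e]
  exact h3.add h3'

lemma Dom.neg {Δ P : A M} {ε δ : ℝ} (h : Dom Δ ε P δ) : Dom (-Δ) ε P δ := by
  obtain ⟨R, h1, h2, h3⟩ := h
  exact ⟨R, h1, h2, h3.neg⟩

lemma Dom.smul {Δ P : A M} {ε δ : ℝ} (h : Dom Δ ε P δ) (c : ℝ) :
    Dom (c • Δ) (|c| * ε) P (|c| * δ) := by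
  obtain ⟨R, h1, h2, h3⟩ := h
  refine ⟨|c| • R, h1.smul (abs_nonneg c), ?_, ?_⟩
  · rw [map_smul, smul_eq_mul]
    exact mul_le_mul_of_nonneg_left h2 (abs_nonneg c)
  · have e : (|c| * ε) • P + |c| • R = |c| • (ε • P + R) := by module
    rw [e]
    exact h3.smul c

lemma Dom.sum {ι : Type*} {s : Finset ι} {f : ι → A M} {P : A M} {ε δ : ι → ℝ}
    (h : ∀ i ∈ s, Dom (f i) (ε i) P (δ i)) :
    Dom (∑ i ∈ s, f i) (∑ i ∈ s, ε i) P (∑ i ∈ s, δ i) := by
  classical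
  induction s using Finset.induction_on with
  | empty => simpa using Nm.zero.dom P
  | insert i s hi ih =>
    rw [Finset.sum_insert hi, Finset.sum_insert hi, Finset.sum_insert hi]
    exact (h i (by simp)).add (ih fun j hj => h j (by simp [hj]))

lemma Dom.mul {Δ Δ' P P' : A M} {ε δ ε' δ' : ℝ} (h : Dom Δ ε P δ) (h' : Dom Δ' ε' P' δ')
    (hP : Prob P) (hP' : Prob P') (he : 0 ≤ ε) (he' : 0 ≤ ε') :
    Dom (Δ * Δ') (ε * ε') (P * P') (ε * δ' + δ * ε' + δ * δ') := by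
  have hd := h.nonneg
  obtain ⟨R, h1, h2, h3⟩ := h
  obtain ⟨R', h1', h2', h3'⟩ := h'
  refine ⟨ε • (P * R') + ε' • (R * P') + R * R',
    (((hP.1.mul h1').smul he).add ((h1.mul hP'.1).smul he')).add (h1.mul h1'), ?_, ?_⟩
  · simp only [map_add, map_smul, map_mul, hP.2, hP'.2, smul_eq_mul, one_mul, mul_one]
    have := mul_le_mul h2 h2' h1'.mass_nonneg hd
    nlinarith [mul_le_mul_of_nonneg_left h2' he, mul_le_mul_of_nonneg_left h2 he']
  · have e : (ε * ε') • (P * P') + (ε • (P * R') + ε' • (R * P') + R * R') =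
        (ε • P + R) * (ε' • P' + R') := by
      simp only [add_mul, mul_add, smul_mul_assoc, mul_smul_comm]
      module
    rw [e]
    exact h3.mul h3'

lemma Dom.trans {Δ P Q : A M} {ε δ c δ' : ℝ} (h : Dom Δ ε P δ) (h' : Dom P c Q δ') (he : 0 ≤ ε) :
    Dom Δ (ε * c) Q (δ + ε * δ') := by
  obtain ⟨R, h1, h2, h3⟩ := h
  obtain ⟨R', h1', h2', h3'⟩ := h'
  refine ⟨R + ε • R', h1.add (h1'.smul he), ?_, h3.mono ((h3'.1.smul he).of_eq (by module))⟩
  rw [map_add, map_smul, smul_eq_mul]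
  nlinarith [mul_le_mul_of_nonneg_left h2' he]

lemma Dom.flip {P Q : A M} {δ : ℝ} (h : Dom (Q - P) (1 / 2) P δ) (hP : NN P) :
    Dom P 2 Q (2 * δ) := by
  obtain ⟨R, h1, h2, h3⟩ := h
  refine ⟨(2 : ℝ) • R, h1.smul zero_le_two, by rw [map_smul, smul_eq_mul]; linarith, ?_⟩
  exact (Abs.refl hP).mono ((h3.2.smul zero_le_two).of_eq (by module))

/-- Overlap of two measures. -/
def Ov (P Q : A M) (π : ℝ) : Prop := ∃ ω, NN ω ∧ π ≤ mass ω ∧ NN (P - ω) ∧ NN (Q - ω)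

lemma Ov.mono {P Q : A M} {π π' : ℝ} (h : Ov P Q π) (hπ : π' ≤ π) : Ov P Q π' := by
  obtain ⟨ω, h1, h2, h3⟩ := h
  exact ⟨ω, h1, hπ.trans h2, h3⟩

lemma Ov.mul {P Q P' Q' : A M} {π π' : ℝ} (h : Ov P Q π) (h' : Ov P' Q' π') (hπ : 0 ≤ π') :
    Ov (P * P') (Q * Q') (π * π') := by
  obtain ⟨ω, h1, h2, h3, h4⟩ := h
  obtain ⟨ω', h1', h2', h3', h4'⟩ := h'
  refine ⟨ω * ω', h1.mul h1', ?_, ?_, ?_⟩
  · rw [map_mul]
    exact mul_le_mul h2 h2' hπ h1.mass_nonneg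
  · exact ((h3.mul (h3'.add h1')).add (h1.mul h3')).of_eq (by noncomm_ring)
  · exact ((h4.mul (h4'.add h1')).add (h1.mul h4')).of_eq (by noncomm_ring)

lemma Ov.of_nm {P Q : A M} {x c : ℝ} (hP : NN P) (hQ : NN Q) (cP : mass P = c) (cQ : mass Q = c)
    (h : Nm (P - Q) x) : Ov P Q (c - x / 2) := by
  obtain ⟨G, h, hx⟩ := h
  let ω : A M := ofCoeff (P.coeff ⊓ Q.coeff)
  have hω : ∀ w, ω.coeff w = min (P.coeff w) (Q.coeff w) := fun w => rfl
  refine ⟨ω, fun w => by rw [hω]; exact le_min (hP w) (hQ w), ?_, fun w => ?_, fun w => ?_⟩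
  · have : NN (ω - (1 / 2 : ℝ) • (P + Q - G)) := fun w => by
      have := abs_le.1 (abs_iff.1 h w)
      simp only [coeff_sub, coeff_smul, coeff_add, Finsupp.sub_apply, Finsupp.smul_apply,
        Finsupp.add_apply, smul_eq_mul, hω] at this ⊢
      rcases le_total (P.coeff w) (Q.coeff w) with e | e
      · rw [min_eq_left e]; linarith [this.1]
      · rw [min_eq_right e]; linarith [this.2]
    have := this.mass_nonneg
    simp only [map_sub, map_smul, map_add, cP, cQ, smul_eq_mul] at this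
    linarith
  · simp only [coeff_sub, Finsupp.sub_apply, hω]
    linarith [min_le_left (P.coeff w) (Q.coeff w)]
  · simp only [coeff_sub, Finsupp.sub_apply, hω]
    linarith [min_le_right (P.coeff w) (Q.coeff w)]

/-- Decomposition of a dominated mean-zero measure. -/
lemma Dom.decomp {Q v : A M} {c δ : ℝ} (h : Dom Q c v δ) (hv : Prob v) (hc : 0 ≤ c) :
    ∃ f : M → ℝ, (∀ w, |f w| ≤ c) ∧
      Nm (Q - ∑ w ∈ v.coeff.support, f w • single w (v.coeff w)) δ := by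
  classical
  obtain ⟨R, h1, h2, h3⟩ := h
  refine ⟨fun w => max (-c) (min c (Q.coeff w / v.coeff w)), fun w => abs_le.2
    ⟨le_max_left _ _, max_le (by linarith) (min_le_left _ _)⟩, R, abs_iff.2 fun w => ?_, h2⟩
  have e := abs_le.1 (abs_iff.1 h3 w)
  simp only [coeff_add, coeff_smul, Finsupp.add_apply, Finsupp.smul_apply, smul_eq_mul] at e
  simp only [coeff_sub, coeff_sum, coeff_smul, coeff_single, Finsupp.sub_apply,
    Finsupp.finset_sum_apply, Finsupp.smul_apply, Finsupp.single_apply, smul_eq_mul, mul_ite,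
    mul_zero, Finset.sum_ite_eq', Finsupp.mem_support_iff]
  have hR := h1 w
  by_cases h0 : v.coeff w = 0
  · rw [h0] at e
    rw [if_neg (by simp [h0]), abs_le]
    constructor <;> linarith [e.1, e.2]
  · have hp : 0 < v.coeff w := lt_of_le_of_ne (hv.1 w) (Ne.symm h0)
    rw [if_pos h0, abs_le]
    rcases le_total c (Q.coeff w / v.coeff w) with k | k
    · rw [min_eq_left k, max_eq_right (by linarith)]
      rw [le_div_iff₀ hp] at k
      constructor <;> linarith [e.1, e.2]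
    · rw [min_eq_right k]
      rcases le_total (-c) (Q.coeff w / v.coeff w) with k' | k'
      · rw [max_eq_right k', div_mul_cancel₀ _ h0]
        constructor <;> linarith
      · rw [max_eq_left k']
        rw [div_le_iff₀ hp] at k'
        constructor <;> linarith [e.1, e.2]

lemma Dom.decomp0 {Q v : A M} {c δ : ℝ} (h : Dom Q c v δ) (hv : Prob v) (hc : 0 ≤ c)
    (h0 : mass Q = 0) :
    ∃ f : M → ℝ, (∀ w, |f w| ≤ 2 * c) ∧ ∑ w ∈ v.coeff.support, f w * v.coeff w = 0 ∧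
      Nm (Q - ∑ w ∈ v.coeff.support, f w • single w (v.coeff w)) (2 * δ) := by
  obtain ⟨f, hf, h⟩ := h.decomp hv hc
  set m := ∑ w ∈ v.coeff.support, f w * v.coeff w with hm
  have e1 : ∑ w ∈ v.coeff.support, v.coeff w = 1 := by rw [← mass_eq, hv.2]
  have hm1 : |m| ≤ c := by
    refine (Finset.abs_sum_le_sum_abs _ _).trans ?_
    calc ∑ w ∈ v.coeff.support, |f w * v.coeff w| ≤ ∑ w ∈ v.coeff.support, c * v.coeff w :=
          Finset.sum_le_sum fun w _ => by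
            rw [abs_mul, abs_of_nonneg (hv.1 w)]
            exact mul_le_mul_of_nonneg_right (hf w) (hv.1 w)
      _ = c := by rw [← Finset.mul_sum, e1, mul_one]
  have hm2 : |m| ≤ δ := by
    have := h.mass_le
    simpa [map_sum, h0, ← hm] using this
  refine ⟨fun w => f w - m, fun w => ?_, ?_, ?_⟩
  · have := abs_sub (f w) m
    linarith [hf w]
  · simp only [sub_mul, Finset.sum_sub_distrib, ← Finset.mul_sum, e1, ← hm]
    ring
  · refine ((h.add (hv.nm.smul m)).of_eq ?_).mono (by linarith)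
    simp only [sub_smul, Finset.sum_sub_distrib, ← Finset.smul_sum, ← eq_sum v]
    abel

end Vale.Agent.P321
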