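import Vale.Agent.P321.Replica

/-! Overlap of consecutive powers of a block with one defect. -/

namespace Vale.Agent.P321

open Real Finset MonoidAlgebra

variable {M : Type*} [Monoid M]

lemma Nm.eq_zero {x : A M} (h : Nm x 0) : x = 0 := by
  obtain ⟨G, h, hx⟩ := h
  rw [mass_eq] at hx
  have k := (Finset.sum_eq_zero_iff_of_nonneg fun w _ => h.nn w).1
    (le_antisymm hx (Finset.sum_nonneg fun w _ => h.nn w))
  ext w
  have : G.coeff w = 0 := by
    by_contra e
    exact e (k w (Finsupp.mem_support_iff.2 e))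
  have e := abs_iff.1 h w
  rw [this] at e
  simpa using e

lemma Ov.scale {P Q : A M} {ϖ b b' : ℝ} (h : Ov P Q ϖ) (hP : NN P) (hQ : NN Q) (h0 : 0 ≤ b)
    (h0' : 0 ≤ b') : Ov (b • P) (b' • Q) (min b b' * ϖ) := by
  obtain ⟨ω, h1, h2, h3, h4⟩ := h
  have m0 : 0 ≤ min b b' := le_min h0 h0'
  refine ⟨min b b' • ω, h1.smul m0, ?_, ?_, ?_⟩
  · rw [map_smul, smul_eq_mul]
    exact mul_le_mul_of_nonneg_left h2 m0
  · exact ((h3.smul m0).add (hP.smul (sub_nonneg.2 (min_le_left b b')))).of_eq (by module)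
  · exact ((h4.smul m0).add (hQ.smul (sub_nonneg.2 (min_le_right b b')))).of_eq (by module)

lemma Ov.sum {ι : Type*} {s : Finset ι} {P Q : ι → A M} {ϖ : ι → ℝ}
    (h : ∀ i ∈ s, Ov (P i) (Q i) (ϖ i)) : Ov (∑ i ∈ s, P i) (∑ i ∈ s, Q i) (∑ i ∈ s, ϖ i) := by
  classical
  induction s using Finset.induction_on with
  | empty => exact ⟨0, NN.zero, by simp, by simpa using NN.zero, by simpa using NN.zero⟩
  | insert i s hi ih =>
    rw [Finset.sum_insert hi, Finset.sum_insert hi, Finset.sum_insert hi]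
    obtain ⟨ω, h1, h2, h3, h4⟩ := h i (by simp)
    obtain ⟨ω', h1', h2', h3', h4'⟩ := ih fun j hj => h j (by simp [hj])
    exact ⟨ω + ω', h1.add h1', by rw [map_add]; linarith, (h3.add h3').of_eq (by abel),
      (h4.add h4').of_eq (by abel)⟩

/-- The part of the product in which exactly `k` letters survive. -/
noncomputable def XX (p : ℝ) (g ψ : A M) (s : List Bool) (k : ℕ) : A M :=
  SumL k fun T => HH p s T • wd g ψ T

/-- The letter attached to a bit. -/
noncomputable def lt (g ψ : A M) (y : Bool) : A M := if y then g + ψ else g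

lemma XX_nil (p : ℝ) (g ψ : A M) (k : ℕ) : XX p g ψ [] k = if k = 0 then 1 else 0 := by
  cases k with
  | zero => simp [XX, SumL, HH, wd]
  | succ k => simp [XX, SumL, HH, SumL_zero]

lemma XX_zero (p : ℝ) (g ψ : A M) (y : Bool) (s : List Bool) :
    XX p g ψ (y :: s) 0 = (1 - p) • XX p g ψ s 0 := by
  simp [XX, SumL, HH, mul_smul]

lemma XX_succ (p : ℝ) (g ψ : A M) (y : Bool) (s : List Bool) (k : ℕ) :
    XX p g ψ (y :: s) (k + 1) = (1 - p) • XX p g ψ s (k + 1) + p • (lt g ψ y * XX p g ψ s k) := by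
  have e : ∀ x : A M, (SumL k fun T => HH p s T • (x * wd g ψ T)) = x * XX p g ψ s k := fun x => by
    simp only [XX, ← SumL_mul, mul_smul_comm]
  cases y
  · simp only [XX, SumL, HH, wd, lt, add_smul, mul_smul, SumL_add, SumL_smul, Bool.false_eq_true,
      false_and, and_true, if_true, if_false, zero_smul, SumL_zero, e]
    module
  · simp only [XX, SumL, HH, wd, lt, add_smul, mul_smul, SumL_add, SumL_smul, Bool.true_eq_false,
      and_false, if_true, if_false, e, add_mul]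
    module

variable {p : ℝ} {g ψ : A M}

lemma XX_nn (h0 : 0 ≤ p) (h1 : p ≤ 1) (hl : ∀ y, NN (lt g ψ y)) (s : List Bool) :
    ∀ k, NN (XX p g ψ s k) := by
  induction s with
  | nil =>
    intro k
    rw [XX_nil]
    split_ifs
    · exact NN.one
    · exact NN.zero
  | cons y s ih =>
    intro k
    cases k with
    | zero => rw [XX_zero]; exact (ih 0).smul (by linarith)
    | succ k =>
      rw [XX_succ]
      exact ((ih _).smul (by linarith)).add (((hl y).mul (ih k)).smul h0)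

lemma XX_mass (hl : ∀ y, mass (lt g ψ y) = 1) (s : List Bool) :
    ∀ k, mass (XX p g ψ s k) = bn p s.length k := by
  induction s with
  | nil => intro k; rw [XX_nil, List.length_nil, bn_zero_left]; split_ifs <;> simp
  | cons y s ih =>
    intro k
    cases k with
    | zero => rw [XX_zero, List.length_cons, bn_succ_zero, map_smul, ih, smul_eq_mul]
    | succ k => simp [XX_succ, bn_succ_succ, ih, hl]

lemma XX_sum (s : List Bool) : ∀ K, s.length ≤ K → ∑ k ∈ range (K + 1), XX p g ψ s k =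
    (s.map fun y => (1 - p) • (1 : A M) + p • lt g ψ y).prod := by
  induction s with
  | nil => intro K _; simp [XX_nil]
  | cons y s ih =>
    intro K hK
    obtain ⟨K, rfl⟩ : ∃ K', K = K' + 1 := ⟨K - 1, by simp at hK; omega⟩
    rw [List.length_cons] at hK
    rw [Finset.sum_range_succ', List.map_cons, List.prod_cons, add_mul, smul_mul_assoc, one_mul,
      smul_mul_assoc]
    nth_rw 1 [← ih (K + 1) (by omega)]
    rw [← ih K (by omega), Finset.sum_range_succ' _ (K + 1)]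
    simp only [XX_succ, XX_zero, Finset.sum_add_distrib, ← Finset.smul_sum, ← Finset.mul_sum]
    module

lemma Str_prod {R : Type*} [Monoid R] (f : Bool → R) (a r : ℕ) : ∀ n, ((Str a n r).map f).prod =
    f false ^ n * (f false ^ a * f true * f false ^ a) ^ r := by
  induction r with
  | zero => simp [Str]
  | succ r ih => intro n; simp [Str, ih, pow_add, pow_succ', mul_assoc]

lemma XX_close (hg : Prob g) {c : ℝ} (hc : 0 < c) (hψ : Abs ψ (c • g)) (m0 : mass ψ = 0)
    (h0 : 0 < p) (h1 : p < 1) {p0 : ℝ} (hp : 0 < p0) {a R r k : ℕ} (ha : 0 < a)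
    (hR : R + 1 ≤ 2 * a + 1) (hr : r ≤ R) {l : ℝ} (hl : 34 / p0 ^ 3 * (√R / √a) ≤ l)
    (hbl : 4 * c ^ 2 * l ≤ p0 ^ 3 / 16384) (N0 : 0 < (2 * a + 1) * r)
    (k0 : p0 ≤ k / ((2 * a + 1) * r : ℕ)) (k1 : (k : ℝ) / ((2 * a + 1) * r : ℕ) ≤ 1 - p0) :
    Nm (XX p g ψ (Str a 0 r) k - bn p ((2 * a + 1) * r) k • g ^ k)
      (bn p ((2 * a + 1) * r) k / 4) := by
  set N := (2 * a + 1) * r with hN
  set p' : ℝ := k / N with hp'
  have len : (Str a 0 r).length = N := by rw [Str_length, zero_add]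
  obtain ⟨f, hf, hf0, hn⟩ := hψ.dom.decomp0 hg hc.le m0
  have e0 := sub_eq_zero.1 (Nm.eq_zero (hn.mono (by simp)))
  have e1 : ∑ w ∈ g.coeff.support, g.coeff w = 1 := by rw [← mass_eq, hg.2]
  have kb := bessel g.coeff.support (fun w => single w (g.coeff w)) f
    (fun w _ => NN.single w (hg.1 w)) (by simpa using e1) (by simpa using hf0) (β := 4 * c ^ 2)
    (by
      simp only [mass_single]
      calc ∑ w ∈ g.coeff.support, f w ^ 2 * g.coeff w
          ≤ ∑ w ∈ g.coeff.support, 4 * c ^ 2 * g.coeff w := Finset.sum_le_sum fun w _ =>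
            mul_le_mul_of_nonneg_right (by
              have := sq_le_sq' (abs_le.1 (hf w)).1 (abs_le.1 (hf w)).2
              linarith) (hg.1 w)
        _ = 4 * c ^ 2 := by rw [← Finset.mul_sum, e1, mul_one]) k
    (fun T => if true ∈ T then HH p (Str a 0 r) T else 0)
  rw [← eq_sum g, ← e0] at kb
  simp only [ite_smul, zero_smul, ite_pow, ne_eq, OfNat.ofNat_ne_zero, not_false_eq_true,
    zero_pow, ite_mul, zero_mul, SumL_sub_first, wd_replicate, HH_false, len] at kb
  refine Nm.mono kb ?_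
  have Np : (0 : ℝ) < N := by exact_mod_cast N0
  have q0 : 0 < p' := by linarith
  have q1 : 0 < 1 - p' := by linarith
  have q2 : 0 < 1 - p := by linarith
  set lam := (p ^ k * (1 - p) ^ N * (1 - p') ^ k) / (p' ^ k * (1 - p') ^ N * (1 - p) ^ k) with hlam
  have sc : ∀ T : List Bool, T.length = k → HH p (Str a 0 r) T = lam * HH p' (Str a 0 r) T := by
    intro T hT
    have := HH_scale p p' (Str a 0 r) T
    rw [hT, len] at this
    rw [hlam, div_mul_eq_mul_div, eq_div_iff (by positivity), this, mul_comm]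
  have sb : bn p N k = lam * bn p' N k := by
    have := sc (List.replicate k false) (by simp)
    rwa [HH_false, HH_false, len] at this
  have e2 : (SumL k fun T => HH p (Str a 0 r) T ^ 2 * (4 * c ^ 2) ^ T.count true) =
      lam ^ 2 * FF p' (4 * c ^ 2) a 0 r r k := by
    rw [FF, ← SumL_mul]
    refine SumL_congr _ _ _ fun T hT => ?_
    rw [sc T hT]
    ring
  have p1 : p0 ≤ 1 := by linarith
  have p3 : p0 ^ 3 ≤ 1 := pow_le_one₀ hp.le p1
  have ex := excess hp k0 k1 ha hR (β := 4 * c ^ 2) (by positivity) hl (by linarith) hr k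
  have kpos : 0 < k := by
    have : (0 : ℝ) < k := by
      by_contra h
      have : (k : ℝ) = 0 := le_antisymm (not_lt.1 h) (Nat.cast_nonneg k)
      rw [hp', this, zero_div] at q0
      exact lt_irrefl _ q0
    exact_mod_cast this
  have kN : k < N := by
    have : p' < 1 := by linarith
    rw [hp', div_lt_one Np] at this
    exact_mod_cast this
  have mg := bn_mode_ge kpos kN
  rw [← hN] at ex
  rw [← hp'] at mg
  have b0 : 0 ≤ bn p N k := bn_nonneg h0.le h1.le _ _
  refine sqrt_le_iff.2 ⟨by positivity, ?_⟩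
  rw [e2, List.count_replicate]
  have hk : p0 * N ≤ k := by rwa [hp', le_div_iff₀ Np] at k0
  have : 8 * (4 * c ^ 2) * l / (p0 ^ 2 * (k + 1)) ≤ bn p' N k ^ 2 / 16 := by
    rw [div_le_div_iff₀ (by positivity) (by positivity)]
    have t1 : p0 ^ 3 * 1 ≤ p0 ^ 3 * (128 * N * bn p' N k ^ 2) :=
      mul_le_mul_of_nonneg_left mg (by positivity)
    have t2 : bn p' N k ^ 2 * (p0 ^ 2 * (p0 * N)) ≤ bn p' N k ^ 2 * (p0 ^ 2 * (k + 1)) := by
      gcongr; linarith
    nlinarith
  rw [sb]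
  have := mul_le_mul_of_nonneg_left (ex.trans this) (sq_nonneg lam)
  simp
  nlinarith

set_option maxHeartbeats 1000000 in
theorem marginal (hg : Prob g) {c : ℝ} (hc : 0 < c) (hψ : Abs ψ (c • g)) (m0 : mass ψ = 0)
    (hz : NN (g + ψ)) (h0 : 0 < p) (h1 : p < 1) : ∃ ϖ > (0 : ℝ), ∃ a0 : ℕ, ∀ a ≥ a0, ∃ r < a,
      Ov ((((1 - p) • 1 + p • g) ^ a * ((1 - p) • 1 + p • (g + ψ)) * ((1 - p) • 1 + p • g) ^ a) ^ r)
        ((((1 - p) • 1 + p • g) ^ a * ((1 - p) • 1 + p • (g + ψ)) * ((1 - p) • 1 + p • g) ^ a) ^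
          (r + 1)) ϖ := by
  set p0 := min p (1 - p) / 2 with hp0
  have hp : 0 < p0 := by have := lt_min h0 (sub_pos.2 h1); linarith
  have l1 : 2 * p0 ≤ p := by have := min_le_left p (1 - p); linarith
  have l2 : 2 * p0 ≤ 1 - p := by have := min_le_right p (1 - p); linarith
  set l := p0 ^ 3 / 16384 / (4 * c ^ 2) with hl
  have lp : 0 < l := by positivity
  obtain ⟨G, hG⟩ := exists_nat_gt ((34 / p0 ^ 3 / l) ^ 2)
  have G0 : (0 : ℝ) < G := lt_of_le_of_lt (sq_nonneg _) hG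
  have G1 : 0 < G := by exact_mod_cast G0
  obtain ⟨J, hJ⟩ := exists_nat_gt (24 * G / p0 ^ 2)
  have J0 : (0 : ℝ) < J := lt_of_le_of_lt (by positivity) hJ
  have J1 : 0 < J := by exact_mod_cast J0
  obtain ⟨a1, ha1⟩ := exists_nat_gt (4 / (p0 ^ 2 * (1 / 2) ^ J))
  refine ⟨3 / 8 * (1 / 2) ^ J, by positivity, 4 * G + J + a1, fun a ha => ?_⟩
  obtain ⟨r, hr⟩ : ∃ r, a / G = r + 1 := ⟨a / G - 1, by
    have : 0 < a / G := Nat.div_pos (by omega) G1
    omega⟩
  have d1 : G * (r + 1) ≤ a := hr ▸ Nat.mul_div_le a G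
  have d2 : a < G * (r + 1 + 1) := hr ▸ Nat.lt_mul_div_succ a G1
  have ra : r + 1 ≤ a := le_trans (Nat.le_mul_of_pos_left _ G1) d1
  have r2 : a ≤ 2 * G * r := by nlinarith
  have r0 : 0 < r := by
    rcases Nat.eq_zero_or_pos r with h | h
    · rw [h] at r2; omega
    · exact h
  refine ⟨r, by omega, ?_⟩
  have apos : (0 : ℝ) < a := by exact_mod_cast (by omega : 0 < a)
  have hlt : ∀ y, Prob (lt g ψ y) := fun y => by
    cases y
    · exact hg
    · exact ⟨hz, by simp [lt, hg.2, m0]⟩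
  have hl' : 34 / p0 ^ 3 * (√(r + 1 : ℕ) / √a) ≤ l := by
    rw [← sqrt_div' _ apos.le]
    have : √(((r + 1 : ℕ) : ℝ) / a) ≤ l / (34 / p0 ^ 3) := by
      refine sqrt_le_iff.2 ⟨by positivity, ?_⟩
      have e : (l / (34 / p0 ^ 3)) ^ 2 * (34 / p0 ^ 3 / l) ^ 2 = 1 := by field_simp
      have : (G : ℝ) * (r + 1 : ℕ) ≤ a := by exact_mod_cast d1
      rw [div_le_iff₀ apos]
      have t := mul_le_mul_of_nonneg_left hG.le (sq_nonneg (l / (34 / p0 ^ 3)))
      have r1 : (0 : ℝ) ≤ (r + 1 : ℕ) := Nat.cast_nonneg _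
      nlinarith [mul_le_mul_of_nonneg_left this (sq_nonneg (l / (34 / p0 ^ 3)))]
    rwa [le_div_iff₀' (by positivity)] at this
  set m := 2 * a + 1 with hm
  have key : ∀ r' k : ℕ, r ≤ r' → r' ≤ r + 1 → |(k : ℝ) - (m * r' : ℕ) * p| < p0 * (m * r' : ℕ) →
      ∃ X, Prob X ∧ XX p g ψ (Str a 0 r') k = bn p (m * r') k • X ∧ Nm (X - g ^ k) (1 / 4) := by
    intro r' k a1 a2 hk
    have N0 : 0 < m * r' := Nat.mul_pos (by omega) (by omega)
    have Np : (0 : ℝ) < (m * r' : ℕ) := by exact_mod_cast N0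
    obtain ⟨b1, b2⟩ := abs_lt.1 hk
    have k1 : (k : ℝ) / (m * r' : ℕ) ≤ 1 - p0 := by rw [div_le_iff₀ Np]; nlinarith
    have cl := XX_close hg hc hψ m0 h0 h1 hp (by omega) (R := r + 1) (by omega) a2 hl'
      (le_of_eq (by rw [hl]; field_simp)) N0 (by rw [le_div_iff₀ Np]; nlinarith) k1
    have kN : k ≤ m * r' := by
      rw [div_le_iff₀ Np] at k1
      have : (k : ℝ) ≤ (m * r' : ℕ) := by nlinarith
      exact_mod_cast this
    have bp : 0 < bn p (m * r') k := by
      have := Nat.choose_pos kN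
      have := sub_pos.2 h1
      unfold bn
      positivity
    refine ⟨(bn p (m * r') k)⁻¹ • XX p g ψ (Str a 0 r') k, ⟨(XX_nn h0.le h1.le
      (fun y => (hlt y).1) _ _).smul (by positivity), ?_⟩, ?_, ?_⟩
    · rw [map_smul, XX_mass fun y => (hlt y).2, Str_length, zero_add, smul_eq_mul,
        inv_mul_cancel₀ bp.ne']
    · rw [smul_smul, mul_inv_cancel₀ bp.ne', one_smul]
    · refine ((cl.smul (bn p (m * r') k)⁻¹).of_eq ?_).mono (le_of_eq ?_)
      · rw [smul_sub, smul_smul, inv_mul_cancel₀ bp.ne', one_smul]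
      · rw [abs_of_pos (by positivity), ← hm]
        field_simp
  classical
  let S := (range (m * r + 1)).filter fun k : ℕ => |(k : ℝ) - (m * r : ℕ) * p| < p0 * (m * r : ℕ) ∧
    |(k : ℝ) - (m * (r + 1) : ℕ) * p| < p0 * (m * (r + 1) : ℕ)
  have ov : Ov (∑ k ∈ S, XX p g ψ (Str a 0 r) k) (∑ k ∈ S, XX p g ψ (Str a 0 (r + 1)) k)
      (∑ k ∈ S, min (bn p (m * r) k) (bn p (m * (r + 1)) k) * (3 / 4)) := by
    refine Ov.sum fun k hk => ?_
    obtain ⟨X, x1, x2, x3⟩ := key r k le_rfl (by omega) (mem_filter.1 hk).2.1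
    obtain ⟨Y, y1, y2, y3⟩ := key (r + 1) k (by omega) le_rfl (mem_filter.1 hk).2.2
    rw [x2, y2]
    refine Ov.scale ?_ x1.1 y1.1 (bn_nonneg h0.le h1.le _ _) (bn_nonneg h0.le h1.le _ _)
    exact (Ov.of_nm x1.1 y1.1 x1.2 y1.2 ((x3.add y3.neg).of_eq (by abel))).mono (by norm_num)
  have sub : ∀ r' ≤ r + 1, NN ((((1 - p) • 1 + p • g) ^ a * ((1 - p) • 1 + p • (g + ψ)) *
      ((1 - p) • 1 + p • g) ^ a) ^ r' - ∑ k ∈ S, XX p g ψ (Str a 0 r') k) := by
    intro r' hr'
    have := XX_sum (p := p) (g := g) (ψ := ψ) (Str a 0 r') (m * (r + 1)) (by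
      rw [Str_length, zero_add]; exact Nat.mul_le_mul_left _ hr')
    rw [Str_prod] at this
    simp only [lt, pow_zero, one_mul, Bool.false_eq_true, if_false, if_true] at this
    have ss : S ⊆ range (m * (r + 1) + 1) := fun k hk => by
      have := mem_range.1 (mem_filter.1 hk).1
      rw [mem_range]
      nlinarith
    rw [← this, ← Finset.sum_sdiff ss, add_sub_cancel_right]
    exact NN.sum fun k _ => XX_nn h0.le h1.le (fun y => (hlt y).1) _ _
  obtain ⟨ω, o1, o2, o3, o4⟩ := ov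
  refine ⟨ω, o1, le_trans ?_ o2, ((sub r (by omega)).add o3).of_eq (by abel),
    ((sub (r + 1) le_rfl).add o4).of_eq (by abel)⟩
  have mp : (0 : ℝ) < m := by exact_mod_cast (by omega : 0 < m)
  have bo := bn_ov hp (p := p) (by linarith) (by linarith) (n := m * r / J) (h := m / J + 1)
    (J := J) (m := m) (N := m * r) ?_ (Nat.lt_mul_div_succ m J1).le (Nat.mul_div_le _ _)
  · rw [← Finset.sum_mul]
    rw [← mul_add_one] at bo
    rw [← Finset.sum_filter_add_sum_filter_not (range (m * r + 1)) (fun k : ℕ =>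
      |(k : ℝ) - (m * r : ℕ) * p| < p0 * (m * r : ℕ) ∧
      |(k : ℝ) - (m * (r + 1) : ℕ) * p| < p0 * (m * (r + 1) : ℕ))] at bo
    have tl : ∀ N : ℕ, a ≤ N → ∑ k ∈ (range (m * r + 1)).filter fun k : ℕ =>
        ¬ |(k : ℝ) - N * p| < p0 * N, bn p N k ≤ (1 / 2) ^ J / 4 := by
      intro N hN
      have Np : (a : ℝ) ≤ N := by exact_mod_cast hN
      refine (bn_tail h0.le h1.le N (y := p0 * N) (mul_pos hp (by linarith)) _ fun t ht =>
        not_lt.1 (mem_filter.1 ht).2).trans ?_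
      have : (a1 : ℝ) ≤ a := by exact_mod_cast (by omega : a1 ≤ a)
      rw [div_lt_iff₀ (by positivity)] at ha1
      rw [div_le_div_iff₀ (pow_pos (mul_pos hp (by linarith)) 2) (by norm_num)]
      have t : (a1 : ℝ) * (p0 ^ 2 * (1 / 2) ^ J) ≤ N * (p0 ^ 2 * (1 / 2) ^ J) := by
        gcongr; linarith
      nlinarith
    have t1 := tl (m * r) (by nlinarith)
    have t2 := tl (m * (r + 1)) (by nlinarith)
    have : ∑ k ∈ (range (m * r + 1)).filter fun k : ℕ => ¬ (
        |(k : ℝ) - (m * r : ℕ) * p| < p0 * (m * r : ℕ) ∧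
        |(k : ℝ) - (m * (r + 1) : ℕ) * p| < p0 * (m * (r + 1) : ℕ)),
        min (bn p (m * r) k) (bn p (m * (r + 1)) k) ≤ (1 / 2) ^ J / 4 + (1 / 2) ^ J / 4 := by
      refine le_trans ?_ (add_le_add t1 t2)
      rw [Finset.sum_filter, Finset.sum_filter, Finset.sum_filter, ← Finset.sum_add_distrib]
      refine Finset.sum_le_sum fun k _ => ?_
      have b1 := bn_nonneg h0.le h1.le (m * r) k
      have b2 := bn_nonneg h0.le h1.le (m * (r + 1)) k
      have b3 := min_le_left (bn p (m * r) k) (bn p (m * (r + 1)) k)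
      have b4 := min_le_right (bn p (m * r) k) (bn p (m * (r + 1)) k)
      split_ifs <;> first | linarith | tauto
    linarith
  · refine (abs_le_of_sq_le_sq' ?_ (by positivity)).2
    rw [mul_pow, sq_sqrt (by positivity)]
    have e1 : ((m / J + 1 : ℕ) : ℝ) * J ≤ 2 * m := by
      have := Nat.div_mul_le_self m J
      exact_mod_cast (by nlinarith : (m / J + 1) * J ≤ 2 * m)
    have e2 : (m : ℝ) * r ≤ J * ((m * r / J : ℕ) + 1) := by
      exact_mod_cast (Nat.lt_mul_div_succ (m * r) J1).le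
    have e3 : (m : ℝ) ≤ 6 * G * r := by exact_mod_cast (by nlinarith : m ≤ 6 * G * r)
    rw [div_lt_iff₀ (by positivity)] at hJ
    have e4 : (((m / J + 1 : ℕ) : ℝ) * J) ^ 2 ≤ (2 * m) ^ 2 := pow_le_pow_left₀ (by positivity) e1 2
    refine le_of_mul_le_mul_right ?_ (pow_pos J0 2)
    have r' : (0 : ℝ) ≤ r := Nat.cast_nonneg r
    calc _ = (((m / J + 1 : ℕ) : ℝ) * J) ^ 2 := by ring
      _ ≤ 4 * m * m := by linarith
      _ ≤ 4 * m * (6 * G * r) := by gcongr
      _ = 24 * G * (m * r) := by ring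
      _ ≤ J * p0 ^ 2 * (J * ((m * r / J : ℕ) + 1)) := by gcongr
      _ = _ := by ring

end Vale.Agent.P321
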