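import Vale.Agent.P321.Step
import Vale.Agent.P321.Marginal

/-! The first level and the iteration. -/

namespace Vale.Agent.P321

open Real Finset MonoidAlgebra

variable {M : Type*} [Monoid M] {c : Ctx} {u : A M}

lemma dev_ctx (K a b : ℕ) (X : A M) : dev u K (u ^ a * X * u ^ b) = u ^ a * dev u K X * u ^ b := by
  simp only [dev, SS_eq, mul_sub, sub_mul, mul_smul_comm, smul_mul_assoc, mul_sum, sum_mul,
    mul_assoc, ← pow_add]
  simp only [← mul_assoc, ← pow_add, add_comm]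

lemma dev_sub (K : ℕ) (X Y : A M) : dev u K (X - Y) = dev u K X - dev u K Y := by
  simp only [dev, SS_eq, mul_sub, sub_mul, sum_sub_distrib, smul_sub]
  abel

lemma dev_mass (K : ℕ) {X : A M} (h : mass X = 0) : mass (dev u K X) = 0 := by
  simp [dev, SS_eq, h]

lemma dev_dom (hu : Prob u) {K n : ℕ} (hK : 0 < K) {X : A M} {x y : ℝ} (hx : 0 ≤ x)
    (h : Dom X x (u ^ n) y) : Dom (dev u K X) (2 * x) (u ^ (n + (K - 1))) (2 * y) := by
  have k : ∀ a b, Dom (u ^ a * X * u ^ b) x (u ^ (a + n + b)) y := fun a b => by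
    have := ((Dom.refl (hu.pow a).1).mul h (hu.pow _) (hu.pow _) zero_le_one hx).mul
      (Dom.refl (hu.pow b).1) ((hu.pow _).mul (hu.pow _)) (hu.pow _) (by simpa using hx) zero_le_one
    simpa [← pow_add] using this
  have k1 := k 0 (K - 1)
  have k2 := (Dom.sum (s := range K) (P := u ^ (n + (K - 1))) fun i hi => by
    have := k i (K - 1 - i)
    rwa [show i + n + (K - 1 - i) = n + (K - 1) by have := mem_range.1 hi; omega] at this).smul
      (1 / K : ℝ)
  have K0 : (0 : ℝ) < K := by exact_mod_cast hK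
  rw [pow_zero, one_mul, zero_add] at k1
  rw [sum_const, sum_const, card_range, nsmul_eq_mul, nsmul_eq_mul, abs_of_pos (by positivity),
    ← mul_assoc, ← mul_assoc, one_div_mul_cancel K0.ne', one_mul, one_mul, ← SS_eq] at k2
  rw [two_mul, two_mul, dev, sub_eq_add_neg]
  exact k1.add k2.neg

lemma core_avg {Q : A M} (hs : Sl c u 0) (hQ : Dz c u 0 Q (-1) 1) (h0 : mass Q = 0) {k : ℕ}
    (hT : 6 * k + 10 ≤ c.T) : ∃ Q' : A M, ∃ W, W ≤ c.H ^ (2 * k) ∧ mass Q' = 0 ∧
      Dz c u 1 Q' (k - 3) (1 + W * c.T) ∧ ∀ i i', c.H ^ (4 * k + 8) ≤ i → c.H ^ (4 * k + 8) ≤ i' →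
        Dz c u (2 * c.T) (u ^ i * Q * u ^ (W * c.T + i') - u ^ i * Q' * u ^ i') (c.T - 1)
          (i + (1 + W * c.T) + i') := by
  set K := (c.H ^ k) ^ 2 with hK
  have K0 : 0 < K := pow_pos (c.pw_pos k) 2
  have K1 : K = c.H ^ (2 * k) := by rw [hK, ← pow_mul, mul_comm]
  have av := hQ.avg_one h0 (show k ≤ c.T by omega)
  rw [← hK, pow_one] at av
  set Φ := dev u K with hΦ
  have i1 : ∀ t a b (X : A M), Φ^[t] (u ^ a * X * u ^ b) = u ^ a * Φ^[t] X * u ^ b := by
    intro t a b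
    induction t with
    | zero => simp
    | succ t ih => intro X; rw [Function.iterate_succ_apply, hΦ, dev_ctx, ih]; rfl
  have i2 : ∀ t (X Y : A M), Φ^[t] (X - Y) = Φ^[t] X - Φ^[t] Y := by
    intro t
    induction t with
    | zero => simp
    | succ t ih => intro X Y; rw [Function.iterate_succ_apply, hΦ, dev_sub, ih]; rfl
  have i3 : ∀ t, mass (Φ^[t] Q) = 0 := by
    intro t
    induction t with
    | zero => exact h0
    | succ t ih => rw [Function.iterate_succ_apply']; exact dev_mass _ ih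
  set x := c.ε (-1 + (k - 1)) with hx
  have x0 : 0 < x := c.ε_pos _
  have i4 : ∀ t, Dom (Φ^[t] ((1 / K : ℝ) • SS u Q K)) (2 ^ t * x) (u ^ (1 + (K - 1) * (t + 1)))
      (2 ^ t * (x * c.δ 1)) := by
    intro t
    induction t with
    | zero => simpa [show 1 + (K - 1) = K by omega] using av.2
    | succ t ih =>
      have := dev_dom hs.1 K0 (by positivity) ih
      rw [Function.iterate_succ_apply', pow_succ', mul_assoc, mul_assoc]
      rwa [add_assoc, ← mul_add_one] at this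
  have i5 : ∀ t, Dom (Q * u ^ ((K - 1) * t) - Φ^[t] Q) ((2 ^ t - 1) * x) (u ^ (1 + (K - 1) * t))
      ((2 ^ t - 1) * (x * c.δ 1)) := by
    intro t
    induction t with
    | zero => simpa using Nm.zero.dom u
    | succ t ih =>
      have p : (0 : ℝ) ≤ 2 ^ t - 1 := sub_nonneg.2 (one_le_pow₀ one_le_two)
      have k1 := ih.mul (Dom.refl (hs.1.pow (K - 1)).1) (hs.1.pow _) (hs.1.pow _) (by positivity)
        zero_le_one
      rw [← pow_add, add_assoc 1, ← mul_add_one] at k1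
      have e : Q * u ^ ((K - 1) * (t + 1)) - Φ^[t + 1] Q =
          (Q * u ^ ((K - 1) * t) - Φ^[t] Q) * u ^ (K - 1) + Φ^[t] ((1 / K : ℝ) • SS u Q K) := by
        have := i1 t 0 (K - 1) Q
        rw [pow_zero, one_mul, one_mul] at this
        rw [Function.iterate_succ_apply, hΦ, dev, ← hΦ, i2, this, mul_add_one, pow_add]
        noncomm_ring
      rw [e]
      exact (k1.add (i4 t)).mono (hs.1.pow _).1 (le_of_eq (by ring)) (le_of_eq (by ring))
  set N := c.H ^ (4 * k + 7) with hN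
  have i6 : ∀ t, Dz c u (2 * t) (u ^ (t * N) * Φ^[t] Q * u ^ (t * N)) (t - 1)
      (1 + (K - 1) * t + 2 * (t * N)) := by
    intro t
    induction t with
    | zero => simpa using hQ
    | succ t ih =>
      refine (hs.avshift (r := 2 * k + 3) (η := 2 * k) (W := 1) (N := N) (by omega) (by omega) K0
        (by omega) (c.pw_le (by omega)) ih).to ?_ (by ring) (by omega) (by omega)
      rw [pow_one, dev_ctx, Function.iterate_succ_apply', add_one_mul, pow_add u _ N]
      nth_rw 1 [← pow_add, add_comm, pow_add]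
      simp only [mul_assoc]
      rfl
  have B1 : (5000 : ℝ) * 2 ^ c.T ≤ c.H := by exact_mod_cast c.B_le
  have B2 : (0 : ℝ) < 2 ^ c.T := by positivity
  refine ⟨_, K - 1, by omega, ?_, .of_dom hs.1 (i5 c.T) ?_ ?_, fun i i' hi hi' => ?_⟩
  · simp [h0, i3]
  · rw [show (k : ℤ) - 3 = -1 + (k - 1) - 1 by ring, c.ε_pred, ← hx]
    nlinarith
  · rw [show (k : ℤ) - 3 = -1 + (k - 1) - 1 by ring, c.ε_pred, ← hx]
    nlinarith [mul_pos x0 (c.δ_pos 1)]
  · have : c.T * N ≤ c.H ^ (4 * k + 8) := by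
      rw [pow_succ']
      have := c.B_le
      have : c.T < 2 ^ c.T := Nat.lt_two_pow_self
      exact Nat.mul_le_mul_right _ (by omega)
    obtain ⟨z, rfl⟩ : ∃ z, i = z + c.T * N := ⟨i - c.T * N, by omega⟩
    obtain ⟨z', rfl⟩ : ∃ z, i' = c.T * N + z := ⟨i' - c.T * N, by omega⟩
    refine ((i6 c.T).ctx z z').to ?_ (by omega) le_rfl le_rfl
    simp only [pow_add]
    noncomm_ring

theorem Lv.base {φ : Bool → A M} (hφ : ∀ b, Prob (φ b)) (hs : Sl c (φ false * φ true) 0)
    (hQ : Dz c (φ false * φ true) 0 (φ false - φ false * φ true) (-1) 1) {k y : ℕ}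
    (hT : 6 * k + 16 ≤ c.T) (hy : 4 * k + 13 ≤ y)
    (ho : Sl c ((φ false * φ true) ^ c.H ^ (4 * k + 12) * φ false *
      (φ false * φ true) ^ c.H ^ (4 * k + 12)) y) :
    Lv c φ (50 * c.T) 0 y (2 * k + 1) (4 * k + 11) (k - 3) (2 * k + 3) (4 * k + 8) (c.T - 3)
      (min (3 * k - 1 : ℤ) (c.T - 3) - 1) (min (5 * k + 4 : ℤ) (c.T - 3) - 1) (k - 4) := by
  set γ := φ false * φ true with hγ
  have pγ : Prob γ := hs.1
  obtain ⟨Q, W, hW, m0, hQ', er⟩ := core_avg hs hQ (by simp [(hφ _).2, pγ.2]) (k := k) (by omega)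
  set b := c.H ^ (4 * k + 11) with hb
  have b1 : 5000 * b ≤ c.H ^ (4 * k + 12) := c.pw_succ _
  have b2 : c.H ^ (4 * k + 8) ≤ b := c.pw_le (by omega)
  have b0 : 0 < b := c.pw_pos _
  have TH : c.T < c.H := by
    have := c.B_le
    have : c.T < 2 ^ c.T := Nat.lt_two_pow_self
    omega
  have W1 : 1 + W * c.T ≤ c.H ^ (2 * k + 1) := by
    have := c.pw_pos (2 * k)
    calc 1 + W * c.T ≤ c.H ^ (2 * k) + c.H ^ (2 * k) * c.T := by gcongr; omega
      _ = c.H ^ (2 * k) * (c.T + 1) := by ring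
      _ ≤ _ := by rw [pow_succ]; exact Nat.mul_le_mul_left _ TH
  have W2 : c.H ^ (2 * k + 1) ≤ b := c.pw_le (by omega)
  obtain ⟨p, hp⟩ : ∃ p, c.H ^ (4 * k + 12) = W * c.T + (b + (b + p)) + 1 :=
    ⟨c.H ^ (4 * k + 12) - (W * c.T + b + b + 1), by omega⟩
  have bp : b ≤ p := by omega
  set g := b + (b + p) with hg
  set a := W * c.T + g with ha
  set j := 6 * c.T + 3 with hj
  have hT1 := c.hT
  have S1 : ∀ N, b ≤ N → Dz c γ 1 (γ ^ (N + 1) - γ ^ N) (2 * k + 4) (N + 1) := fun N hN =>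
    (hs.slip (r := 2 * k + 5) (η := 0) (by omega) (by omega) (by simp)
      (le_trans (c.pw_le (by omega)) hN)).to rfl rfl le_rfl (by omega)
  have S2 : ∀ N, b ≤ N → Dz c γ j (γ ^ (N + 2) - γ ^ N) (2 * k + 3) (N + 2) := fun N hN =>
    (hs.slip (r := 2 * k + 5) (η := 1) (by omega) (by omega)
      (by simpa using le_trans (by norm_num) c.H_ge)
      (le_trans (c.pw_le (by omega)) hN)).to rfl rfl (by omega) (by omega)
  have S3 : ∀ N, b ≤ N → Dz c γ j ((γ ^ (b + 1) - γ ^ b) * (γ ^ (N + 1) - γ ^ N)) (4 * k + 8)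
      (b + N + 2) := fun N hN =>
    ((S1 b le_rfl).mul (S1 N hN)).to rfl (by omega) (by omega) (by omega)
  have S0 : ∀ N, Dz c γ j (γ ^ N) 0 N := fun N => (Dz.pow pγ N).to rfl rfl (by omega) le_rfl
  have half : |(1 / 2 : ℝ)| ≤ 1 := by rw [abs_of_pos] <;> norm_num
  have cm : ∀ i i', Commute γ (γ ^ i - γ ^ i') := fun i i' =>
    (Commute.self_pow _ _).sub_right (Commute.self_pow _ _)
  have e1 := er (a + 2) g (by omega) (by omega)
  have e2 := (er (a + 1) (g + 1) (by omega) (by omega)).to rfl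
    (show _ = a + 2 + (1 + W * c.T) + g by omega) le_rfl le_rfl
  have e3 := (er a (g + 2) (by omega) (by omega)).to rfl
    (show _ = a + 2 + (1 + W * c.T) + g by omega) le_rfl le_rfl
  set m := a + 2 + (1 + W * c.T) + g with hm
  set z := φ false with hz
  have rD : Rep c γ j b Q (1 + W * c.T) (2 * k + 3) (c.T - 3) m
      ((1 / 2 : ℝ) • (γ ^ (a + 2) * z * γ ^ a - γ ^ a * z * γ ^ (a + 2))) := by
    refine ⟨![(1 / 2 : ℝ) • (γ ^ (W * c.T + b + p + 2) - γ ^ (W * c.T + b + p)) *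
      (γ ^ b * Q * γ ^ b) * γ ^ (b + p), -((1 / 2 : ℝ) • γ ^ (W * c.T + b + p)) *
      (γ ^ b * Q * γ ^ b) * (γ ^ (b + p + 2) - γ ^ (b + p)), 0], fun i => ?_,
      ((e1.sub e3).smul half).to ?_ rfl (by omega) (by omega)⟩
    · fin_cases i
      · exact ⟨_, _, _, _, _, _, rfl, (cm _ _).smul_right _, Commute.self_pow _ _,
          (S2 _ (by omega)).smul half, S0 _, by omega, by omega⟩
      · exact ⟨_, _, _, _, _, _, rfl, ((Commute.self_pow _ _).smul_right _).neg_right, cm _ _,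
          ((S0 _).smul half).neg, S2 _ (by omega), by omega, by omega⟩
      · exact ⟨0, 1, 2 * k + 3, 0, m - (b + (1 + W * c.T) + b), 0, by simp, Commute.zero_right _,
          Commute.one_right _, Dz.zero pγ, by simpa using S0 0, by omega, by omega⟩
    · simp only [Fin.sum_univ_three, Matrix.cons_val_zero, Matrix.cons_val_one, Matrix.cons_val,
        mul_sub, sub_mul, neg_mul, smul_mul_assoc, mul_assoc, ← pow_add]
      simp only [← mul_assoc, ← pow_succ, ← pow_add, ha, hg]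
      ring_nf
      module
  have rE : Rep c γ j b Q (1 + W * c.T) (4 * k + 8) (c.T - 3) m
      ((1 / 2 : ℝ) • (γ ^ (a + 2) * z * γ ^ a + γ ^ a * z * γ ^ (a + 2)) -
        γ ^ (a + 1) * z * γ ^ (a + 1)) := by
    refine ⟨![(1 / 2 : ℝ) • ((γ ^ (b + 1) - γ ^ b) * (γ ^ (W * c.T + p + 1) - γ ^ (W * c.T + p))) *
      (γ ^ b * Q * γ ^ b) * γ ^ (b + p),
      -(γ ^ (W * c.T + b + p + 1) - γ ^ (W * c.T + b + p)) *
      (γ ^ b * Q * γ ^ b) * (γ ^ (b + p + 1) - γ ^ (b + p)),
      (1 / 2 : ℝ) • γ ^ (W * c.T + b + p) *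
      (γ ^ b * Q * γ ^ b) * ((γ ^ (b + 1) - γ ^ b) * (γ ^ (p + 1) - γ ^ p))], fun i => ?_,
      (((e1.add e3).smul half).sub e2).to ?_ rfl (by omega) (by omega)⟩
    · fin_cases i
      · exact ⟨_, _, _, _, _, _, rfl, ((cm _ _).mul_right (cm _ _)).smul_right _,
          Commute.self_pow _ _, (S3 _ (by omega)).smul half, S0 _, by omega, by omega⟩
      · exact ⟨_, _, _, _, _, _, rfl, (cm _ _).neg_right, cm _ _,
          (S1 _ (by omega)).neg.to rfl rfl (by omega) le_rfl,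
          (S1 _ (by omega)).to rfl rfl (by omega) le_rfl, by omega, by omega⟩
      · exact ⟨_, _, _, _, _, _, rfl, (Commute.self_pow _ _).smul_right _,
          (cm _ _).mul_right (cm _ _), (S0 _).smul half, S3 _ bp, by omega, by omega⟩
    · simp only [Fin.sum_univ_three, Matrix.cons_val_zero, Matrix.cons_val_one, Matrix.cons_val,
        mul_sub, sub_mul, neg_mul, smul_mul_assoc, mul_assoc, ← pow_add, smul_sub]
      simp only [← mul_assoc, ← pow_succ, ← pow_add, ha, hg]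
      ring_nf
      module
  have hQ1 : Dz c γ j Q (k - 3) (1 + W * c.T) := hQ'.to rfl rfl (by omega) le_rfl
  have mono : ∀ {σ X}, Rep c γ j b Q (1 + W * c.T) σ (c.T - 3) m X →
      Rep c γ (50 * c.T) b Q (1 + W * c.T) σ (c.T - 3) m X := by
    rintro σ X ⟨t, h1, h2⟩
    refine ⟨t, fun i => ?_, h2.to rfl rfl (by omega) le_rfl⟩
    obtain ⟨X1, Y1, α, β, p, q, a1, a2, a3, a4, a5, a6⟩ := h1 i
    exact ⟨X1, Y1, α, β, p, q, a1, a2, a3, a4.to rfl rfl (by omega) le_rfl,
      a5.to rfl rfl (by omega) le_rfl, a6⟩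
  let U : ℕ → ℕ → List Bool := fun i i' => (List.replicate i [false, true]).flatten ++ false ::
    (List.replicate i' [false, true]).flatten
  have lU : ∀ i i', (U i i').length = 2 * (i + i') + 1 := fun i i' => by simp [U]; ring
  have wU : ∀ i i', lw φ (U i i') = γ ^ i * z * γ ^ i' := fun i i' => by
    have e : lw φ [false, true] = γ := by simp [lw, hγ, hz]
    change lw φ (_ ++ ([false] ++ _)) = _
    rw [lw_append, lw_append, lw_rep, lw_rep, e, mul_assoc]
    simp [lw, hz]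
  refine ⟨U (a + 1) (a + 1), U (a + 2) a, U a (a + 2), γ, Q, _, _, m, b, 1 + W * c.T, ?_, ?_, ?_,
    ?_, ?_, ?_, hs, ?_, ?_, le_rfl, W1, m0, hQ'.to rfl rfl (by omega) le_rfl, mono rD, mono rE,
    (rD.dz hQ1).to rfl rfl (by omega) (by omega), (rE.dz hQ1).to rfl rfl (by omega) (by omega), ?_⟩
  · rw [lU, lU]; ring
  · rw [lU, lU]; ring
  · have : 5000 * c.H ^ (4 * k + 12) ≤ c.H ^ (4 * k + 13) := c.pw_succ (4 * k + 12)
    have := c.pw_le hy
    rw [lU]
    omega
  · intro hh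
    simp only [U, List.replicate_add a 2, List.flatten_append, List.append_assoc,
      List.append_cancel_left_eq] at hh
    obtain ⟨a', ha'⟩ : ∃ a', a = a' + 1 := ⟨a - 1, by omega⟩
    rw [ha'] at hh
    simp [List.replicate_succ] at hh
  · simp only [wU]
    module
  · simp only [wU]
    module
  · rwa [wU, ← hp]
  · have : c.H ^ (0 + 2 * (2 * k + 1) + 4) ≤ b := c.pw_le (by omega)
    omega
  · refine (e2.add ((hQ'.ctx (a + 1) (g + 1)).to rfl (by omega) le_rfl le_rfl)).to ?_ rfl (by omega)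
      (by omega)
    rw [wU, sub_add_cancel, ← add_assoc, ← ha, mul_sub, sub_mul, ← pow_succ, ← pow_add]
    congr 2
    omega

end Vale.Agent.P321
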