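import Vale.Agent.P321.Hoeff

/-! A Bessel type inequality for multilinear expansions, and tensorization. -/

namespace Vale.Agent.P321

open MonoidAlgebra Real

variable {M : Type*} [Monoid M]

/-- Sum over all bit strings of a given length. -/
def SumL {α : Type*} [AddCommMonoid α] : ℕ → (List Bool → α) → α
  | 0, φ => φ []
  | n + 1, φ => SumL n (fun T => φ (false :: T)) + SumL n (fun T => φ (true :: T))

lemma map_SumL {α β F : Type*} [AddCommMonoid α] [AddCommMonoid β] [FunLike F α β]
    [AddMonoidHomClass F α β] (f : F) (n : ℕ) : ∀ φ : List Bool → α,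
    f (SumL n φ) = SumL n fun T => f (φ T) := by
  induction n with
  | zero => intro φ; rfl
  | succ n ih => intro φ; simp only [SumL, map_add, ih]

lemma SumL_add {α : Type*} [AddCommMonoid α] (n : ℕ) : ∀ φ ψ : List Bool → α,
    SumL n (fun T => φ T + ψ T) = SumL n φ + SumL n ψ := by
  induction n with
  | zero => intro φ ψ; rfl
  | succ n ih =>
    intro φ ψ
    simp only [SumL]
    rw [ih (fun T => φ (false :: T)), ih (fun T => φ (true :: T))]
    abel

lemma SumL_zero {α : Type*} [AddCommMonoid α] (n : ℕ) : SumL n (fun _ => (0 : α)) = 0 := by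
  induction n with
  | zero => rfl
  | succ n ih => simp [SumL, ih]

lemma SumL_sum {α ι : Type*} [AddCommMonoid α] (n : ℕ) (s : Finset ι) (φ : ι → List Bool → α) :
    SumL n (fun T => ∑ i ∈ s, φ i T) = ∑ i ∈ s, SumL n (φ i) := by
  classical
  induction s using Finset.induction_on with
  | empty => simp [SumL_zero]
  | insert i s hi ih => simp only [Finset.sum_insert hi, SumL_add, ih]

lemma SumL_mul {α : Type*} [Semiring α] (n : ℕ) (c : α) (φ : List Bool → α) :
    SumL n (fun T => c * φ T) = c * SumL n φ :=
  (map_SumL (AddMonoidHom.mulLeft c) n φ).symm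

lemma SumL_smul (n : ℕ) (c : ℝ) (φ : List Bool → A M) :
    SumL n (fun T => c • φ T) = c • SumL n φ :=
  (map_SumL (DistribSMul.toAddMonoidHom (A M) c) n φ).symm

lemma SumL_nonneg (n : ℕ) : ∀ φ : List Bool → ℝ, (∀ T, 0 ≤ φ T) → 0 ≤ SumL n φ := by
  induction n with
  | zero => intro φ h; exact h []
  | succ n ih => intro φ h; exact add_nonneg (ih _ fun _ => h _) (ih _ fun _ => h _)

lemma SumL_congr {α : Type*} [AddCommMonoid α] (n : ℕ) : ∀ φ ψ : List Bool → α,
    (∀ T, T.length = n → φ T = ψ T) → SumL n φ = SumL n ψ := by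
  induction n with
  | zero => intro φ ψ h; exact h [] rfl
  | succ n ih =>
    intro φ ψ h
    simp only [SumL]
    rw [ih _ _ fun T hT => h (false :: T) (by simp [hT]),
      ih _ _ fun T hT => h (true :: T) (by simp [hT])]

lemma SumL_first {α : Type*} [AddCommMonoid α] (n : ℕ) : ∀ φ : List Bool → α,
    SumL n φ = φ (List.replicate n false) + ∑ t ∈ Finset.range n,
      SumL (n - 1 - t) fun T => φ (List.replicate t false ++ true :: T) := by
  induction n with
  | zero => intro φ; simp [SumL]
  | succ n ih =>
    intro φ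
    rw [SumL, ih, Finset.sum_range_succ', add_assoc]
    congr 2
    refine Finset.sum_congr rfl fun t _ => ?_
    rw [show n + 1 - 1 - (t + 1) = n - 1 - t by omega]
    rfl

/-- The product attached to a bit string. -/
noncomputable def wd (g ψ : A M) : List Bool → A M
  | [] => 1
  | false :: T => g * wd g ψ T
  | true :: T => ψ * wd g ψ T

lemma wd_replicate (g ψ : A M) (n : ℕ) : wd g ψ (List.replicate n false) = g ^ n := by
  induction n with
  | zero => simp [wd]
  | succ n ih => rw [List.replicate_succ, wd, ih, pow_succ']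

lemma mass_wd {g ψ : A M} (hψ : mass ψ = 0) (t : ℕ) (T : List Bool) :
    mass (wd g ψ (List.replicate t false ++ true :: T)) = 0 := by
  induction t with
  | zero => simp [wd, hψ]
  | succ t ih => rw [List.replicate_succ, List.cons_append, wd, map_mul, ih, mul_zero]

theorem bessel {ι : Type*} (s : Finset ι) (e : ι → A M) (f : ι → ℝ) (he : ∀ i ∈ s, NN (e i))
    (h1 : ∑ i ∈ s, mass (e i) = 1) (h0 : ∑ i ∈ s, f i * mass (e i) = 0) {β : ℝ}
    (h2 : ∑ i ∈ s, f i ^ 2 * mass (e i) ≤ β) (k : ℕ) : ∀ c : List Bool → ℝ,
    Nm (SumL k fun T => c T • wd (∑ i ∈ s, e i) (∑ i ∈ s, f i • e i) T)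
      (√(SumL k fun T => c T ^ 2 * β ^ T.count true)) := by
  have hβ : 0 ≤ β := (Finset.sum_nonneg fun i hi =>
    mul_nonneg (sq_nonneg _) (he i hi).mass_nonneg).trans h2
  induction k with
  | zero =>
    intro c
    simpa [SumL, wd, sqrt_sq_eq_abs] using (Prob.one (M := M)).nm.smul (c [])
  | succ k ih =>
    intro c
    set g := ∑ i ∈ s, e i with hg
    set ψ := ∑ i ∈ s, f i • e i with hψ
    let Q : (List Bool → ℝ) → ℝ := fun c => SumL k fun T => c T ^ 2 * β ^ T.count true
    have Q0 : ∀ c, 0 ≤ Q c := fun c => SumL_nonneg _ _ fun T => by positivity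
    have k1 := Nm.sum (s := s) fun i hi =>
      (he i hi).nm.mul (ih fun T => c (false :: T) + f i * c (true :: T))
    refine (k1.of_eq ?_).mono ?_
    · simp only [SumL, wd, ← mul_smul_comm, SumL_mul, add_smul, mul_smul, SumL_add, SumL_smul,
        mul_add, Finset.sum_add_distrib]
      rw [hg, hψ, Finset.sum_mul, Finset.sum_mul]
      simp only [mul_smul_comm, smul_mul_assoc]
    · refine le_sqrt_of_sq_le ?_
      refine (Finset.sum_sq_le_sum_mul_sum_of_sq_eq_mul s (f := fun i => mass (e i))
        (g := fun i => mass (e i) * Q fun T => c (false :: T) + f i * c (true :: T))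
        (fun i hi => (he i hi).mass_nonneg)
        (fun i hi => mul_nonneg (he i hi).mass_nonneg (Q0 _)) (fun i hi => ?_)).trans ?_
      · rw [mul_pow, sq_sqrt (Q0 _)]
        ring
      · have e1 : ∀ i, Q (fun T => c (false :: T) + f i * c (true :: T)) =
            Q (fun T => c (false :: T)) + f i * (2 * SumL k fun T =>
              c (false :: T) * c (true :: T) * β ^ T.count true) +
              f i ^ 2 * Q (fun T => c (true :: T)) := by
          intro i
          simp only [Q, ← SumL_mul, ← SumL_add]
          congr 1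
          funext T
          ring
        have e2 : (SumL (k + 1) fun T => c T ^ 2 * β ^ T.count true) =
            Q (fun T => c (false :: T)) + β * Q (fun T => c (true :: T)) := by
          simp only [SumL, Q, ← SumL_mul]
          congr 2
          funext T
          simp only [List.count_cons_self]
          ring
        have e3 : ∀ (a x y : ℝ) (i : ι), mass (e i) * (a + f i * x + f i ^ 2 * y) =
            mass (e i) * a + f i * mass (e i) * x + f i ^ 2 * mass (e i) * y := fun a x y i => by
          ring
        simp only [e1, e2, e3, h1, one_mul, Finset.sum_add_distrib, ← Finset.sum_mul, h0]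
        nlinarith [mul_le_mul_of_nonneg_right h2 (Q0 fun T => c (true :: T))]

lemma SumL_wd (g ψ : A M) (n : ℕ) : SumL n (wd g ψ) = (g + ψ) ^ n := by
  induction n with
  | zero => simp [SumL, wd]
  | succ n ih => simp only [SumL, wd, SumL_mul, ih, pow_succ', add_mul]

lemma SumL_pow (β : ℝ) (n : ℕ) : (SumL n fun T => β ^ T.count true) = (1 + β) ^ n := by
  induction n with
  | zero => simp [SumL]
  | succ n ih =>
    simp only [SumL, List.count_cons_self, pow_succ' β, SumL_mul, pow_succ' (1 + β), add_mul]
    simp [ih]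

lemma SumL_sub_first {α : Type*} [AddCommGroup α] (n : ℕ) (φ : List Bool → α) :
    (SumL n fun T => if true ∈ T then φ T else 0) = SumL n φ - φ (List.replicate n false) := by
  rw [SumL_first n φ, SumL_first n]
  simp

theorem tensor {x P : A M} {θ δ : ℝ} (hx : Prob x) (hP : Prob P) (h : Dom (x - P) θ P δ)
    (hθ : 0 ≤ θ) (θ1 : 2 * θ ≤ 1) (n : ℕ) :
    Nm (x ^ n - P ^ n) (√((1 + 4 * θ ^ 2) ^ n - 1) + n * (2 * δ)) := by
  obtain ⟨f, hf, hf0, hn⟩ := h.decomp0 hP hθ (by rw [map_sub, hx.2, hP.2, sub_self])
  have e1 : ∑ w ∈ P.coeff.support, P.coeff w = 1 := by rw [← mass_eq, hP.2]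
  have k := bessel P.coeff.support (fun w => single w (P.coeff w)) f
    (fun w _ => NN.single w (hP.1 w)) (by simpa using e1) (by simpa using hf0) (β := 4 * θ ^ 2)
    (by
      simp only [mass_single]
      calc ∑ w ∈ P.coeff.support, f w ^ 2 * P.coeff w
          ≤ ∑ w ∈ P.coeff.support, 4 * θ ^ 2 * P.coeff w := Finset.sum_le_sum fun w _ =>
            mul_le_mul_of_nonneg_right (by
              have := sq_le_sq' (abs_le.1 (hf w)).1 (abs_le.1 (hf w)).2
              linarith) (hP.1 w)
        _ = 4 * θ ^ 2 := by rw [← Finset.mul_sum, e1, mul_one]) n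
    (fun T => if true ∈ T then 1 else 0)
  have ab := abs_fam P.coeff.support (fun w => single w (P.coeff w)) f
    (fun w _ => NN.single w (hP.1 w)) (fun w _ => (hf w).trans θ1)
  rw [← eq_sum P] at k ab
  set Q1 := ∑ w ∈ P.coeff.support, f w • single w (P.coeff w) with hQ1
  simp only [ite_smul, one_smul, zero_smul, ite_pow, one_pow, ne_eq, OfNat.ofNat_ne_zero,
    not_false_eq_true, zero_pow, ite_mul, one_mul, zero_mul, SumL_sub_first, SumL_wd, SumL_pow,
    wd_replicate] at k
  have py : Prob (P + Q1) := ⟨by simpa using ab.2, by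
    rw [map_add, hP.2, hQ1, map_sum]
    simp [hf0]⟩
  have k2 := Nm.pow_sub hx py (hn.of_eq (by abel)) n
  refine ((k.add k2).of_eq (by abel)).mono (le_of_eq ?_)
  simp [List.count_replicate]

end Vale.Agent.P321
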