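import Vale.Agent.P321.Alg

/-! Elementary facts on binomial laws. -/

namespace Vale.Agent.P321

open MonoidAlgebra Real Finset

/-- The binomial law. -/
noncomputable def bn (p : ℝ) (n t : ℕ) : ℝ := n.choose t * p ^ t * (1 - p) ^ (n - t)

lemma bn_zero_left (p : ℝ) (t : ℕ) : bn p 0 t = if t = 0 then 1 else 0 := by
  cases t <;> simp [bn]

lemma bn_succ_zero (p : ℝ) (n : ℕ) : bn p (n + 1) 0 = (1 - p) * bn p n 0 := by
  simp [bn, pow_succ']

lemma bn_of_lt (p : ℝ) {n t : ℕ} (h : n < t) : bn p n t = 0 := by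
  simp [bn, Nat.choose_eq_zero_of_lt h]

lemma bn_succ_succ (p : ℝ) (n t : ℕ) :
    bn p (n + 1) (t + 1) = (1 - p) * bn p n (t + 1) + p * bn p n t := by
  unfold bn
  rw [Nat.choose_succ_succ', Nat.add_sub_add_right]
  push_cast
  by_cases h : t < n
  · obtain ⟨k, rfl⟩ := Nat.exists_eq_add_of_lt h
    rw [show t + k + 1 - t = k + 1 by omega, show t + k + 1 - (t + 1) = k by omega]
    ring
  · rw [Nat.choose_eq_zero_of_lt (show n < t + 1 by omega)]
    push_cast
    ring

lemma bn_nonneg {p : ℝ} (h0 : 0 ≤ p) (h1 : p ≤ 1) (n t : ℕ) : 0 ≤ bn p n t := by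
  have : 0 ≤ 1 - p := by linarith
  unfold bn
  positivity

lemma bn_rec (p : ℝ) (n : ℕ) (f : ℕ → ℝ) :
    ∑ t ∈ range (n + 2), bn p (n + 1) t * f t =
      (1 - p) * ∑ t ∈ range (n + 1), bn p n t * f t +
        p * ∑ t ∈ range (n + 1), bn p n t * f (t + 1) := by
  have e : ∑ t ∈ range (n + 1), bn p n t * f t = ∑ t ∈ range (n + 2), bn p n t * f t := by
    rw [sum_range_succ _ (n + 1), bn_of_lt p (Nat.lt_succ_self n), zero_mul, add_zero]
  rw [e, sum_range_succ' _ (n + 1), sum_range_succ' _ (n + 1), bn_succ_zero]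
  simp only [bn_succ_succ, add_mul, sum_add_distrib, mul_sum, mul_add, mul_assoc]
  ring

lemma bn_mom (p : ℝ) (n : ℕ) : ∀ a b c : ℝ,
    ∑ t ∈ range (n + 1), bn p n t * (a + b * (t - n * p) + c * (t - n * p) ^ 2) =
      a + c * (n * (p * (1 - p))) := by
  induction n with
  | zero => intro a b c; simp [bn]
  | succ n ih =>
    intro a b c
    rw [bn_rec]
    have e1 := ih (a - b * p + c * p ^ 2) (b - 2 * c * p) c
    have e2 := ih (a + b * (1 - p) + c * (1 - p) ^ 2) (b + 2 * c * (1 - p)) c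
    rw [sum_congr rfl fun t _ => show _ = bn p n t * (a - b * p + c * p ^ 2 +
        (b - 2 * c * p) * (t - n * p) + c * (t - n * p) ^ 2) by push_cast; ring, e1,
      sum_congr rfl fun t _ => show _ = bn p n t * (a + b * (1 - p) + c * (1 - p) ^ 2 +
        (b + 2 * c * (1 - p)) * (t - n * p) + c * (t - n * p) ^ 2) by push_cast; ring, e2]
    push_cast
    ring

lemma bn_sum (p : ℝ) (n : ℕ) : ∑ t ∈ range (n + 1), bn p n t = 1 := by
  simpa using bn_mom p n 1 0 0

lemma bn_le_range {p : ℝ} (h0 : 0 ≤ p) (h1 : p ≤ 1) (n : ℕ) (s : Finset ℕ) (f : ℕ → ℝ)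
    (hf : ∀ t, 0 ≤ f t) : ∑ t ∈ s, bn p n t * f t ≤ ∑ t ∈ range (n + 1), bn p n t * f t := by
  rw [← sum_filter_add_sum_filter_not s (fun t => t < n + 1)]
  rw [sum_eq_zero (s := filter (fun t => ¬ t < n + 1) s), add_zero]
  · exact sum_le_sum_of_subset_of_nonneg (fun t ht => mem_range.2 (mem_filter.1 ht).2)
      fun t _ _ => mul_nonneg (bn_nonneg h0 h1 n t) (hf t)
  · intro t ht
    rw [bn_of_lt p (by have := (mem_filter.1 ht).2; omega), zero_mul]

lemma bn_sum_le {p : ℝ} (h0 : 0 ≤ p) (h1 : p ≤ 1) (n : ℕ) (s : Finset ℕ) :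
    ∑ t ∈ s, bn p n t ≤ 1 := by
  simpa [bn_sum] using bn_le_range h0 h1 n s (fun _ => 1) (fun _ => zero_le_one)

lemma bn_var_le {p : ℝ} (h0 : 0 ≤ p) (h1 : p ≤ 1) (n : ℕ) (s : Finset ℕ) :
    ∑ t ∈ s, bn p n t * (t - n * p) ^ 2 ≤ n := by
  refine (bn_le_range h0 h1 n s _ fun _ => sq_nonneg _).trans ?_
  have := bn_mom p n 0 0 1
  simp only [zero_mul, add_zero, one_mul, zero_add] at this
  rw [this]
  have : p * (1 - p) ≤ 1 := by nlinarith
  nlinarith [Nat.cast_nonneg (α := ℝ) n]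

lemma bn_ratio (p : ℝ) (n t : ℕ) :
    (bn p (n + 1) t - bn p n t) * ((n + 1) * (1 - p)) = bn p (n + 1) t * (t - (n + 1 : ℕ) * p) := by
  by_cases h : t ≤ n
  · have := Nat.choose_mul_succ_eq n t
    have e : (n.choose t : ℝ) * (n + 1) = (n + 1).choose t * (n + 1 - t) := by
      rw [← Nat.cast_add_one, ← Nat.cast_sub (by omega)]
      exact_mod_cast this
    unfold bn
    rw [show n + 1 - t = n - t + 1 by omega, pow_succ]
    push_cast
    linear_combination (-(p ^ t * (1 - p) ^ (n - t) * (1 - p))) * e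
  · rw [bn_of_lt p (show n < t by omega)]
    by_cases h' : t = n + 1
    · subst h'
      push_cast
      ring
    · rw [bn_of_lt p (show n + 1 < t by omega)]
      ring

variable {p p0 : ℝ}

lemma bn_shift (hp : 0 < p0) (h0 : p0 ≤ p) (h1 : p ≤ 1 - p0) (n : ℕ) (s : Finset ℕ) :
    ∑ t ∈ s, |bn p (n + 1) t - bn p n t| ≤ p / (p0 * √(n + 1)) := by
  have a0 : 0 ≤ p := by linarith
  have a1 : p ≤ 1 := by linarith
  have pos : 0 < (n + 1 : ℝ) * (1 - p) := mul_pos (by positivity) (by linarith)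
  have e : ∀ t, |bn p (n + 1) t - bn p n t| =
      bn p (n + 1) t * |t - (n + 1 : ℕ) * p| / ((n + 1) * (1 - p)) := by
    intro t
    rw [eq_div_iff pos.ne', ← abs_of_pos pos, ← abs_mul, bn_ratio, abs_mul,
      abs_of_nonneg (bn_nonneg a0 a1 _ _)]
  simp only [e, ← sum_div]
  have c := bn_le_range a0 a1 (n + 1) s (fun t => |t - (n + 1 : ℕ) * p|) fun _ => abs_nonneg _
  have c2 := sum_sq_le_sum_mul_sum_of_sq_eq_mul (range (n + 1 + 1))
    (r := fun t => bn p (n + 1) t * |t - (n + 1 : ℕ) * p|) (f := fun t => bn p (n + 1) t)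
    (g := fun t => bn p (n + 1) t * (t - (n + 1 : ℕ) * p) ^ 2) (fun t _ => bn_nonneg a0 a1 _ _)
    (fun t _ => mul_nonneg (bn_nonneg a0 a1 _ _) (sq_nonneg _))
    (fun t _ => by rw [mul_pow, sq_abs]; ring)
  have m := bn_mom p (n + 1) 0 0 1
  simp only [zero_mul, add_zero, one_mul, zero_add] at m
  rw [bn_sum, one_mul, m] at c2
  have sq : √(n + 1 : ℝ) ^ 2 = n + 1 := sq_sqrt (by positivity)
  have sp : 0 < √(n + 1 : ℝ) := sqrt_pos.2 (by positivity)
  rw [div_le_div_iff₀ pos (by positivity)]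
  refine (mul_le_mul_of_nonneg_right c (by positivity)).trans ?_
  refine (abs_le_of_sq_le_sq' ?_ (by positivity)).2
  rw [mul_pow, mul_pow, sq]
  refine (mul_le_mul_of_nonneg_right c2 (by positivity)).trans ?_
  push_cast
  have : p0 ^ 2 ≤ p * (1 - p) := by nlinarith
  have k : 0 ≤ (n + 1 : ℝ) ^ 2 * (p * (1 - p)) := mul_nonneg (by positivity) (by nlinarith)
  nlinarith [mul_le_mul_of_nonneg_left this k]

lemma bn_sup (hp : 0 < p0) (h0 : p0 ≤ p) (h1 : p ≤ 1 - p0) (n t : ℕ) :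
    bn p n t ≤ 1 / (p0 * √(n + 1)) := by
  have e : ∀ t, p * bn p n t = ∑ s ∈ range (t + 1), (bn p n s - bn p (n + 1) s) := by
    intro t
    induction t with
    | zero => simp [bn_succ_zero]; ring
    | succ t ih => rw [sum_range_succ, ← ih, bn_succ_succ]; ring
  have := bn_shift hp h0 h1 n (range (t + 1))
  have k : p * bn p n t ≤ p / (p0 * √(n + 1)) := by
    rw [e]
    refine le_trans (sum_le_sum fun s _ => ?_) this
    rw [abs_sub_comm]
    exact le_abs_self _
  rw [div_eq_mul_one_div] at k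
  exact le_of_mul_le_mul_left k (by linarith)

lemma bn_sup' (hp : 0 < p0) (h0 : p0 ≤ p) (h1 : p ≤ 1 - p0) {n i : ℕ} (h : i ≤ n) (t : ℕ) :
    bn p n t ≤ 1 / (p0 * √(i + 1)) := by
  refine (bn_sup hp h0 h1 n t).trans (one_div_le_one_div_of_le (by positivity) ?_)
  have : (i : ℝ) ≤ n := by exact_mod_cast h
  gcongr

lemma bn_mul_le (hp : 0 < p0) (h0 : p0 ≤ p) (h1 : p ≤ 1 - p0) (n n' t : ℕ) :
    bn p n t * bn p n' t ≤ 1 / (p0 ^ 2 * (t + 1)) := by
  have key : ∀ n, bn p n t ≤ 1 / (p0 * √(t + 1)) := fun n => by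
    by_cases h : t ≤ n
    · exact bn_sup' hp h0 h1 h t
    · rw [bn_of_lt p (by omega)]; positivity
  refine (mul_le_mul (key n) (key n') (bn_nonneg (by linarith) (by linarith) _ _)
    (by positivity)).trans (le_of_eq ?_)
  rw [div_mul_div_comm, one_mul, mul_mul_mul_comm, mul_self_sqrt (by positivity), sq]

lemma col_diag (hp : 0 < p0) (h0 : p0 ≤ p) (h1 : p ≤ 1 - p0) (i : ℕ) (s : Finset ℕ) :
    ∑ t ∈ s, bn p i t * bn p i t ≤ 1 / (p0 * √(i + 1)) := by
  have a0 : 0 ≤ p := by linarith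
  have a1 : p ≤ 1 := by linarith
  refine (sum_le_sum fun t _ => mul_le_mul_of_nonneg_left (bn_sup hp h0 h1 i t)
    (bn_nonneg a0 a1 i t)).trans ?_
  rw [← sum_mul]
  exact mul_le_of_le_one_left (by positivity) (bn_sum_le a0 a1 i s)

lemma col_off (hp : 0 < p0) (h0 : p0 ≤ p) (h1 : p ≤ 1 - p0) (i D : ℕ) (hD : 0 < D)
    (s : Finset ℕ) : ∑ t ∈ s, bn p i t * bn p (i + D) t ≤
      1 / (p0 * √(i + 1)) * (4 * (i + D) / (p0 * D) ^ 2) := by
  have a0 : 0 ≤ p := by linarith
  have a1 : p ≤ 1 := by linarith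
  have D0 : (0 : ℝ) < D := by exact_mod_cast hD
  set S := 1 / (p0 * √(i + 1)) with hS
  have S0 : 0 ≤ S := by positivity
  rw [mul_div_assoc', le_div_iff₀ (by positivity), sum_mul]
  calc ∑ t ∈ s, bn p i t * bn p (i + D) t * (p0 * D) ^ 2
      ≤ ∑ t ∈ s, (2 * S * (bn p i t * (t - i * p) ^ 2) +
          2 * S * (bn p (i + D) t * (t - (i + D : ℕ) * p) ^ 2)) := by
        refine sum_le_sum fun t _ => ?_
        have b1 := bn_nonneg a0 a1 i t
        have b2 := bn_nonneg a0 a1 (i + D) t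
        have s1 := bn_sup hp h0 h1 i t
        have s2 := bn_sup' hp h0 h1 (Nat.le_add_right i D) t
        have e : (p0 * D) ^ 2 ≤ 2 * (t - i * p) ^ 2 + 2 * (t - (i + D : ℕ) * p) ^ 2 := by
          have : (p0 * D) ^ 2 ≤ (p * D) ^ 2 := by gcongr
          push_cast
          nlinarith [sq_nonneg ((t - i * p) + (t - (i + D) * p))]
        nlinarith [mul_le_mul_of_nonneg_left e (mul_nonneg b1 b2),
          mul_le_mul_of_nonneg_left s2 (mul_nonneg b1 (sq_nonneg ((t : ℝ) - i * p))),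
          mul_le_mul_of_nonneg_left s1 (mul_nonneg b2 (sq_nonneg ((t : ℝ) - (i + D : ℕ) * p)))]
    _ ≤ S * (4 * (i + D)) := by
        rw [sum_add_distrib, ← mul_sum, ← mul_sum]
        have v1 := bn_var_le a0 a1 i s
        have v2 := bn_var_le a0 a1 (i + D) s
        push_cast at v2 ⊢
        nlinarith [mul_le_mul_of_nonneg_left v1 S0, mul_le_mul_of_nonneg_left v2 S0]

lemma bn_mode {N k : ℕ} (hk : 0 < k) (hN : k < N) (t : ℕ) :
    bn (k / N) N t ≤ bn (k / N) N k := by
  have N0 : (0 : ℝ) < N := by exact_mod_cast (by omega : 0 < N)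
  have k0 : (0 : ℝ) < k := by exact_mod_cast hk
  have kN : (k : ℝ) < N := by exact_mod_cast hN
  have a0 : (0 : ℝ) ≤ k / N := by positivity
  have a1 : (k : ℝ) / N ≤ 1 := by rw [div_le_one N0]; exact kN.le
  have r : ∀ t, t < N → bn (k / N) N (t + 1) * ((t + 1) * (N - k)) =
      bn (k / N) N t * ((N - t) * k) := by
    intro t ht
    have := Nat.choose_succ_right_eq N t
    have e : (N.choose (t + 1) : ℝ) * (t + 1) = N.choose t * (N - t) := by
      rw [← Nat.cast_sub ht.le]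
      exact_mod_cast this
    unfold bn
    rw [show N - t = N - (t + 1) + 1 by omega, pow_succ, pow_succ]
    have h3 : (k / N : ℝ) * (N - k) = (1 - k / N) * k := by field_simp
    generalize (k / N : ℝ) = x at h3 ⊢
    linear_combination (x ^ t * (1 - x) ^ (N - (t + 1)) * x * (N - k)) * e +
      (N.choose t * x ^ t * (1 - x) ^ (N - (t + 1)) * (N - t)) * h3
  rcases le_total t k with h | h
  · induction h using Nat.decreasingInduction with
    | self => exact le_rfl
    | of_succ t ht ih =>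
      refine le_trans ?_ ih
      have t1 : (t : ℝ) + 1 ≤ k := by exact_mod_cast ht
      refine le_of_mul_le_mul_right ?_ (show (0 : ℝ) < (t + 1) * (N - k) by
        apply mul_pos <;> linarith [Nat.cast_nonneg (α := ℝ) t])
      rw [r t (by omega)]
      exact mul_le_mul_of_nonneg_left (by nlinarith) (bn_nonneg a0 a1 _ _)
  · induction h with
    | refl => exact le_rfl
    | @step t ht ih =>
      refine le_trans ?_ ih
      by_cases h2 : t < N
      · have t1 : (k : ℝ) ≤ t := by exact_mod_cast ht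
        refine le_of_mul_le_mul_right ?_ (show (0 : ℝ) < (t + 1) * (N - k) by
          apply mul_pos <;> linarith)
        rw [r t h2]
        exact mul_le_mul_of_nonneg_left (by nlinarith) (bn_nonneg a0 a1 _ _)
      · rw [bn_of_lt _ (by omega)]
        exact bn_nonneg a0 a1 _ _

lemma bn_tail (h0 : 0 ≤ p) (h1 : p ≤ 1) (n : ℕ) {y : ℝ} (hy : 0 < y) (s : Finset ℕ)
    (hs : ∀ t ∈ s, y ≤ |t - n * p|) : ∑ t ∈ s, bn p n t ≤ n / y ^ 2 := by
  rw [le_div_iff₀ (by positivity), sum_mul]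
  refine le_trans (sum_le_sum fun t ht => mul_le_mul_of_nonneg_left ?_ (bn_nonneg h0 h1 n t))
    (bn_var_le h0 h1 n s)
  rw [← sq_abs ((t : ℝ) - _)]
  exact pow_le_pow_left₀ hy.le (hs t ht) 2

lemma bn_mode_ge {N k : ℕ} (hk : 0 < k) (hN : k < N) : 1 ≤ 128 * N * bn (k / N) N k ^ 2 := by
  have N0 : (0 : ℝ) < N := by exact_mod_cast (by omega : 0 < N)
  have a0 : (0 : ℝ) ≤ k / N := by positivity
  have a1 : (k : ℝ) / N ≤ 1 := by rw [div_le_one N0]; exact_mod_cast hN.le
  set r := N.sqrt + 1 with hr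
  have r1 : (N : ℝ) ≤ r ^ 2 := by exact_mod_cast (Nat.lt_succ_sqrt' N).le
  have r2 : (r : ℝ) ^ 2 ≤ 4 * N := by
    have := Nat.sqrt_le' N
    have : 0 < N.sqrt := Nat.sqrt_pos.2 (by omega)
    have : r ^ 2 ≤ 4 * N := by rw [hr]; nlinarith
    exact_mod_cast this
  have r0 : (0 : ℝ) < r := by rw [hr]; positivity
  have e := sum_filter_add_sum_filter_not (range (N + 1)) (fun t => t ∈ Ico (k - 2 * r) (k + 2 * r))
    (bn (k / N) N)
  have t1 := bn_tail a0 a1 N (y := 2 * r) (by positivity)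
    (filter (fun t => ¬ t ∈ Ico (k - 2 * r) (k + 2 * r)) (range (N + 1))) (fun t ht => by
      rw [mul_div_cancel₀ _ N0.ne']
      have := (mem_filter.1 ht).2
      rw [mem_Ico] at this
      by_cases h : k + 2 * r ≤ t
      · have : (k : ℝ) + 2 * r ≤ t := by exact_mod_cast h
        exact le_abs.2 (Or.inl (by linarith))
      · have : (t : ℝ) + 2 * r ≤ k := by exact_mod_cast (by omega : t + 2 * r ≤ k)
        exact le_abs.2 (Or.inr (by linarith)))
  have t2 : ∑ t ∈ filter (fun t => t ∈ Ico (k - 2 * r) (k + 2 * r)) (range (N + 1)),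
      bn (k / N) N t ≤ 4 * r * bn (k / N) N k := by
    refine (sum_le_card_nsmul _ _ _ fun t _ => bn_mode hk hN t).trans ?_
    rw [nsmul_eq_mul]
    refine mul_le_mul_of_nonneg_right ?_ (bn_nonneg a0 a1 _ _)
    have := card_le_card (show filter (fun t => t ∈ Ico (k - 2 * r) (k + 2 * r)) (range (N + 1)) ⊆
      Ico (k - 2 * r) (k + 2 * r) from fun t ht => (mem_filter.1 ht).2)
    rw [Nat.card_Ico] at this
    exact_mod_cast this.trans (by omega : k + 2 * r - (k - 2 * r) ≤ 4 * r)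
  have t3 : (N : ℝ) / (2 * r) ^ 2 ≤ 1 / 4 := by
    rw [div_le_iff₀ (by positivity)]
    nlinarith
  rw [bn_sum] at e
  have t4 : 3 / 4 ≤ 4 * r * bn (k / N) N k := by linarith
  have t5 := pow_le_pow_left₀ (by norm_num) t4 2
  nlinarith [mul_le_mul_of_nonneg_right r2 (sq_nonneg (bn (k / N) N k))]

/-- The Bernoulli law on the counting monoid. -/
noncomputable def ber (p : ℝ) : A (Multiplicative ℕ) :=
  (1 - p) • 1 + p • single (Multiplicative.ofAdd 1) 1

lemma ber_prob (h0 : 0 ≤ p) (h1 : p ≤ 1) : Prob (ber p) :=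
  ⟨(NN.one.smul (by linarith)).add ((NN.single _ zero_le_one).smul h0), by simp [ber]⟩

lemma ber_pow (p : ℝ) (n : ℕ) :
    ber p ^ n = ∑ t ∈ range (n + 1), single (Multiplicative.ofAdd t) (bn p n t) := by
  rw [ber, add_comm, add_pow]
  refine sum_congr rfl fun t _ => ?_
  rw [smul_pow, smul_pow, one_pow, single_pow, one_pow, mul_smul_comm, mul_one, smul_smul,
    smul_mul_assoc, ← nsmul_eq_mul', ← Nat.cast_smul_eq_nsmul ℝ, smul_smul, smul_single, bn,
    ← ofAdd_nsmul]
  congr 1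
  · simp
  · simp only [smul_eq_mul]
    ring

lemma ber_coeff (p : ℝ) (n t : ℕ) : (ber p ^ n).coeff (Multiplicative.ofAdd t) = bn p n t := by
  classical
  rw [ber_pow]
  simp only [coeff_sum, coeff_single, Finsupp.finset_sum_apply, Finsupp.single_apply,
    EmbeddingLike.apply_eq_iff_eq, sum_ite_eq', mem_range]
  split_ifs with h
  · rfl
  · rw [bn_of_lt p (by omega)]

lemma ber_nm (hp : 0 < p0) (h0 : p0 ≤ p) (h1 : p ≤ 1 - p0) (n : ℕ) :
    Nm (ber p ^ (n + 1) - ber p ^ n) (1 / (p0 * √(n + 1))) := by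
  have e : ber p ^ (n + 1) - ber p ^ n = ∑ t ∈ range (n + 2),
      (bn p (n + 1) t - bn p n t) • single (Multiplicative.ofAdd t) (1 : ℝ) := by
    rw [ber_pow, ber_pow]
    simp only [smul_single, smul_eq_mul, mul_one, single_sub, sum_sub_distrib]
    rw [sum_range_succ (fun t => single (Multiplicative.ofAdd t) (bn p n t)) (n + 1),
      bn_of_lt p (Nat.lt_succ_self n)]
    simp
  rw [e]
  refine (Nm.sum fun t _ => (NN.single _ zero_le_one).nm.smul _).mono ?_
  simp only [mass_single, mul_one]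
  refine (bn_shift hp h0 h1 n _).trans ?_
  gcongr
  linarith

lemma ber_ov (hp : 0 < p0) (h0 : p0 ≤ p) (h1 : p ≤ 1 - p0) {n h : ℕ}
    (hh : (h : ℝ) ≤ p0 * √(n + 1)) (J : ℕ) : ∀ m ≤ J * h,
    Ov (ber p ^ (J * n)) (ber p ^ (J * n + m)) ((1 / 2) ^ J) := by
  have P := ber_prob (p := p) (by linarith) (by linarith)
  have k : ∀ j, Nm (ber p ^ (n + j) - ber p ^ n) (j * (1 / (p0 * √(n + 1)))) := by
    intro j
    induction j with
    | zero => simpa using Nm.zero
    | succ j ih =>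
      have := ((ber_nm hp h0 h1 n).mul (P.pow j).nm).add ih
      refine (this.of_eq ?_).mono (le_of_eq (by push_cast; ring))
      rw [sub_mul, ← pow_add, ← pow_add, add_right_comm n 1 j, add_assoc n j 1]
      abel
  have k2 : ∀ j ≤ h, Ov (ber p ^ n) (ber p ^ (n + j)) (1 / 2) := by
    intro j hj
    refine (Ov.of_nm (P.pow _).1 (P.pow _).1 (P.pow _).2 (P.pow _).2
      ((k j).neg.of_eq (by abel))).mono ?_
    have : (j : ℝ) * (1 / (p0 * √(n + 1))) ≤ 1 := by
      rw [mul_one_div, div_le_one (by positivity)]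
      exact le_trans (by exact_mod_cast hj) hh
    linarith
  induction J with
  | zero =>
    intro m hm
    obtain rfl : m = 0 := by omega
    exact ⟨1, NN.one, by simp, by simpa using NN.zero, by simpa using NN.zero⟩
  | succ J ih =>
    intro m hm
    have := (ih (m - min m h) (by rw [Nat.succ_mul] at hm; omega)).mul
      (k2 (min m h) (min_le_right _ _)) (by norm_num)
    rw [← pow_add, ← pow_add, ← pow_succ] at this
    rw [show (J + 1) * n = J * n + n by ring,
      show J * n + n + m = J * n + (m - min m h) + (n + min m h) by omega]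
    exact this

lemma bn_ov (hp : 0 < p0) (h0 : p0 ≤ p) (h1 : p ≤ 1 - p0) {n h J m N : ℕ}
    (hh : (h : ℝ) ≤ p0 * √(n + 1)) (hm : m ≤ J * h) (hN : J * n ≤ N) :
    (1 / 2) ^ J ≤ ∑ k ∈ range (N + 1), min (bn p N k) (bn p (N + m) k) := by
  have P := ber_prob (p := p) (by linarith) (by linarith)
  obtain ⟨t, rfl⟩ := Nat.exists_eq_add_of_le hN
  have o : Ov (ber p ^ t) (ber p ^ t) 1 :=
    ⟨_, (P.pow t).1, (P.pow t).2.ge, by simpa using NN.zero, by simpa using NN.zero⟩
  obtain ⟨ω, o1, o2, o3, o4⟩ := (ber_ov hp h0 h1 hh J m hm).mul o zero_le_one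
  rw [← pow_add] at o3 o4
  rw [add_right_comm] at o4
  have c3 : ∀ k, ω.coeff (Multiplicative.ofAdd k) ≤ bn p (J * n + t) k := fun k => by
    simpa [ber_coeff] using o3 (Multiplicative.ofAdd k)
  have c4 : ∀ k, ω.coeff (Multiplicative.ofAdd k) ≤ bn p (J * n + t + m) k := fun k => by
    simpa [ber_coeff] using o4 (Multiplicative.ofAdd k)
  rw [mul_one, mass_eq' ω ((range (J * n + t + 1)).map Multiplicative.ofAdd.toEmbedding),
    sum_map] at o2
  · exact o2.trans (sum_le_sum fun k _ => le_min (c3 k) (c4 k))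
  · intro w hw
    rw [Finsupp.mem_support_iff] at hw
    refine mem_map.2 ⟨w.toAdd, mem_range.2 ?_, rfl⟩
    by_contra hc
    have := c3 w.toAdd
    rw [bn_of_lt p (by omega)] at this
    exact hw (le_antisymm this (o1 w))

end Vale.Agent.P321
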