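import Vale.Agent.P321.Slip
import Vale.Agent.P321.Bessel

/-! Bookkeeping of dominations by integer exponents. -/

namespace Vale.Agent.P321

open Real Finset

variable {M : Type*} [Monoid M]

/-- The global scales. -/
structure Ctx where
  T : ℕ
  H : ℕ
  jm : ℕ
  hT : 1 ≤ T
  hH : 5000 * (2 ^ T) ^ 4 ≤ H
  small : ((H : ℝ) ^ T) ^ jm * exp (-(((2 : ℝ) ^ T) ^ 2 / 2)) ≤ 1

namespace Ctx

variable (c : Ctx)

/-- Remainder scale. -/
noncomputable def δ (j : ℕ) : ℝ := ((c.H : ℝ) ^ c.T) ^ j * exp (-(((2 : ℝ) ^ c.T) ^ 2 / 2))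

/-- Strength scale. -/
noncomputable def ε (e : ℤ) : ℝ := (c.H : ℝ) ^ (-e)

lemma B_le : 5000 * 2 ^ c.T ≤ c.H :=
  le_trans (Nat.mul_le_mul_left _ (Nat.le_self_pow (by norm_num) _)) c.hH

lemma H_ge : 5000 ≤ c.H := le_trans (Nat.le_mul_of_pos_right _ (by positivity)) c.B_le

lemma H_ge' : (5000 : ℝ) ≤ c.H := by exact_mod_cast c.H_ge

lemma H_one : (1 : ℝ) ≤ c.H := by linarith [c.H_ge']

lemma pw_le {a b : ℕ} (h : a ≤ b) : c.H ^ a ≤ c.H ^ b :=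
  Nat.pow_le_pow_right (by linarith [c.H_ge]) h

lemma pw_succ (a : ℕ) : 5000 * c.H ^ a ≤ c.H ^ (a + 1) := by
  rw [pow_succ']
  exact Nat.mul_le_mul_right _ c.H_ge

lemma pw_pos (a : ℕ) : 0 < c.H ^ a := pow_pos (by linarith [c.H_ge]) a

lemma ε_pos (e : ℤ) : 0 < c.ε e := zpow_pos (by linarith [c.H_ge']) _

lemma ε_add (e e' : ℤ) : c.ε (e + e') = c.ε e * c.ε e' := by
  rw [ε, neg_add, zpow_add₀ (by linarith [c.H_ge'])]
  rfl

lemma ε_mono {e e' : ℤ} (h : e' ≤ e) : c.ε e ≤ c.ε e' :=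
  zpow_le_zpow_right₀ c.H_one (by omega)

lemma ε_zero : c.ε 0 = 1 := by simp [ε]

lemma ε_neg (a : ℕ) : c.ε (-a) = (c.H : ℝ) ^ a := by simp [ε]

lemma ε_nat (a : ℕ) : c.ε a * (c.H : ℝ) ^ a = 1 := by
  rw [← ε_neg, ← ε_add, add_neg_cancel, ε_zero]

lemma ε_sub (e : ℤ) (a : ℕ) : c.ε (e - a) = c.ε e * (c.H : ℝ) ^ a := by
  rw [sub_eq_add_neg, ε_add, ε_neg]

lemma ε_pred (e : ℤ) : c.ε (e - 1) = c.ε e * c.H := by simpa using c.ε_sub e 1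

lemma ε_one : c.ε 1 ≤ 1 / 5000 := by
  have := c.ε_nat 1
  have h := c.ε_pos 1
  rw [Nat.cast_one, pow_one] at this
  nlinarith [c.H_ge']

lemma δ_pos (j : ℕ) : 0 < c.δ j := by
  have := c.H_ge'
  unfold δ
  positivity

lemma δ_succ (j : ℕ) : c.δ (j + 1) = (c.H : ℝ) ^ c.T * c.δ j := by
  unfold δ
  ring

lemma δ_mono {j j' : ℕ} (h : j ≤ j') : c.δ j ≤ c.δ j' :=
  mul_le_mul_of_nonneg_right (pow_le_pow_right₀ (one_le_pow₀ c.H_one) h) (exp_pos _).le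

lemma δ_zero {j : ℕ} : exp (-(((2 : ℝ) ^ c.T) ^ 2 / 2)) ≤ c.δ j := by
  simpa [δ] using c.δ_mono (Nat.zero_le j)

lemma δ_le {j : ℕ} (h : j ≤ c.jm) : c.δ j ≤ 1 := (c.δ_mono h).trans c.small

lemma δ_step {a : ℕ} (h : a ≤ c.T) (j : ℕ) : (c.H : ℝ) ^ a * c.δ j ≤ c.δ (j + 1) := by
  rw [δ_succ]
  exact mul_le_mul_of_nonneg_right (pow_le_pow_right₀ c.H_one h) (c.δ_pos j).le

lemma δ_three (j : ℕ) : 3 * c.δ j ≤ c.δ (j + 1) := by
  have := c.δ_step c.hT j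
  nlinarith [c.H_ge', c.δ_pos j]

lemma δ_mul (j j' : ℕ) : c.δ j * c.δ j' ≤ c.δ (j + j') := by
  have e : exp (-(((2 : ℝ) ^ c.T) ^ 2 / 2)) ≤ 1 := exp_le_one_iff.2 (by
    have : 0 ≤ ((2 : ℝ) ^ c.T) ^ 2 / 2 := by positivity
    linarith)
  have := c.δ_pos (j + j')
  calc _ = c.δ (j + j') * exp (-(((2 : ℝ) ^ c.T) ^ 2 / 2)) := by unfold δ; ring
    _ ≤ _ := mul_le_of_le_one_right this.le e

end Ctx

/-- `|Δ| ≤ H^(-e) u^n` up to a tiny remainder. -/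
def Dz (c : Ctx) (u : A M) (j : ℕ) (Δ : A M) (e : ℤ) (n : ℕ) : Prop :=
  Prob u ∧ Dom Δ (c.ε e) (u ^ n) (c.ε e * c.δ j)

variable {c : Ctx} {u w Δ Δ' : A M} {j j' n n' : ℕ} {e e' : ℤ}

lemma Dz.of_dom (hu : Prob u) {x y : ℝ} (h : Dom Δ x (u ^ n) y) (hx : x ≤ c.ε e)
    (hy : y ≤ c.ε e * c.δ j) : Dz c u j Δ e n := ⟨hu, h.mono (hu.pow n).1 hx hy⟩

lemma Dz.to (h : Dz c u j Δ e n) (hΔ : Δ = Δ') (hn : n = n') (hj : j ≤ j') (he : e' ≤ e) :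
    Dz c u j' Δ' e' n' := by
  subst hΔ hn
  exact .of_dom h.1 h.2 (c.ε_mono he)
    (mul_le_mul (c.ε_mono he) (c.δ_mono hj) (c.δ_pos _).le (c.ε_pos _).le)

lemma Dz.pow (hu : Prob u) (n : ℕ) : Dz c u 0 (u ^ n) 0 n :=
  .of_dom hu (Dom.refl (hu.pow n).1) c.ε_zero.ge (mul_pos (c.ε_pos _) (c.δ_pos _)).le

lemma Dz.zero (hu : Prob u) : Dz c u j 0 e n :=
  .of_dom hu (Nm.zero.dom _) (c.ε_pos _).le (mul_pos (c.ε_pos _) (c.δ_pos _)).le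

lemma Dz.neg (h : Dz c u j Δ e n) : Dz c u j (-Δ) e n := ⟨h.1, h.2.neg⟩

lemma Dz.smul (h : Dz c u j Δ e n) {r : ℝ} (hr : |r| ≤ 1) : Dz c u j (r • Δ) e n :=
  .of_dom h.1 (h.2.smul r) (mul_le_of_le_one_left (c.ε_pos _).le hr)
    (mul_le_of_le_one_left (mul_pos (c.ε_pos _) (c.δ_pos _)).le hr)

lemma Dz.sum (hu : Prob u) {ι : Type*} {s : Finset ι} {f : ι → A M}
    (h : ∀ i ∈ s, Dz c u j (f i) e n) {a : ℕ} (ha : s.card ≤ c.H ^ a) :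
    Dz c u j (∑ i ∈ s, f i) (e - a) n := by
  have ha' : (s.card : ℝ) ≤ c.H ^ a := by exact_mod_cast ha
  have p1 := c.ε_pos e
  have p2 := c.δ_pos j
  refine .of_dom hu (Dom.sum fun i hi => (h i hi).2) ?_ ?_
  · rw [sum_const, nsmul_eq_mul, c.ε_sub, mul_comm]
    gcongr
  · rw [sum_const, nsmul_eq_mul, c.ε_sub, mul_comm, mul_right_comm]
    gcongr

lemma Dz.avg (hu : Prob u) {N : ℕ} (hN : 0 < N) {f : ℕ → A M}
    (h : ∀ i ∈ range N, Dz c u j (f i) e n) :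
    Dz c u j ((1 / N : ℝ) • ∑ i ∈ range N, f i) e n := by
  have N0 : (0 : ℝ) < N := by exact_mod_cast hN
  refine .of_dom hu ((Dom.sum fun i hi => (h i hi).2).smul _) (le_of_eq ?_) (le_of_eq ?_) <;>
  · rw [sum_const, nsmul_eq_mul, card_range, abs_of_pos (by positivity)]
    field_simp

lemma Dz.add (h : Dz c u j Δ e n) (h' : Dz c u j' Δ' e' n) :
    Dz c u (j + j') (Δ + Δ') (min e e' - 1) n := by
  have k := (h.to rfl rfl (Nat.le_add_right j j') (min_le_left e e')).2.add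
    (h'.to rfl rfl (Nat.le_add_left j' j) (min_le_right e e')).2
  have p1 := c.ε_pos (min e e')
  have p2 := mul_pos p1 (c.δ_pos (j + j'))
  refine .of_dom h.1 k ?_ ?_ <;> rw [c.ε_pred] <;> nlinarith [c.H_ge']

lemma Dz.sub (h : Dz c u j Δ e n) (h' : Dz c u j' Δ' e' n) :
    Dz c u (j + j') (Δ - Δ') (min e e' - 1) n := by
  rw [sub_eq_add_neg]
  exact h.add h'.neg

lemma Dz.mul (h : Dz c u j Δ e n) (h' : Dz c u j' Δ' e' n') :
    Dz c u (j + j' + 1) (Δ * Δ') (e + e') (n + n') := by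
  have k := h.2.mul h'.2 (h.1.pow _) (h.1.pow _) (c.ε_pos _).le (c.ε_pos _).le
  rw [← pow_add] at k
  refine .of_dom h.1 k (c.ε_add _ _).ge ?_
  rw [c.ε_add]
  have := mul_le_mul_of_nonneg_left (show c.δ j' + c.δ j + c.δ j * c.δ j' ≤ c.δ (j + j' + 1) by
    linarith [c.δ_three (j + j'), c.δ_mul j j', c.δ_mono (Nat.le_add_right j j'),
      c.δ_mono (Nat.le_add_left j' j)]) (mul_pos (c.ε_pos e) (c.ε_pos e')).le
  linarith

lemma Dz.ctx (h : Dz c u j Δ e n) (a b : ℕ) : Dz c u j (u ^ a * Δ * u ^ b) e (a + n + b) := by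
  have k := ((Dom.refl (h.1.pow a).1).mul h.2 (h.1.pow _) (h.1.pow _) zero_le_one
    (c.ε_pos _).le).mul (Dom.refl (h.1.pow b).1) ((h.1.pow _).mul (h.1.pow _)) (h.1.pow _)
    (by simpa using (c.ε_pos _).le) zero_le_one
  rw [← pow_add, ← pow_add] at k
  exact .of_dom h.1 k (by simp) (by simp)

lemma Dz.trans (h : Dz c w j Δ e n) (h' : Dz c u j' (w ^ n) (-1) n') :
    Dz c u (j + j' + 1) Δ (e - 1) n' := by
  refine .of_dom h'.1 (h.2.trans h'.2 (c.ε_pos _).le) (c.ε_add _ _).ge ?_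
  have e1 : c.ε (-1) = c.H := by simpa using c.ε_neg 1
  rw [c.ε_pred, e1]
  have p1 := c.ε_pos e
  have : c.δ j + c.H * c.δ j' ≤ c.H * c.δ (j + j' + 1) := by
    nlinarith [c.δ_three (j + j'), c.δ_mono (Nat.le_add_right j j'),
      c.δ_mono (Nat.le_add_left j' j), c.H_one, c.δ_pos j, c.δ_pos j']
  nlinarith [mul_le_mul_of_nonneg_left this p1.le]

lemma Dz.flip (hu : Prob u) (h : Dz c w j (u ^ n' - w ^ n) 1 n) : Dz c u j (w ^ n) (-1) n' := by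
  have e1 : c.ε (-1) = c.H := by simpa using c.ε_neg 1
  refine .of_dom hu ((h.2.mono (h.1.pow n).1 (by linarith [c.ε_one]) le_rfl).flip (h.1.pow n).1)
    ?_ ?_ <;> rw [e1]
  · linarith [c.H_ge']
  · nlinarith [c.ε_one, c.δ_pos j, c.H_ge']

lemma Dz.nm (h : Dz c u j Δ e n) (hj : j ≤ c.jm) : Nm Δ (2 * c.ε e) :=
  (h.2.nm (h.1.pow n)).mono (by nlinarith [c.δ_le hj, c.ε_pos e])

lemma Dz.unit (h : Dz c u j Δ e n) : Dom (c.ε (-e) • Δ) 1 (u ^ n) (c.δ j) := by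
  have k := h.2.smul (c.ε (-e))
  rwa [abs_of_pos (c.ε_pos _), ← mul_assoc, ← c.ε_add, neg_add_cancel, c.ε_zero, one_mul] at k

lemma Dz.of_unit (hu : Prob u) {x y : ℝ} (h : Dom (c.ε (-e) • Δ) x (u ^ n) y) (hx : x ≤ c.ε e')
    (hy : y ≤ c.ε e' * c.δ j) : Dz c u j Δ (e + e') n := by
  have k := h.smul (c.ε e)
  rw [abs_of_pos (c.ε_pos _), smul_smul, ← c.ε_add, add_neg_cancel, c.ε_zero, one_smul] at k
  refine .of_dom hu k ?_ ?_ <;> rw [c.ε_add]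
  · exact mul_le_mul_of_nonneg_left hx (c.ε_pos _).le
  · rw [mul_assoc]
    exact mul_le_mul_of_nonneg_left hy (c.ε_pos _).le

/-- Slip data. -/
def Sl (c : Ctx) (u : A M) (y : ℕ) : Prop :=
  Prob u ∧ ∃ a, a + 1 ≤ c.H ^ y ∧ Ov (u ^ a) (u ^ (a + 1)) (1 / 2 ^ c.T)

lemma Sl.mono {y y' : ℕ} (h : Sl c u y) (hy : y ≤ y') : Sl c u y' := by
  obtain ⟨hu, a, ha, h⟩ := h
  exact ⟨hu, a, ha.trans (c.pw_le hy), h⟩

lemma Sl.slip {y r η h N : ℕ} (hs : Sl c u y) (hr : 3 * r + 1 ≤ c.T) (hη : η ≤ r)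
    (hh : h ≤ c.H ^ η) (hN : c.H ^ (y + 2 * r + 1) ≤ N) :
    Dz c u 1 (u ^ (N + h) - u ^ N) (r - η - 1) (N + h) := by
  obtain ⟨hu, a, ha, ho⟩ := hs
  set ρ := c.ε r with hρ
  have ρ0 : 0 < ρ := c.ε_pos r
  have ρH : ρ * c.H ^ r = 1 := c.ε_nat r
  set r0 := 40 * (2 ^ c.T) ^ 2 * c.H ^ r with hr0
  have b1 : r0 ^ 2 + 1 ≤ c.H ^ (2 * r + 1) / 3 + 1 := by
    have : r0 ^ 2 * 3 ≤ c.H ^ (2 * r + 1) := by
      calc r0 ^ 2 * 3 = 4800 * (2 ^ c.T) ^ 4 * c.H ^ (2 * r) := by rw [hr0]; ring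
        _ ≤ c.H * c.H ^ (2 * r) := Nat.mul_le_mul_right _ (by linarith [c.hH])
        _ = _ := by ring
    omega
  have b2 := c.pw_succ (2 * r)
  have b3 := c.pw_pos (2 * r)
  set δ1 := (4 * (r0 : ℝ) ^ 2 + 4) * c.δ 0 with hδ1
  have one : ∀ N', N ≤ N' → Dom (u ^ (N' + 1) - u ^ N') ρ (u ^ (N' + 1)) δ1 := by
    intro N' hN'
    refine Vale.Agent.P321.slip hu (one_le_pow₀ one_le_two) ho ρ0
      (by simpa [c.ε_zero] using c.ε_mono (e := r) (e' := 0) (by omega)) ?_ c.δ_zero ?_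
    · rw [hr0]
      push_cast
      nlinarith
    · calc (2 * r0 ^ 2 + 1) * a + r0 ^ 2 ≤ (2 * r0 ^ 2 + 1) * (a + 1) := by nlinarith
        _ ≤ c.H ^ (2 * r + 1) * c.H ^ y := Nat.mul_le_mul (by omega) ha
        _ = c.H ^ (y + 2 * r + 1) := by ring
        _ ≤ N' := hN.trans hN'
  have δ0 : 0 ≤ δ1 := (one N le_rfl).nonneg
  have key : ∀ h : ℕ, h * ρ ≤ 1 →
      Dom (u ^ (N + h) - u ^ N) ((1 + ρ) ^ h - 1) (u ^ (N + h)) (3 * h * δ1) := by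
    intro h
    induction h with
    | zero => intro _; simpa using Nm.zero.dom (u ^ N)
    | succ h ih =>
      intro hh
      push_cast at hh
      have k1 := one (N + h) (by omega)
      have k2 : Dom (u ^ (N + h)) (1 + ρ) (u ^ (N + h + 1)) (0 + δ1) := by
        simpa using (Dom.refl (hu.pow (N + h + 1)).1).add k1.neg
      have p0 : 0 ≤ (1 + ρ) ^ h - 1 := sub_nonneg.2 (one_le_pow₀ (by linarith))
      have p1 : (1 + ρ) ^ h ≤ 3 := by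
        calc (1 + ρ) ^ h ≤ exp ρ ^ h := pow_le_pow_left₀ (by linarith)
              (by linarith [add_one_le_exp ρ]) h
          _ = exp (h * ρ) := (exp_nat_mul _ _).symm
          _ ≤ exp 1 := exp_le_exp.2 (by linarith)
          _ ≤ 3 := by linarith [exp_one_lt_d9]
      have k3 := k1.add ((ih (by linarith)).trans k2 p0)
      rw [sub_add_sub_cancel] at k3
      refine k3.mono (hu.pow _).1 (le_of_eq (by ring)) ?_
      push_cast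
      nlinarith
  have hh' : (h : ℝ) ≤ c.H ^ η := by exact_mod_cast hh
  have hρ1 : (c.H : ℝ) ^ η * ρ ≤ 1 := by
    rw [← ρH, mul_comm]
    exact mul_le_mul_of_nonneg_left (pow_le_pow_right₀ c.H_one hη) ρ0.le
  have hρ2 : h * ρ ≤ c.H ^ η * ρ := by gcongr
  refine .of_dom hu (key h (by linarith)) ?_ ?_ <;> rw [c.ε_pred, c.ε_sub, ← hρ]
  · have : (1 + ρ) ^ h ≤ 1 + 2 * (h * ρ) := by
      calc (1 + ρ) ^ h ≤ exp ρ ^ h := pow_le_pow_left₀ (by linarith)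
            (by linarith [add_one_le_exp ρ]) h
        _ = exp (h * ρ) := (exp_nat_mul _ _).symm
        _ ≤ _ := by
          have t0 : 0 ≤ h * ρ := by positivity
          have := abs_le.1 (abs_exp_sub_one_le (x := h * ρ) (by
            rw [abs_of_nonneg t0]; linarith))
          rw [abs_of_nonneg t0] at this
          linarith [this.2]
    have t : 0 ≤ (c.H : ℝ) ^ η * ρ := by have := c.H_ge'; positivity
    nlinarith [c.H_ge']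
  · have t1 : 3 * (4 * (r0 : ℝ) ^ 2 + 4) ≤ c.H ^ (2 * r + 2) := by
      have : 5000 * c.H ^ (2 * r + 1) ≤ c.H ^ (2 * r + 2) := c.pw_succ (2 * r + 1)
      exact_mod_cast (by omega : 3 * (4 * r0 ^ 2 + 4) ≤ c.H ^ (2 * r + 2))
    have t2 := c.δ_step hr 0
    have p0 := c.δ_pos 0
    have p1 : (0 : ℝ) < c.H := by linarith [c.H_ge']
    calc 3 * h * δ1 = h * (3 * (4 * (r0 : ℝ) ^ 2 + 4)) * c.δ 0 := by rw [hδ1]; ring
      _ ≤ c.H ^ η * c.H ^ (2 * r + 2) * c.δ 0 := by gcongr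
      _ = (ρ * c.H ^ r) * (c.H ^ η * c.H ^ (2 * r + 2) * c.δ 0) := by rw [ρH, one_mul]
      _ = ρ * c.H ^ η * c.H * (c.H ^ (3 * r + 1) * c.δ 0) := by ring
      _ ≤ _ := by gcongr

lemma Sl.shift {y r η h N : ℕ} (hs : Sl c u y) (hr : 3 * r + 1 ≤ c.T) (hη : η ≤ r)
    (hh : h ≤ c.H ^ η) (hN : c.H ^ (y + 2 * r + 1) ≤ N) (hd : Dz c u j Δ e n) :
    Dz c u (j + 2) (u ^ N * (Δ * u ^ h - u ^ h * Δ) * u ^ N) (e + r - η - 2) (n + h + 2 * N) := by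
  have k := hs.slip hr hη hh hN
  have k1 : Dz c u (j + 2) _ (e + r - η - 1) (n + h + 2 * N) :=
    ((hd.ctx N 0).mul k).to rfl (by omega) (by omega) (by omega)
  have k2 : Dz c u (j + 2) _ (e + r - η - 1) (n + h + 2 * N) :=
    (k.mul (hd.ctx 0 N)).neg.to rfl (by omega) (by omega) (by omega)
  have k3 := Dz.sum hs.1 (s := univ) (f := ![_, _]) (fun i _ => by
    fin_cases i
    · exact k1
    · exact k2) (a := 1) (by simpa using le_trans (by norm_num) c.H_ge)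
  refine k3.to ?_ rfl le_rfl (by omega)
  simp only [Fin.sum_univ_two, Matrix.cons_val_zero, Matrix.cons_val_one, pow_zero, mul_one,
    one_mul, mul_sub, sub_mul, mul_assoc, ← pow_add, add_comm h N]
  rw [pow_add u N h]
  simp only [mul_assoc]
  abel

/-- Deviation from the average over shifts. -/
noncomputable def dev (v : A M) (N : ℕ) (Δ : A M) : A M :=
  Δ * v ^ (N - 1) - (1 / N : ℝ) • SS v Δ N

lemma Sl.avshift {y r η W K N : ℕ} (hs : Sl c u y) (hr : 3 * r + 1 ≤ c.T) (hη : η ≤ r)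
    (hK : 0 < K) (hh : W * K ≤ c.H ^ η) (hN : c.H ^ (y + 2 * r + 1) ≤ N) (hd : Dz c u j Δ e n) :
    Dz c u (j + 2) (u ^ N * dev (u ^ W) K Δ * u ^ N) (e + r - η - 2) (n + W * (K - 1) + 2 * N) := by
  have k := Dz.avg (j := j + 2) (e := e + r - η - 2) (n := n + W * (K - 1) + 2 * N) hs.1 hK
    (f := fun k => u ^ N * (Δ * (u ^ W) ^ (K - 1) - (u ^ W) ^ k * Δ * (u ^ W) ^ (K - 1 - k)) * u ^ N)
    fun k hk => by
      obtain ⟨t, ht⟩ : ∃ t, K - 1 = k + t := ⟨K - 1 - k, by have := mem_range.1 hk; omega⟩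
      refine ((hs.shift hr hη (h := W * k) (le_trans (Nat.mul_le_mul_left _ (mem_range.1 hk).le) hh)
        hN hd).ctx 0 (W * t)).to ?_ (by rw [ht]; ring) le_rfl le_rfl
      rw [ht, Nat.add_sub_cancel_left]
      simp only [pow_zero, one_mul, mul_sub, sub_mul, mul_assoc, ← pow_add, ← pow_mul]
      congr 4 <;> ring
  refine k.to ?_ rfl le_rfl le_rfl
  have K0 : (K : ℝ) ≠ 0 := by exact_mod_cast hK.ne'
  rw [← sum_mul, ← mul_sum, sum_sub_distrib, sum_const, card_range, dev, SS_eq, ← smul_mul_assoc,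
    ← mul_smul_comm, smul_sub, ← Nat.cast_smul_eq_nsmul ℝ, smul_smul, one_div_mul_cancel K0,
    one_smul]

lemma Ctx.two_B (c : Ctx) (μ : ℕ) : 1 / ((c.H ^ μ) ^ 2 : ℕ) * (2 * (2 : ℝ) ^ c.T * (c.H ^ μ : ℕ)) ≤
    c.ε (μ - 1) := by
  have h1 := c.ε_nat μ
  have h2 : (5000 : ℝ) * 2 ^ c.T ≤ c.H := by exact_mod_cast c.B_le
  have h3 : (0 : ℝ) < c.H ^ μ := by exact_mod_cast c.pw_pos μ
  have h4 : (0 : ℝ) < 2 ^ c.T := by positivity
  rw [c.ε_pred, div_mul_eq_mul_div, div_le_iff₀ (by exact_mod_cast pow_pos (c.pw_pos μ) 2)]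
  push_cast
  calc _ ≤ (c.ε μ * c.H ^ μ) * (c.H * c.H ^ μ) := by rw [h1]; nlinarith
    _ = _ := by ring

lemma Ctx.rem (c : Ctx) {μ : ℕ} (hμ : μ ≤ c.T) (j : ℕ) :
    c.H * c.δ j ≤ c.ε (μ - 1) * c.δ (j + 1) := by
  have h1 := c.ε_nat μ
  have h2 := c.δ_step hμ j
  have h3 := c.ε_pos μ
  have p1 : (0 : ℝ) < c.H := by linarith [c.H_ge']
  rw [c.ε_pred]
  calc c.H * c.δ j = (c.ε μ * c.H ^ μ) * (c.H * c.δ j) := by rw [h1, one_mul]
    _ = c.ε μ * c.H * (c.H ^ μ * c.δ j) := by ring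
    _ ≤ _ := by gcongr

lemma Dz.avg_one {Q : A M} {W μ : ℕ} (h : Dz c u j Q e W) (h0 : mass Q = 0) (hμ : μ ≤ c.T) :
    Dz c u (j + 1) ((1 / ((c.H ^ μ) ^ 2 : ℕ) : ℝ) • SS (u ^ W) Q ((c.H ^ μ) ^ 2)) (e + (μ - 1))
      (W * (c.H ^ μ) ^ 2) := by
  have k := (Vale.Agent.P321.avg_one h.unit (h.1.pow W) one_pos (by simp [h0]) (c.pw_pos μ)
    (one_le_pow₀ one_le_two) c.δ_zero).smul (1 / ((c.H ^ μ) ^ 2 : ℕ) : ℝ)
  have h3 : (1 : ℝ) ≤ (c.H ^ μ : ℕ) := by exact_mod_cast c.pw_pos μ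
  rw [SS_smul, smul_comm, ← pow_mul u, abs_of_nonneg (by positivity)] at k
  refine .of_unit h.1 k (le_trans (le_of_eq (by ring)) (c.two_B μ)) (le_trans ?_ (c.rem hμ j))
  rw [← mul_assoc]
  refine mul_le_mul_of_nonneg_right ?_ (c.δ_pos j).le
  rw [Nat.cast_pow, div_mul_eq_mul_div, div_le_iff₀ (by positivity)]
  nlinarith [c.H_ge']

lemma Dz.avg_two {Q Q' Z : A M} {W μ z : ℕ} {κ : ℤ} (h : Dz c u j Q e W) (h' : Dz c u j Q' e' W)
    (hZ : Dz c u j Z κ z) (h0 : mass Q = 0) (hμ : μ ≤ c.T) (hj : j ≤ c.jm) :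
    Dz c u (j + 1) ((1 / ((c.H ^ μ) ^ 2 : ℕ) : ℝ) • ∑ k ∈ range ((c.H ^ μ) ^ 2),
      (u ^ W) ^ k * Q * (u ^ W) ^ ((c.H ^ μ) ^ 2 - 1 - k) * Z *
        ((u ^ W) ^ k * Q' * (u ^ W) ^ ((c.H ^ μ) ^ 2 - 1 - k))) (e + e' + κ + (μ - 1))
      (W * (c.H ^ μ) ^ 2 + z + W * (c.H ^ μ) ^ 2) := by
  have k := (Vale.Agent.P321.avg_two h.unit h'.unit hZ.unit (h.1.pow W) (h.1.pow z) one_pos one_pos
    zero_le_one le_rfl le_rfl le_rfl (c.δ_le hj) (by simp [h0]) (c.pw_pos μ)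
    (one_le_pow₀ one_le_two) c.δ_zero).smul (1 / ((c.H ^ μ) ^ 2 : ℕ) : ℝ)
  have h3 : (1 : ℝ) ≤ (c.H ^ μ : ℕ) := by exact_mod_cast c.pw_pos μ
  simp only [mul_smul_comm, smul_mul_assoc, smul_smul, ← smul_sum, ← c.ε_add] at k
  rw [mul_comm, mul_smul, ← pow_mul u, ← pow_add, ← pow_add, abs_of_nonneg (by positivity),
    show -e' + (-κ + -e) = -(e + e' + κ) by ring] at k
  refine .of_unit h.1 k (le_trans (le_of_eq (by ring)) (c.two_B μ)) (le_trans ?_ (c.rem hμ j))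
  rw [← mul_assoc]
  refine mul_le_mul_of_nonneg_right ?_ (c.δ_pos j).le
  have h2 : (5000 : ℝ) * 2 ^ c.T ≤ c.H := by exact_mod_cast c.B_le
  have h4 : (0 : ℝ) < 2 ^ c.T := by positivity
  rw [Nat.cast_pow, div_mul_eq_mul_div, div_le_iff₀ (by positivity)]
  nlinarith [sq_nonneg ((c.H ^ μ : ℕ) : ℝ)]

/-- Joint gain of two cores. -/
lemma Sl.joint {Q Q' Z : A M} {y W μ ω z b N1 N3 : ℕ} {κ : ℤ} (hs : Sl c u y) (h : Dz c u j Q e W)
    (h' : Dz c u j Q' e' W) (hZ : Dz c u j Z κ z) (hc : Commute u Z) (h0 : mass Q = 0)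
    (hW : W ≤ c.H ^ ω) (hT : 9 * μ + 3 * ω + 4 ≤ c.T) (hj : j ≤ c.jm)
    (hb : c.H ^ (2 * μ + ω) ≤ b) (h1 : c.H ^ (y + 6 * μ + 2 * ω + 4) ≤ N1)
    (h3 : c.H ^ (y + 6 * μ + 2 * ω + 4) ≤ N3) :
    Dz c u (4 * j + 5) (u ^ N1 * Q * (u ^ b * Z) * Q' * u ^ N3) (e + e' + κ + μ - 2)
      (N1 + W + (b + z) + W + N3) := by
  set K := (c.H ^ μ) ^ 2 with hK
  have K0 : 0 < K := pow_pos (c.pw_pos μ) 2
  obtain ⟨K', hK'⟩ : ∃ K', K = K' + 1 := ⟨K - 1, by omega⟩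
  have WK : W * K ≤ c.H ^ (2 * μ + ω) := by
    rw [hK, ← pow_mul, add_comm, pow_add, mul_comm μ]
    exact Nat.mul_le_mul_right _ hW
  have WK' : W * K = W * K' + W := by rw [hK']; ring
  set N := c.H ^ (y + 2 * (3 * μ + ω + 1) + 1) with hN
  have n1 : 5000 * N ≤ c.H ^ (y + 6 * μ + 2 * ω + 4) :=
    (c.pw_succ _).trans (c.pw_le (by omega))
  have n2 : c.H ^ (2 * μ + ω) ≤ N := c.pw_le (by omega)
  obtain ⟨b', rfl⟩ : ∃ b', b = W * K' + b' := Nat.exists_eq_add_of_le (by omega)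
  obtain ⟨t1, rfl⟩ : ∃ t, N1 = t + N := ⟨N1 - N, by omega⟩
  obtain ⟨t3, rfl⟩ : ∃ t, N3 = W * K' + N + t := Nat.exists_eq_add_of_le (by omega)
  have g := (h.mul (hZ.ctx (W * K' + b') 0)).mul h'
  have k1 := hs.avshift (r := 3 * μ + ω + 1) (N := N) (by omega) (by omega) K0 WK le_rfl g
  have k2 := (Dz.avg_two h h' (hZ.ctx b' 0) h0 (show μ ≤ c.T by omega) hj).ctx N N
  rw [← hK] at k2
  refine ((k1.add (k2.to rfl (by rw [WK', hK', Nat.add_sub_cancel]; ring) le_rfl le_rfl)).ctx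
    t1 t3).to ?_ (by rw [hK', Nat.add_sub_cancel]; ring) (by omega) (by omega)
  have e1 : ∑ k ∈ range K, (u ^ W) ^ k * Q * (u ^ W) ^ (K - 1 - k) * (u ^ b' * Z * u ^ 0) *
      ((u ^ W) ^ k * Q' * (u ^ W) ^ (K - 1 - k)) =
      SS (u ^ W) (Q * (u ^ (W * K' + b') * Z * u ^ 0) * Q') K := by
    rw [SS_eq]
    refine sum_congr rfl fun k hk => ?_
    obtain ⟨t, ht⟩ : ∃ t, K' = k + t := ⟨K' - k, by have := mem_range.1 hk; omega⟩
    have : Z * u ^ (W * k) = u ^ (W * k) * Z := (hc.pow_left _).eq.symm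
    rw [hK', ht, Nat.add_sub_cancel, Nat.add_sub_cancel_left]
    simp only [pow_zero, mul_one, ← pow_mul, mul_assoc]
    rw [← mul_assoc Z, this]
    rw [show W * (k + t) + b' = W * t + (b' + W * k) by ring]
    simp only [pow_add, mul_assoc]
  rw [e1, ← add_mul, ← mul_add, dev, sub_add_cancel, hK', Nat.add_sub_cancel]
  simp only [pow_zero, mul_one, ← pow_mul, mul_assoc, pow_add]

end Vale.Agent.P321
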