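import Mathlib

/-! Trace reconstruction: definitions. -/

namespace Vale.Agent.P321

/-- The trace of `x` when exactly the positions `i` with `s i = true` survive: the surviving bits,
in their original order. -/
def trace {n : ℕ} (x s : Fin n → Bool) : List Bool := ((List.finRange n).filter s).map x

/-- The probability of the survival pattern `s`: each bit is deleted independently with
probability `q`. -/
def weight (q : ℝ) {n : ℕ} (s : Fin n → Bool) : ℝ := ∏ i, if s i then 1 - q else q

/-- `m` traces suffice for strings of length `n`: some randomized estimator (`est t y` is the
probability that it outputs `y` on the sequence of traces `t`), given `m` independent traces of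
`x`, outputs `x` with probability at least `2/3`, for every `x`. -/
def Suffices (q : ℝ) (n m : ℕ) : Prop :=
  ∃ est : (Fin m → List Bool) → (Fin n → Bool) → ℝ,
    (∀ t y, 0 ≤ est t y) ∧ (∀ t, ∑ y, est t y = 1) ∧
    ∀ x : Fin n → Bool, 2 / 3 ≤
      ∑ S : Fin m → Fin n → Bool, (∏ j, weight q (S j)) * est (fun j => trace x (S j)) x

end Vale.Agent.P321
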