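import Vale.Agent.P321.Calc

/-! Expansions of products of perturbed letters. -/

namespace Vale.Agent.P321

open Real Finset

variable {M : Type*} [Monoid M]

/-- Product of perturbed letters. -/
noncomputable def PP (u : A M) (f : Bool → A M) (l : List Bool) : A M :=
  (l.map fun b => u + f b).prod

/-- Linear term. -/
noncomputable def T1 (u : A M) (f : Bool → A M) : List Bool → A M
  | [] => 0
  | b :: l => u * T1 u f l + f b * u ^ l.length

/-- Quadratic term. -/
noncomputable def T2 (u : A M) (f : Bool → A M) : List Bool → A M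
  | [] => 0
  | b :: l => u * T2 u f l + f b * T1 u f l

variable {c : Ctx} {u w : A M} {j m a n : ℕ} {e : ℤ} {f : Bool → A M}

lemma rec_sum (G : List Bool → A M) (F : Bool → List Bool → A M) (h0 : G [] = 0)
    (h1 : ∀ b l, G (b :: l) = u * G l + F b l) (l : List Bool) :
    G l = ∑ i ∈ range l.length, u ^ i * F (l.getD i false) (l.drop (i + 1)) := by
  induction l with
  | nil => simpa using h0
  | cons b l ih =>
    rw [h1, List.length_cons, sum_range_succ', ih, mul_sum]
    simp [pow_succ', mul_assoc]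

lemma rec_dz (hw : Prob w) (G : List Bool → A M) (F : Bool → List Bool → A M) (h0 : G [] = 0)
    (h1 : ∀ b l, G (b :: l) = u * G l + F b l) (X Y : A M) (l : List Bool)
    (hl : l.length ≤ c.H ^ a) (h : ∀ i b (l' : List Bool), i + 1 + l'.length = l.length →
      Dz c w j (X * (u ^ i * F b l') * Y) e n) : Dz c w j (X * G l * Y) (e - a) n := by
  rw [rec_sum G F h0 h1, mul_sum, sum_mul]
  exact Dz.sum hw (fun i hi => h _ _ _ (by have := mem_range.1 hi; simp; omega)) (by simpa)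

lemma PP_dz (hw : Prob w) (hf : ∀ b, Dz c w j (f b) e m) (hj : j ≤ c.jm) (he : (a : ℤ) + 1 ≤ e)
    (l : List Bool) (hl : l.length ≤ c.H ^ a) : Dz c w j (PP (w ^ m) f l) (-1) (m * l.length) := by
  have p1 := c.ε_pos e
  have p2 := c.δ_pos j
  have p3 := c.δ_le hj
  have key : ∀ l : List Bool, Dom (PP (w ^ m) f l) ((1 + c.ε e) ^ l.length) (w ^ (m * l.length))
      (l.length * c.ε e * (1 + 2 * c.ε e) ^ l.length * c.δ j) := by
    intro l
    induction l with
    | nil => simpa [PP] using Dom.refl (NN.one (M := M))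
    | cons b l ih =>
      have k := ((Dom.refl (hw.pow m).1).add (hf b).2).mul ih (hw.pow _) (hw.pow _) (by linarith)
        (by positivity)
      rw [← pow_add, ← pow_succ'] at k
      rw [List.length_cons, show m * (l.length + 1) = m + m * l.length by ring]
      refine k.mono (hw.pow _).1 le_rfl ?_
      have q1 : (1 + c.ε e) ^ l.length ≤ (1 + 2 * c.ε e) ^ l.length :=
        pow_le_pow_left₀ (by linarith) (by linarith) _
      set x := (1 + 2 * c.ε e) ^ l.length
      have x0 : 0 ≤ x := by positivity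
      have q2 : 0 ≤ l.length * c.ε e * x * c.δ j := by positivity
      have q3 := mul_le_mul_of_nonneg_left q1 (mul_pos p1 p2).le
      have q4 := mul_le_mul_of_nonneg_left p3 (mul_nonneg p1.le q2)
      have q5 : 0 ≤ c.ε e * c.ε e * x * c.δ j := by positivity
      rw [pow_succ]
      push_cast
      nlinarith
  have e1 : c.ε (-1) = c.H := by simpa using c.ε_neg 1
  have hl' : (l.length : ℝ) ≤ c.H ^ a := by exact_mod_cast hl
  have q1 : l.length * c.ε e ≤ 1 / 2 := by
    have := c.ε_mono (e := e - a) (e' := 1) (by omega)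
    rw [c.ε_sub] at this
    nlinarith [c.ε_one]
  have q2 : (1 + 2 * c.ε e) ^ l.length ≤ 3 := by
    calc _ ≤ exp (2 * c.ε e) ^ l.length := pow_le_pow_left₀ (by linarith)
          (by linarith [add_one_le_exp (2 * c.ε e)]) _
      _ = exp (l.length * (2 * c.ε e)) := (exp_nat_mul _ _).symm
      _ ≤ exp 1 := exp_le_exp.2 (by linarith)
      _ ≤ 3 := by linarith [exp_one_lt_d9]
  refine .of_dom hw (key l) ?_ ?_ <;> rw [e1]
  · linarith [pow_le_pow_left₀ (by linarith : 0 ≤ 1 + c.ε e)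
      (by linarith : 1 + c.ε e ≤ 1 + 2 * c.ε e) l.length, c.H_ge']
  · refine mul_le_mul_of_nonneg_right ?_ p2.le
    have := mul_le_mul q1 q2 (by positivity) (by norm_num)
    linarith [c.H_ge']

lemma rec_dz' (hw : Prob w) (hf : ∀ b, Dz c w j (f b) e m) (G F : List Bool → A M) (h0 : G [] = 0)
    (h1 : ∀ b l, G (b :: l) = w ^ m * G l + f b * F l) {j' : ℕ} {e' : ℤ}
    (h : ∀ l : List Bool, l.length ≤ c.H ^ a → Dz c w j' (F l) e' (m * l.length)) (l : List Bool)
    (hl : l.length ≤ c.H ^ a) : Dz c w (j + j' + 1) (G l) (e + e' - a) (m * l.length) := by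
  have := rec_dz hw G (fun b l => f b * F l) h0 h1 1 1 l hl (j := j + j' + 1) (e := e + e')
    (n := m * l.length) fun i b l' hi => (((hf b).mul (h l' (by omega))).ctx (m * i) 0).to
      (by simp [pow_mul]) (by rw [← hi]; ring) le_rfl le_rfl
  simpa using this

lemma R1_dz (hw : Prob w) (hf : ∀ b, Dz c w j (f b) e m) (hj : j ≤ c.jm) (he : (a : ℤ) + 1 ≤ e)
    (l : List Bool) (hl : l.length ≤ c.H ^ a) :
    Dz c w (2 * j + 1) (PP (w ^ m) f l - (w ^ m) ^ l.length) (e - a - 1) (m * l.length) :=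
  (rec_dz' hw hf (fun l => PP (w ^ m) f l - (w ^ m) ^ l.length) _ (by simp [PP])
    (fun b l => by simp only [PP, List.map_cons, List.prod_cons, List.length_cons, pow_succ']
                   noncomm_ring)
    (PP_dz hw hf hj he) l hl).to rfl rfl (by omega) (by omega)

lemma R2_dz (hw : Prob w) (hf : ∀ b, Dz c w j (f b) e m) (hj : j ≤ c.jm) (he : (a : ℤ) + 1 ≤ e)
    (l : List Bool) (hl : l.length ≤ c.H ^ a) :
    Dz c w (3 * j + 2) (PP (w ^ m) f l - (w ^ m) ^ l.length - T1 (w ^ m) f l) (2 * e - 2 * a - 1)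
      (m * l.length) :=
  (rec_dz' hw hf (fun l => PP (w ^ m) f l - (w ^ m) ^ l.length - T1 (w ^ m) f l) _
    (by simp [PP, T1])
    (fun b l => by simp only [PP, T1, List.map_cons, List.prod_cons, List.length_cons, pow_succ']
                   noncomm_ring)
    (R1_dz hw hf hj he) l hl).to rfl rfl (by omega) (by omega)

lemma R3_dz (hw : Prob w) (hf : ∀ b, Dz c w j (f b) e m) (hj : j ≤ c.jm) (he : (a : ℤ) + 1 ≤ e)
    (l : List Bool) (hl : l.length ≤ c.H ^ a) :
    Dz c w (4 * j + 3) (PP (w ^ m) f l - (w ^ m) ^ l.length - T1 (w ^ m) f l - T2 (w ^ m) f l)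
      (3 * e - 3 * a - 1) (m * l.length) :=
  (rec_dz' hw hf (fun l => PP (w ^ m) f l - (w ^ m) ^ l.length - T1 (w ^ m) f l - T2 (w ^ m) f l) _
    (by simp [PP, T1, T2])
    (fun b l => by
      simp only [PP, T1, T2, List.map_cons, List.prod_cons, List.length_cons, pow_succ']
      noncomm_ring)
    (R2_dz hw hf hj he) l hl).to rfl rfl (by omega) (by omega)

lemma T1_dz (hw : Prob w) (hf : ∀ b, Dz c w j (f b) e 1) (l : List Bool)
    (hl : l.length ≤ c.H ^ a) : Dz c w (j + 1) (T1 w f l) (e - a) l.length :=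
  (rec_dz' hw hf (T1 w f) (fun l => w ^ l.length) rfl (fun b l => by simp [T1])
    (fun l _ => (Dz.pow hw _).to rfl (by simp) le_rfl le_rfl) l hl).to rfl (by simp) (by omega)
    (by omega)

lemma PP_rep (v : A M) (n : ℕ) : PP v (fun _ => u - v) (List.replicate n true) = u ^ n := by
  simp [PP]

lemma Dz.pow_close {t : ℤ} (h : Dz c w j (u - w ^ m) t m) (hj : j ≤ c.jm) (he : (a : ℤ) + 1 ≤ t)
    (hn : n ≤ c.H ^ a) : Dz c w j (u ^ n) (-1) (m * n) ∧
      Dz c w (2 * j + 1) (u ^ n - w ^ (m * n)) (t - a - 1) (m * n) := by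
  have k1 := PP_dz h.1 (fun _ => h) hj he (List.replicate n true) (by simpa)
  have k2 := R1_dz h.1 (fun _ => h) hj he (List.replicate n true) (by simpa)
  rw [PP_rep, List.length_replicate] at k1 k2
  exact ⟨k1, by rwa [pow_mul]⟩

lemma pairU {D E : A M} {t eD eE eP : ℤ} {K n2 j' : ℕ} (hu : Prob u)
    (h : Dz c w j (u - w ^ m) t m) (hj : j ≤ c.jm) (hD : Dz c w j D eD m) (hE : Dz c w j E eE m)
    (hK : K + 1 + n2 + 1 + K ≤ c.H ^ a) (he : (a : ℤ) + 2 ≤ t) (hP : eP ≤ t - a + eD + eE - 5)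
    (hp : Dz c w j' (w ^ (m * K) * D * w ^ (m * n2) * E * w ^ (m * K)) eP
      (m * K + m + m * n2 + m + m * K)) :
    Dz c u (j' + 20 * j + 20) (u ^ K * D * u ^ n2 * E * u ^ K) (eP - 2) (K + 1 + n2 + 1 + K) := by
  obtain ⟨a1, a2⟩ := h.pow_close (n := K) hj (by omega) (le_trans (by omega) hK)
  obtain ⟨b1, b2⟩ := h.pow_close (n := n2) hj (by omega) (le_trans (by omega) hK)
  obtain ⟨-, c2⟩ := h.pow_close hj (by omega) hK
  have k1 := (((a2.mul hD).mul b1).mul hE).mul a1
  have k2 := ((((Dz.pow h.1 (m * K)).mul hD).mul b2).mul hE).mul a1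
  have k3 := ((((Dz.pow h.1 (m * K)).mul hD).mul (Dz.pow h.1 (m * n2))).mul hE).mul a2
  have k := (hp.add ((k1.add k2).add k3)).to rfl
    (show _ = m * (K + 1 + n2 + 1 + K) by ring) le_rfl le_rfl
  refine (k.trans ((c2.to rfl rfl le_rfl (by omega)).flip hu)).to ?_ rfl (by omega) (by omega)
  noncomm_ring

/-- Signs. -/
def sg (b : Bool) : ℝ := if b then 1 else -1

lemma abs_sg (b : Bool) : |sg b| ≤ 1 := by cases b <;> simp [sg]

lemma sg_not (b : Bool) : sg (!b) = -sg b := by cases b <;> simp [sg]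

/-- Odd quadratic term. -/
noncomputable def Qd (u D E : A M) : List Bool → A M
  | [] => 0
  | b :: l => u * Qd u D E l +
      (E * T1 u (fun b => sg b • D) l + sg b • D * T1 u (fun _ => E) l)

lemma T1_add (f g : Bool → A M) (l : List Bool) :
    T1 u (fun b => f b + g b) l = T1 u f l + T1 u g l := by
  induction l with
  | nil => simp [T1]
  | cons b l ih => simp only [T1, ih]; noncomm_ring

lemma T1_sub (f g : Bool → A M) (l : List Bool) :
    T1 u (fun b => f b - g b) l = T1 u f l - T1 u g l := by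
  induction l with
  | nil => simp [T1]
  | cons b l ih => simp only [T1, ih]; noncomm_ring

lemma T2_sub (D E : A M) (l : List Bool) : T2 u (fun b => E + sg b • D) l =
    T2 u (fun b => E - sg b • D) l + (Qd u D E l + Qd u D E l) := by
  induction l with
  | nil => simp [T2, Qd]
  | cons b l ih => simp only [T2, Qd, ih, T1_add, T1_sub]; noncomm_ring

lemma T1_mass (hf : ∀ b, mass (f b) = 0) (l : List Bool) : mass (T1 u f l) = 0 := by
  induction l with
  | nil => simp [T1]
  | cons b l ih => simp [T1, ih, hf]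

lemma Qd_dz {D E : A M} {K : ℕ} (hu : Prob u) (l : List Bool) (hl : l.length ≤ c.H ^ 1)
    (hDE : ∀ n2 ≤ l.length, Dz c u j (u ^ K * D * u ^ n2 * E * u ^ K) e (K + 1 + n2 + 1 + K))
    (hED : ∀ n2 ≤ l.length, Dz c u j (u ^ K * E * u ^ n2 * D * u ^ K) e (K + 1 + n2 + 1 + K)) :
    Dz c u (2 * j) (u ^ K * Qd u D E l * u ^ K) (e - 3) (K + l.length + K) := by
  refine (rec_dz hu (Qd u D E) _ rfl (fun _ _ => rfl) _ _ l hl (j := 2 * j) (e := e - 2)
    fun i b l' hi => ?_).to rfl rfl le_rfl (by omega)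
  have k1 := rec_dz hu (T1 u fun b => sg b • D) _ rfl (fun _ _ => rfl) (u ^ K * u ^ i * E) (u ^ K)
    l' (le_trans (by omega) hl) (j := j) (e := e) (n := K + l.length + K) fun i' b' l'' hi' =>
      (((hED i' (by omega)).ctx i l''.length).smul (abs_sg b')).to (by
        simp only [mul_assoc, ← pow_add, mul_smul_comm, smul_mul_assoc]
        simp only [← mul_assoc, ← pow_add, add_comm]) (by omega) le_rfl le_rfl
  have k2 := rec_dz hu (T1 u fun _ => E) _ rfl (fun _ _ => rfl) (u ^ K * u ^ i * D) (u ^ K)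
    l' (le_trans (by omega) hl) (j := j) (e := e) (n := K + l.length + K) fun i' b' l'' hi' =>
      ((hDE i' (by omega)).ctx i l''.length).to (by
        simp only [mul_assoc, ← pow_add]
        simp only [← mul_assoc, ← pow_add, add_comm]) (by omega) le_rfl le_rfl
  refine (k1.add (k2.smul (abs_sg b))).to ?_ rfl (by omega) (by omega)
  simp only [mul_add, add_mul, mul_assoc, mul_smul_comm, smul_mul_assoc]

/-- Thue-Morse words. -/
def tm : ℕ → List Bool
  | 0 => [true]
  | t + 1 => tm t ++ (tm t).map not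

lemma tm_length (t : ℕ) : (tm t).length = 2 ^ t := by
  induction t with
  | zero => rfl
  | succ t ih => simp [tm, ih, pow_succ, mul_two]

lemma tm_head (t : ℕ) : ∃ l, tm t = true :: l := by
  induction t with
  | zero => exact ⟨[], rfl⟩
  | succ t ih =>
    obtain ⟨l, h⟩ := ih
    exact ⟨_, by rw [tm, h, List.cons_append]⟩

lemma T1_append (l l' : List Bool) :
    T1 u f (l ++ l') = T1 u f l * u ^ l'.length + u ^ l.length * T1 u f l' := by
  induction l with
  | nil => simp [T1]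
  | cons b l ih =>
    simp only [List.cons_append, T1, ih, List.length_append, List.length_cons, pow_add, pow_succ']
    noncomm_ring

lemma T1_not (D : A M) (l : List Bool) :
    T1 u (fun b => sg b • D) (l.map not) = -T1 u (fun b => sg b • D) l := by
  induction l with
  | nil => simp [T1]
  | cons b l ih => simp only [List.map_cons, T1, ih, sg_not, List.length_map, neg_smul]; noncomm_ring

lemma Sl.kill {D : A M} {y N : ℕ} (hs : Sl c u y) (hT : 13 ≤ c.T) (hD : Dz c u j D e 1)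
    (hN : c.H ^ (y + 9) ≤ N) : ∀ t ≤ c.T, Dz c u (j + 2 * t)
      (u ^ (t * N) * T1 u (fun b => sg b • D) (tm t) * u ^ (t * N)) (e + t) (2 ^ t + 2 * (t * N)) := by
  intro t
  induction t with
  | zero => intro _; simpa [tm, T1, sg] using hD
  | succ t ih =>
    intro ht
    have : 2 ^ t ≤ c.H ^ 1 := by
      have := c.B_le
      have : 2 ^ t ≤ 2 ^ c.T := Nat.pow_le_pow_right two_pos (by omega)
      rw [pow_one]
      omega
    refine (hs.shift (r := 4) (η := 1) (by omega) (by omega) this hN (ih (by omega))).to ?_ (by ring)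
      (by omega) (by omega)
    rw [tm, T1_append, T1_not, List.length_map, tm_length]
    rw [add_one_mul]
    simp only [mul_add, add_mul, mul_sub, sub_mul, mul_neg, neg_mul, mul_assoc, ← pow_add]
    simp only [← mul_assoc, ← pow_add]
    rw [sub_eq_add_neg]
    simp only [add_comm, add_left_comm, add_assoc]

/-- Elementary terms around a core. -/
def El (c : Ctx) (u : A M) (j b : ℕ) (Q : A M) (W : ℕ) (σ : ℤ) (n : ℕ) (X : A M) : Prop :=
  ∃ (X1 Y1 : A M) (α β : ℤ) (p q : ℕ), X = X1 * (u ^ b * Q * u ^ b) * Y1 ∧ Commute u X1 ∧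
    Commute u Y1 ∧ Dz c u j X1 α p ∧ Dz c u j Y1 β q ∧ σ ≤ α + β ∧ p + (b + W + b) + q = n

/-- Representations by elementary terms. -/
def Rep (c : Ctx) (u : A M) (j b : ℕ) (Q : A M) (W : ℕ) (σ κ : ℤ) (n : ℕ) (D : A M) : Prop :=
  ∃ t : Fin 3 → A M, (∀ i, El c u j b Q W σ n (t i)) ∧ Dz c u j (D - ∑ i, t i) κ n

variable {b W : ℕ} {Q X X' : A M} {σ σ' s κ : ℤ}

lemma El.dz (h : El c u j b Q W σ n X) (hQ : Dz c u j Q s W) :
    Dz c u (3 * j + 2) X (σ + s) n := by
  obtain ⟨X1, Y1, α, β, p, q, rfl, -, -, h1, h2, h3, rfl⟩ := h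
  exact ((h1.mul (hQ.ctx b b)).mul h2).to rfl rfl (by omega) (by omega)

lemma Ctx.three (c : Ctx) : (univ : Finset (Fin 3)).card ≤ c.H ^ 1 := by
  simpa using le_trans (by norm_num) c.H_ge

lemma Rep.dz (h : Rep c u j b Q W σ κ n X) (hQ : Dz c u j Q s W) :
    Dz c u (4 * j + 2) X (min (σ + s - 1) κ - 1) n := by
  obtain ⟨t, h1, h2⟩ := h
  exact ((Dz.sum hQ.1 (fun i _ => (h1 i).dz hQ) c.three).add h2).to (by abel) rfl (by omega)
    (by omega)

variable {y μ ω N1 N2 N3 n' : ℕ}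

lemma El.pair (hs : Sl c u y) (h : El c u j b Q W σ n X) (h' : El c u j b Q W σ' n' X')
    (hQ : Dz c u j Q s W) (h0 : mass Q = 0) (hW : W ≤ c.H ^ ω) (hT : 9 * μ + 3 * ω + 4 ≤ c.T)
    (hj : 2 * j + 1 ≤ c.jm) (hb : c.H ^ (2 * μ + ω) ≤ b)
    (h1 : c.H ^ (y + 6 * μ + 2 * ω + 4) ≤ N1) (h3 : c.H ^ (y + 6 * μ + 2 * ω + 4) ≤ N3) :
    Dz c u (10 * j + 11) (u ^ N1 * X * u ^ N2 * X' * u ^ N3) (σ + σ' + 2 * s + μ - 2)
      (N1 + n + N2 + n' + N3) := by
  obtain ⟨X1, Y1, α, β, p, q, rfl, c1, c2, a1, a2, a3, rfl⟩ := h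
  obtain ⟨X2, Y2, α', β', p', q', rfl, c3, c4, a4, a5, a6, rfl⟩ := h'
  have hQ' : Dz c u (2 * j + 1) Q s W := hQ.to rfl rfl (by omega) le_rfl
  have k := hs.joint hQ' hQ' (((a2.ctx 0 N2).mul (a4.ctx 0 b)).to rfl rfl (by omega) le_rfl)
    (by
      simp only [pow_zero, one_mul]
      exact (c2.mul_right (Commute.self_pow _ _)).mul_right (c3.mul_right (Commute.self_pow _ _)))
    h0 hW hT hj hb (N1 := N1 + b) (N3 := b + N3) (by omega) (by omega)
  refine ((a1.mul k).mul a5).to ?_ (by omega) (by omega) (by omega)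
  simp only [pow_zero, one_mul, pow_add, mul_assoc]
  rw [← mul_assoc X1, ← (c1.pow_left N1).eq, (c4.pow_left N3).eq, mul_assoc]

lemma Rep.pair {eP eE : ℤ} (hs : Sl c u y) (h : Rep c u j b Q W σ κ n X)
    (h' : Rep c u j b Q W σ' κ n' X') (hE : Dz c u j X' eE n')
    (hQ : Dz c u j Q s W) (h0 : mass Q = 0) (hW : W ≤ c.H ^ ω) (hT : 9 * μ + 3 * ω + 4 ≤ c.T)
    (hj : 2 * j + 1 ≤ c.jm) (hb : c.H ^ (2 * μ + ω) ≤ b)
    (h1 : c.H ^ (y + 6 * μ + 2 * ω + 4) ≤ N1) (h3 : c.H ^ (y + 6 * μ + 2 * ω + 4) ≤ N3)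
    (e1 : eP ≤ σ + σ' + 2 * s + μ - 5) (e2 : eP ≤ κ + eE - 2) (e3 : eP ≤ κ + σ + s - 3) :
    Dz c u (16 * j + 15) (u ^ N1 * X * u ^ N2 * X' * u ^ N3) eP (N1 + n + N2 + n' + N3) := by
  obtain ⟨t, a1, a2⟩ := h
  obtain ⟨t', a3, a4⟩ := h'
  have k1 := Dz.sum (s := univ) hs.1 (fun i _ => Dz.sum (s := univ) hs.1 (fun i' _ =>
    (a1 i).pair (N2 := N2) hs (a3 i') hQ h0 hW hT hj hb h1 h3) c.three) c.three
  have k2 := (a2.ctx N1 N2).mul (hE.ctx 0 N3)
  have k3 := ((Dz.sum hQ.1 (fun i _ => (a1 i).dz hQ) c.three).ctx N1 N2).mul (a4.ctx 0 N3)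
  refine (k1.add ((k2.add k3).to rfl (by omega) le_rfl le_rfl)).to ?_ rfl (by omega) (by omega)
  simp only [← sum_mul, ← mul_sum]
  noncomm_ring

end Vale.Agent.P321
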