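import Vale.Agent.P321.Base
import Vale.Agent.P321.Defs

/-! Two words with nearly equal trace laws, and the lower bound. -/

namespace Vale.Agent.P321

open Real Finset MonoidAlgebra

section

variable {M : Type*} [Monoid M] {c : Ctx}

theorem Lv.iter {φ : Bool → A M} (hφ : ∀ b, Prob (φ b)) (hs : Sl c (φ false * φ true) 0)
    (hQ : Dz c (φ false * φ true) 0 (φ false - φ false * φ true) (-1) 1)
    (ho : Sl c ((φ false * φ true) ^ c.H ^ (4 * 792 + 12) * φ false *
      (φ false * φ true) ^ c.H ^ (4 * 792 + 12)) 3182) {J : ℕ}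
    (hT : 20000 * 2 ^ J + 200 * (J * 2 ^ J) + 100 ≤ c.T) (hj : 400 ^ (J + 3) * c.T ≤ c.jm) :
    ∀ i ≤ J, ∃ j yw y β : ℕ, j ≤ 400 ^ (i + 2) * c.T ∧ y + 18 = 6400 * 2 ^ i ∧
      β + 8 = 3200 * 2 ^ i ∧
      Lv c φ j yw y 1 β ((6300 * 2 ^ i + 100 * (i * 2 ^ i) + 12 : ℕ)) 0 0 c.T
        ((6400 * 2 ^ i + 100 * (i * 2 ^ i) + 12 : ℕ)) ((6400 * 2 ^ i + 100 * (i * 2 ^ i) + 12 : ℕ))
        (((3200 * 2 ^ i : ℕ) : ℤ) - 8) := by
  have P0 : 0 < 2 ^ J := by positivity
  have hT1 := c.hT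
  have jm : ∀ i ≤ J, 400 * (400 ^ (i + 2) * c.T) ≤ c.jm := fun i hi => by
    rw [← mul_assoc, ← pow_succ']
    exact le_trans (Nat.mul_le_mul_right _ (Nat.pow_le_pow_right (by norm_num) (by omega))) hj
  intro i
  induction i with
  | zero =>
    intro _
    have := jm 0 (Nat.zero_le _)
    refine ⟨_, _, _, _, by omega, by norm_num, by norm_num,
      (Lv.base hφ hs hQ (k := 792) (by omega) (by norm_num) ho).step hφ 100 (e := 2374) (eP := 6436)
        ?_ ?_ ?_ ?_ ?_ ?_ ?_ ?_ ?_ ?_ ?_ ?_ ?_ ?_ ?_ ?_ ?_ ?_ ?_ ?_ ?_ ?_ ?_ ?_⟩ <;> omega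
  | succ i ih =>
    intro hi
    obtain ⟨j, yw, y, β, h1, h2, h3, h⟩ := ih (by omega)
    have a1 := jm i (by omega)
    have a2 : 400 ^ 1 * c.T ≤ 400 ^ (i + 2) * c.T :=
      Nat.mul_le_mul_right _ (Nat.pow_le_pow_right (by norm_num) (by omega))
    have a3 : 400 ^ (i + 1 + 2) * c.T = 400 * (400 ^ (i + 2) * c.T) := by ring
    have a4 : 2 ^ (i + 1) = 2 * 2 ^ i := by ring
    have a5 : (i + 1) * 2 ^ (i + 1) = 2 * (i * 2 ^ i) + 2 * 2 ^ i := by ring
    have a6 : 2 ^ (i + 1) ≤ 2 ^ J := Nat.pow_le_pow_right two_pos hi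
    have a7 : (i + 1) * 2 ^ (i + 1) ≤ J * 2 ^ J := Nat.mul_le_mul hi a6
    have a8 : 0 < 2 ^ i := by positivity
    rw [a3, a5]
    rw [a5] at a7
    rw [a4] at a6 ⊢
    generalize 2 ^ i = P at *
    generalize i * P = G at *
    refine ⟨_, _, _, _, by omega, by omega, by omega,
      h.step hφ (400 * P) (e := (6400 * P + 100 * G + 12 : ℕ))
        (eP := (13000 * P + 200 * G + 19 : ℕ))
        ?_ ?_ ?_ ?_ ?_ ?_ ?_ ?_ ?_ ?_ ?_ ?_ ?_ ?_ ?_ ?_ ?_ ?_ ?_ ?_ ?_ ?_ ?_ ?_⟩ <;> omega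

end

/-- The law of the trace of one bit. -/
noncomputable def bit (q : ℝ) (b : Bool) : A (FreeMonoid Bool) :=
  q • 1 + (1 - q) • single (FreeMonoid.of b) 1

variable {q : ℝ}

lemma bit_prob (h0 : 0 ≤ q) (h1 : q ≤ 1) (b : Bool) : Prob (bit q b) :=
  ⟨(NN.one.smul h0).add ((NN.single _ zero_le_one).smul (by linarith)), by simp [bit]⟩

lemma first_ov (h0 : 0 < q) (h1 : q < 1) : ∃ ϖ > (0 : ℝ), ∃ a0 : ℕ, ∀ a ≥ a0, ∃ r < a,
    Ov (((bit q false * bit q true) ^ a * bit q false * (bit q false * bit q true) ^ a) ^ r)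
      (((bit q false * bit q true) ^ a * bit q false * (bit q false * bit q true) ^ a) ^ (r + 1))
      ϖ := by
  set p := 1 - q ^ 2 / 2 with hp
  have p0 : 0 < p := by nlinarith
  have p1 : p < 1 := by nlinarith
  set d0 : A (FreeMonoid Bool) := single (FreeMonoid.of false) 1
  set d1 : A (FreeMonoid Bool) := single (FreeMonoid.of true) 1
  have n0 : NN d0 := NN.single _ zero_le_one
  have n1 : NN d1 := NN.single _ zero_le_one
  have q1 : 0 < 1 - q := by linarith
  have eγ : bit q false * bit q true = (q ^ 2) • 1 + (q * (1 - q)) • d0 + (q * (1 - q)) • d1 +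
      ((1 - q) ^ 2) • (d0 * d1) := by
    simp only [bit, add_mul, mul_add, smul_mul_assoc, mul_smul_comm, one_mul, mul_one]
    module
  have comb : ∀ a b c d : ℝ, 0 ≤ a → 0 ≤ b → 0 ≤ c → 0 ≤ d →
      NN (p⁻¹ • (a • 1 + b • d0 + c • d1 + d • (d0 * d1))) := fun a b c d ha hb hc hd =>
    ((((NN.one.smul ha).add (n0.smul hb)).add (n1.smul hc)).add ((n0.mul n1).smul hd)).smul
      (by positivity)
  have pz := bit_prob h0.le h1.le false
  have pγ := pz.mul (bit_prob h0.le h1.le true)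
  have iq : q * (2 / q) = 2 := by field_simp
  have k := marginal (p := p) (g := p⁻¹ • (bit q false * bit q true - (1 - p) • 1))
    (ψ := p⁻¹ • (bit q false - bit q false * bit q true)) (c := 2 / q)
    ⟨(comb (q ^ 2 / 2) (q * (1 - q)) (q * (1 - q)) ((1 - q) ^ 2) (by positivity) (by positivity)
      (by positivity) (by positivity)).of_eq (by rw [eγ, hp]; module), by
        simp only [map_smul, map_sub, pγ.2, map_one, smul_eq_mul]
        field_simp
        ring⟩ (by positivity)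
    ⟨(comb (q ^ 2) ((1 - q) * (1 + q)) ((1 - q) * (2 + q)) ((1 - q) ^ 2 * (2 / q + 1))
      (by positivity) (by positivity) (by positivity) (by positivity)).of_eq (by
        rw [eγ, hp, bit]
        match_scalars <;> field_simp <;> ring),
      (comb (q * (2 - q)) ((1 - q) * (3 - q)) ((1 - q) * (2 - q)) ((1 - q) ^ 2 * (2 / q - 1))
      (by nlinarith) (by nlinarith) (by nlinarith) (mul_nonneg (by positivity) (by
        rw [sub_nonneg, le_div_iff₀ h0]; linarith))).of_eq (by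
        rw [eγ, hp, bit]
        match_scalars <;> field_simp <;> ring)⟩
    (by simp [pz.2, pγ.2])
    ((comb (q * (1 - q / 2)) (1 - q) 0 0 (by nlinarith) q1.le le_rfl le_rfl).of_eq (by
      rw [eγ, hp, bit]
      module)) p0 p1
  have e1 : (1 - p) • (1 : A (FreeMonoid Bool)) + p • p⁻¹ • (bit q false * bit q true - (1 - p) • 1) =
      bit q false * bit q true := by rw [smul_smul, mul_inv_cancel₀ p0.ne', one_smul]; abel
  have e2 : (1 - p) • (1 : A (FreeMonoid Bool)) + p • (p⁻¹ • (bit q false * bit q true -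
      (1 - p) • 1) + p⁻¹ • (bit q false - bit q false * bit q true)) = bit q false := by
    rw [← smul_add, smul_smul, mul_inv_cancel₀ p0.ne', one_smul]; abel
  rwa [e1, e2] at k

lemma num1 (J : ℕ) (h : 10 ≤ J) : 20100 + 200 * J ≤ 4 ^ J := by
  induction J, h using Nat.le_induction with
  | base => norm_num
  | succ J _ ih => rw [pow_succ]; omega

theorem two_words (h0 : 0 < q) (h1 : q < 1) : ∃ J0 : ℕ, ∀ J ≥ J0, ∃ U V : List Bool,
    U.length = V.length ∧ U.length ≤ 2 ^ 16 ^ (J + 4) ∧ U ≠ V ∧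
      Nm (lw (bit q) U - lw (bit q) V) (4 / 2 ^ (600 * J * 16 ^ J)) := by
  obtain ⟨ϖ, ϖ0, a0, ha0⟩ := first_ov h0 h1
  obtain ⟨J1, hJ1⟩ := exists_nat_gt (1 / ϖ + 1 / q ^ 2)
  refine ⟨J1 + a0 + 10, fun J hJ => ?_⟩
  have n1 := num1 J (by omega)
  have n2 : 8 ^ J = 4 ^ J * 2 ^ J := (mul_pow 4 2 J)
  have n3 : 0 < 2 ^ J := by positivity
  have n4 : 20000 * 2 ^ J + 200 * (J * 2 ^ J) + 100 ≤ 8 ^ J := by rw [n2]; nlinarith
  have n5 : 20100 + 200 * J ≤ 8 ^ J := by nlinarith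
  set T := 8 ^ J with hT
  have n6 : T < 2 ^ T := Nat.lt_two_pow_self
  let c : Ctx := ⟨T, (2 ^ T) ^ 6, 400 ^ (J + 3) * T, by omega, by
    have : 5000 ≤ (2 ^ T) ^ 2 := by nlinarith
    calc 5000 * (2 ^ T) ^ 4 ≤ (2 ^ T) ^ 2 * (2 ^ T) ^ 4 := Nat.mul_le_mul_right _ this
      _ = _ := by ring, by
    have e1 : 2 * (T * 6 * T * (400 ^ (J + 3) * T)) ≤ (2 ^ T) ^ 2 := by
      have a : 400 ^ (J + 3) ≤ 2 ^ T := by
        calc 400 ^ (J + 3) ≤ (2 ^ 9) ^ (J + 3) := Nat.pow_le_pow_left (by norm_num) _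
          _ ≤ _ := by rw [← pow_mul]; exact Nat.pow_le_pow_right two_pos (by omega)
      have b : 12 * T ^ 3 ≤ 2 ^ T := by
        calc 12 * T ^ 3 ≤ 2 ^ 4 * (2 ^ 9) ^ J := by
              rw [hT, ← pow_mul, mul_comm J, pow_mul]
              exact Nat.mul_le_mul (by norm_num) (Nat.pow_le_pow_left (by norm_num) _)
          _ ≤ _ := by rw [← pow_mul, ← pow_add]; exact Nat.pow_le_pow_right two_pos (by omega)
      calc _ = 12 * T ^ 3 * 400 ^ (J + 3) := by ring
        _ ≤ 2 ^ T * 2 ^ T := Nat.mul_le_mul b a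
        _ = _ := by ring
    have e2 : (2 : ℝ) * (T * 6 * T * (400 ^ (J + 3) * T) : ℕ) ≤ (2 ^ T) ^ 2 := by exact_mod_cast e1
    rw [exp_neg, ← div_eq_mul_inv, div_le_one (exp_pos _)]
    push_cast
    rw [← pow_mul, ← pow_mul, ← pow_mul]
    calc (2 : ℝ) ^ (T * (6 * (T * (400 ^ (J + 3) * T)))) ≤
          exp 1 ^ (T * (6 * (T * (400 ^ (J + 3) * T)))) :=
          pow_le_pow_left₀ zero_le_two (by linarith [add_one_le_exp 1]) _
      _ ≤ _ := by
        rw [← exp_nat_mul, exp_le_exp]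
        push_cast at e2 ⊢
        linarith⟩
  have cT : c.T = T := rfl
  have cH : c.H = (2 ^ T) ^ 6 := rfl
  have big : 1 / ϖ + 1 / q ^ 2 ≤ 2 ^ c.T := by
    have : (J1 : ℝ) ≤ 2 ^ c.T := by exact_mod_cast (by omega : J1 ≤ 2 ^ T)
    linarith
  have pq : (0 : ℝ) < 1 / q ^ 2 := by positivity
  have pϖ : (0 : ℝ) < 1 / ϖ := by positivity
  have pb := bit_prob h0.le h1.le
  have pγ := (pb false).mul (pb true)
  have nb : ∀ b, NN (bit q b - q • 1) := fun b =>
    ((NN.single _ zero_le_one).smul (by linarith : 0 ≤ 1 - q)).of_eq (by rw [bit]; abel)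
  have hs : Sl c (bit q false * bit q true) 0 := by
    refine ⟨pγ, 0, by simp, (q * q) • 1, NN.one.smul (by positivity), ?_, ?_, ?_⟩
    · rw [map_smul, map_one, smul_eq_mul, mul_one, one_div_le (by positivity) (by positivity), ← sq]
      linarith
    · exact (NN.one.smul (show 0 ≤ 1 - q * q by nlinarith)).of_eq (by rw [pow_zero]; module)
    · refine ((((pb false).1).mul (nb true)).add ((nb false).smul h0.le)).of_eq ?_
      simp only [zero_add, pow_one, mul_sub, mul_smul_comm, mul_one]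
      module
  have hQ : Dz c (bit q false * bit q true) 0 (bit q false - bit q false * bit q true) (-1) 1 := by
    refine .of_dom pγ (x := 1 / q + 1) (y := 0) (Abs.dom ?_) ?_ (mul_pos (c.ε_pos _) (c.δ_pos _)).le
    · rw [pow_one, sub_eq_add_neg]
      refine ((Abs.refl (pb false).1).add (Abs.refl pγ.1).neg).mono
        ((((pb false).1.mul (nb true)).smul (show 0 ≤ 1 / q by positivity)).of_eq ?_)
      simp only [mul_sub, mul_smul_comm, mul_one]
      match_scalars <;> field_simp <;> ring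
    · have e1 : c.ε (-1) = c.H := by simpa using c.ε_neg 1
      have e2 : (5000 : ℝ) * 2 ^ c.T ≤ c.H := by exact_mod_cast c.B_le
      have e3 : 1 / q ≤ 1 / q ^ 2 := one_div_le_one_div_of_le (by positivity) (by nlinarith)
      have e4 : (1 : ℝ) ≤ 2 ^ c.T := one_le_pow₀ one_le_two
      linarith
  obtain ⟨r, hr, ho⟩ := ha0 (c.H ^ (4 * 792 + 12)) (by
    have := c.pw_le (show 1 ≤ 4 * 792 + 12 by norm_num)
    have h2 := c.B_le
    rw [pow_one] at this
    rw [cT] at h2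
    omega)
  obtain ⟨j, yw, y, β, b1, b2, -, U0, Up, Um, w, Q, D, E, m, b, W, l1, l2, l3, ne, lp, lm, -, -, -,
    -, -, -, -, -, -, hD, -⟩ := Lv.iter pb hs hQ ⟨((pγ.pow _).mul (pb false)).mul (pγ.pow _), r,
      hr.trans_le (c.pw_le (by norm_num)), ho.mono (by
        rw [one_div_le (by positivity) ϖ0]; linarith)⟩ (J := J) n4 le_rfl J le_rfl
  refine ⟨Up, Um, by omega, ?_, ne, ?_⟩
  · rw [l1]
    refine l3.trans ?_
    rw [cH, ← pow_mul, ← pow_mul]
    refine Nat.pow_le_pow_right two_pos ?_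
    calc T * (6 * y) ≤ T * (65536 * 2 ^ J) := Nat.mul_le_mul_left _ (by omega)
      _ = _ := by rw [hT, show 16 = 8 * 2 from rfl, pow_add, mul_pow]; ring
  · have k := hD.nm (b1.trans (Nat.mul_le_mul_right _ (Nat.pow_le_pow_right (by norm_num)
      (by omega))))
    refine ((k.add k).of_eq (by rw [lp, lm]; abel)).mono ?_
    have e1 := c.ε_mono (e := (6400 * 2 ^ J + 100 * (J * 2 ^ J) + 12 : ℕ))
      (e' := (100 * (J * 2 ^ J) : ℕ)) (by omega)
    have e2 := c.ε_nat (100 * (J * 2 ^ J))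
    have e3 : (c.H : ℝ) ^ (100 * (J * 2 ^ J)) = 2 ^ (600 * J * 16 ^ J) := by
      rw [cH]
      push_cast
      rw [← pow_mul, ← pow_mul, hT, show 16 = 8 * 2 from rfl, mul_pow]
      congr 1
      ring
    rw [e3] at e2
    rw [le_div_iff₀ (by positivity)]
    nlinarith [mul_le_mul_of_nonneg_right e1 (show (0 : ℝ) ≤ 2 ^ (600 * J * 16 ^ J) by positivity)]

lemma hybrid {Ω α : Type*} [Fintype Ω] (w : Ω → ℝ) (hw : ∀ s, 0 ≤ w s) (h1 : ∑ s, w s = 1)
    (f g : Ω → α) {η : ℝ} (h : ∀ G : α → ℝ, (∀ a, 0 ≤ G a ∧ G a ≤ 1) →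
      ∑ s, w s * G (f s) - ∑ s, w s * G (g s) ≤ η) (m : ℕ) :
    ∀ F : (Fin m → α) → ℝ, (∀ t, 0 ≤ F t ∧ F t ≤ 1) →
      ∑ S : Fin m → Ω, (∏ j, w (S j)) * F (fun j => f (S j)) -
        ∑ S : Fin m → Ω, (∏ j, w (S j)) * F (fun j => g (S j)) ≤ m * η := by
  classical
  induction m with
  | zero =>
    intro F _
    simpa using (congrArg F (Subsingleton.elim _ _)).le
  | succ m ih =>
    intro F hF
    have e : ∀ f : Ω → α, ∑ S : Fin (m + 1) → Ω, (∏ j, w (S j)) * F (fun j => f (S j)) =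
        ∑ s, w s * ∑ S : Fin m → Ω, (∏ j, w (S j)) * F (Fin.cons (f s) fun j => f (S j)) := by
      intro f
      rw [← (Fin.consEquiv fun _ => Ω).sum_comp, Fintype.sum_prod_type]
      refine sum_congr rfl fun s _ => ?_
      rw [mul_sum]
      refine sum_congr rfl fun S _ => ?_
      rw [Fin.prod_univ_succ, mul_assoc]
      congr 3
      funext j
      refine Fin.cases rfl (fun _ => rfl) j
    have tot : ∑ S : Fin m → Ω, ∏ j, w (S j) = 1 := by
      rw [← Fintype.piFinset_univ, ← prod_univ_sum]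
      simp [h1]
    have k1 := h (fun a => ∑ S : Fin m → Ω, (∏ j, w (S j)) * F (Fin.cons a fun j => g (S j)))
      fun a => ⟨sum_nonneg fun S _ => mul_nonneg (prod_nonneg fun _ _ => hw _) (hF _).1,
        (sum_le_sum fun S _ => mul_le_of_le_one_right (prod_nonneg fun _ _ => hw _) (hF _).2).trans
          tot.le⟩
    have k2 := sum_le_sum (s := univ) fun s _ => mul_le_mul_of_nonneg_left
      (ih (fun t => F (Fin.cons (f s) t)) fun _ => hF _) (hw s)
    simp only [mul_sub, sum_sub_distrib, ← sum_mul, h1] at k2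
    rw [e, e]
    push_cast
    linarith

lemma lw_ofFn (q : ℝ) (n : ℕ) : ∀ x : Fin n → Bool, lw (bit q) (List.ofFn x) =
    ∑ s : Fin n → Bool, weight q s • single (FreeMonoid.ofList (trace x s)) 1 := by
  induction n with
  | zero => intro x; simp [lw, weight, trace, one_def]
  | succ n ih =>
    intro x
    have e : ∀ (b : Bool) (s : Fin n → Bool), trace x (Fin.cons b s) =
        (if b then [x 0] else []) ++ trace (fun i => x i.succ) s := by
      intro b s
      cases b <;> simp [trace, List.finRange_succ, List.filter_map, Function.comp_def]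
    rw [List.ofFn_succ, ← (Fin.consEquiv fun _ => Bool).sum_comp, Fintype.sum_prod_type]
    change bit q (x 0) * lw (bit q) _ = _
    rw [ih, Fintype.sum_bool, bit, add_mul, add_comm, mul_sum, mul_sum]
    simp only [smul_mul_assoc, mul_smul_comm, single_mul_single, smul_smul, one_mul]
    congr 1 <;> refine sum_congr rfl fun s _ => ?_ <;>
      simp [Fin.consEquiv, e, weight, Fin.prod_univ_succ, mul_comm]

lemma ev_le {M : Type*} [Monoid M] {Δ : A M} {η : ℝ} (h : Nm Δ η) (G : M → ℝ)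
    (hG : ∀ a, 0 ≤ G a ∧ G a ≤ 1) :
    (Finsupp.linearCombination ℝ G).comp (coeffLinearEquiv ℝ).toLinearMap Δ ≤ η := by
  classical
  obtain ⟨P, h1, h2⟩ := h
  refine le_trans ?_ h2
  rw [mass_eq' P (P.coeff.support ∪ Δ.coeff.support) subset_union_left]
  change Finsupp.linearCombination ℝ G Δ.coeff ≤ _
  rw [Finsupp.linearCombination_apply, Finsupp.sum_of_support_subset _
    (subset_union_right (s₁ := P.coeff.support)) _ (by simp)]
  refine sum_le_sum fun w _ => ?_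
  have := abs_le.1 (abs_iff.1 h1 w)
  rw [smul_eq_mul]
  nlinarith [hG w, h1.nn w]

theorem lower (h0 : 0 < q) (h1 : q < 1) {n m : ℕ} (h : Suffices q n m) {U V : List Bool}
    (l1 : U.length = V.length) (l2 : U.length ≤ n) (ne : U ≠ V) {η : ℝ}
    (hn : Nm (lw (bit q) U - lw (bit q) V) η) : 1 ≤ 3 * (m * η) := by
  obtain ⟨est, e0, e1, e2⟩ := h
  obtain ⟨t, rfl⟩ := Nat.exists_eq_add_of_le l2
  have ex : ∀ W : List Bool, W.length = U.length → ∃ x : Fin (U.length + t) → Bool,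
      List.ofFn x = W ++ List.replicate t false := fun W hW =>
    ⟨fun i => (W ++ List.replicate t false)[i.1]'(by simpa [hW] using i.2),
      List.ext_getElem (by simp [hW]) fun i _ _ => by simp⟩
  obtain ⟨x, hx⟩ := ex U rfl
  obtain ⟨y, hy⟩ := ex V l1.symm
  have xy : x ≠ y := fun e => ne (List.append_cancel_right (hx.symm.trans (e ▸ hy)))
  have k := hn.mul (lw_prob (bit_prob h0.le h1.le) (List.replicate t false)).nm
  rw [sub_mul, ← lw_append, ← lw_append, ← hx, ← hy, mul_one, lw_ofFn, lw_ofFn] at k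
  have w0 : ∀ s : Fin (U.length + t) → Bool, 0 ≤ weight q s := fun s =>
    prod_nonneg fun i _ => by split_ifs <;> linarith
  have w1 : ∑ s : Fin (U.length + t) → Bool, weight q s = 1 := by
    have := (lw_prob (bit_prob h0.le h1.le) (List.ofFn x)).2
    simpa [lw_ofFn] using this
  have le1 : ∀ t, est t x + est t y ≤ 1 := fun t => by
    rw [← e1 t, ← sum_pair xy]
    exact sum_le_sum_of_subset_of_nonneg (subset_univ _) fun _ _ _ => e0 _ _
  have hy := hybrid (weight q) w0 w1 (trace x) (trace y) (η := η) (fun G hG => by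
    have := ev_le k (fun w => G w.toList) fun _ => hG _
    simpa [coeffLinearEquiv] using this) m (fun t => est t x)
    fun t => ⟨e0 _ _, by linarith [le1 t, e0 t y]⟩
  have tot : ∑ S : Fin m → Fin (U.length + t) → Bool, ∏ j, weight q (S j) = 1 := by
    rw [← Fintype.piFinset_univ, ← prod_univ_sum]
    simp [w1]
  have k2 := sum_le_sum (s := univ) fun (S : Fin m → Fin (U.length + t) → Bool) _ =>
    mul_le_mul_of_nonneg_left (le1 fun j => trace y (S j)) (prod_nonneg (s := univ) fun j _ =>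
      w0 (S j))
  simp only [mul_add, sum_add_distrib, mul_one, tot] at k2
  linarith [e2 x, e2 y]

theorem main (h0 : 0 < q) (h1 : q < 1) : ∃ N : ℕ, ∀ n ≥ N, ∀ m, Suffices q n m →
    (n : ℝ) ^ (1 / 2 ^ 20 * log (log n)) ≤ m := by
  obtain ⟨J0, hJ⟩ := two_words h0 h1
  refine ⟨2 ^ 16 ^ (J0 + 9), fun n hn m h => ?_⟩
  have n0 : n ≠ 0 := by
    have : 0 < 2 ^ 16 ^ (J0 + 9) := by positivity
    omega
  have a1 : 16 ^ (J0 + 9) ≤ Nat.log 2 n := Nat.le_log_of_pow_le one_lt_two hn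
  have a2 : J0 + 9 ≤ Nat.log 16 (Nat.log 2 n) := Nat.le_log_of_pow_le (by norm_num) a1
  obtain ⟨J, hJ'⟩ : ∃ J, Nat.log 16 (Nat.log 2 n) = J + 4 := ⟨Nat.log 16 (Nat.log 2 n) - 4, by omega⟩
  have L0 : Nat.log 2 n ≠ 0 := by
    have : 0 < 16 ^ (J0 + 9) := by positivity
    omega
  have a3 : 2 ^ 16 ^ (J + 4) ≤ n := by
    rw [← hJ']
    exact (Nat.pow_le_pow_right two_pos (Nat.pow_log_le_self 16 L0)).trans (Nat.pow_log_le_self 2 n0)
  have a4 : n ≤ 2 ^ 16 ^ (J + 5) := by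
    have := Nat.lt_pow_succ_log_self (show 1 < 16 by norm_num) (Nat.log 2 n)
    rw [hJ'] at this
    exact (Nat.lt_pow_succ_log_self one_lt_two n).le.trans (Nat.pow_le_pow_right two_pos this)
  obtain ⟨U, V, l1, l2, ne, hn⟩ := hJ J (by omega)
  have k := lower h0 h1 h l1 (l2.trans a3) ne hn
  have n1 : (1 : ℝ) < n := by
    have : 1 < 2 ^ 16 ^ (J + 4) := Nat.one_lt_two_pow (by positivity)
    exact_mod_cast (by omega : 1 < n)
  have lp : 0 < log (n : ℝ) := log_pos n1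
  have l2 : log 2 ≤ 1 := by linarith [log_two_lt_d9]
  have l0 : 0 < log 2 := log_pos one_lt_two
  have b1 : log (n : ℝ) ≤ 16 ^ (J + 5) * log 2 := by
    have : (n : ℝ) ≤ 2 ^ 16 ^ (J + 5) := by exact_mod_cast a4
    simpa using log_le_log (by linarith) this
  have J5 : (5 : ℝ) ≤ J := by exact_mod_cast (by omega : 5 ≤ J)
  have b2 : log (log (n : ℝ)) ≤ 8 * J := by
    have : log (n : ℝ) ≤ 2 ^ (4 * (J + 5)) := by
      rw [pow_mul]
      norm_num
      nlinarith [show (0 : ℝ) < 16 ^ (J + 5) by positivity]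
    have := log_le_log lp this
    rw [log_pow] at this
    push_cast at this
    nlinarith
  have b3 : (1 : ℝ) ≤ 16 ^ J := one_le_pow₀ (by norm_num)
  have b4 : log (n : ℝ) * (1 / 2 ^ 20 * log (log n)) ≤ log 2 * (600 * J * 16 ^ J - 4) := by
    calc _ ≤ log (n : ℝ) * (1 / 2 ^ 20 * (8 * J)) := by gcongr
      _ ≤ 16 ^ (J + 5) * log 2 * (1 / 2 ^ 20 * (8 * J)) := by gcongr
      _ = log 2 * (8 * J * 16 ^ J) := by ring
      _ ≤ _ := by gcongr; nlinarith
  rw [rpow_def_of_pos (by linarith)]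
  refine (exp_le_exp.2 b4).trans ?_
  rw [← rpow_def_of_pos two_pos, rpow_sub two_pos, div_le_iff₀ (by positivity)]
  have e : (2 : ℝ) ^ (600 * J * 16 ^ J : ℝ) = 2 ^ (600 * J * 16 ^ J) := by
    rw [← rpow_natCast 2 (600 * J * 16 ^ J)]; push_cast; rfl
  rw [e, show (2 : ℝ) ^ (4 : ℝ) = 16 by norm_num]
  rw [← mul_div_assoc, ← mul_div_assoc, le_div_iff₀ (by positivity)] at k
  linarith [Nat.cast_nonneg (α := ℝ) m]

end Vale.Agent.P321
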