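import Vale.Agent.P321.Alg

/-! Hoeffding type averaging lemmas. -/

namespace Vale.Agent.P321

open MonoidAlgebra Real

variable {M : Type*} [Monoid M]

/-- Sum of all placements of `Q` in a background of `v`. -/
noncomputable def SS (v Q : A M) : ℕ → A M
  | 0 => 0
  | n + 1 => Q * v ^ n + v * SS v Q n

lemma SS_eq (v Q : A M) (n : ℕ) :
    SS v Q n = ∑ k ∈ Finset.range n, v ^ k * Q * v ^ (n - 1 - k) := by
  induction n with
  | zero => simp [SS]
  | succ n ih =>
    rw [SS, ih, Finset.sum_range_succ', Finset.mul_sum, add_comm]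
    congr 1
    · refine Finset.sum_congr rfl fun k _ => ?_
      rw [pow_succ', show n + 1 - 1 - (k + 1) = n - 1 - k by omega]
      simp only [mul_assoc]
    · simp

lemma tilt {ι : Type*} (s : Finset ι) (e : ι → A M) (f : ι → ℝ) (he : ∀ i ∈ s, NN (e i))
    (n : ℕ) : ∀ t : ℝ, NN ((∑ i ∈ s, exp (f i) • e i) ^ n - exp t • ((1 - t) • (∑ i ∈ s, e i) ^ n +
      SS (∑ i ∈ s, e i) (∑ i ∈ s, f i • e i) n)) := by
  induction n with
  | zero =>
    intro t
    have : 0 ≤ 1 - exp t * (1 - t) := by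
      have h1 := add_one_le_exp (-t)
      have h2 : exp t * exp (-t) = 1 := by rw [← exp_add]; simp
      nlinarith [exp_pos t]
    refine (NN.one.smul this).of_eq ?_
    simp only [pow_zero, SS]
    module
  | succ n ih =>
    intro t
    refine (NN.sum (s := s) fun i hi => ((he i hi).mul (ih (t - f i))).smul
      (exp_pos (f i)).le).of_eq ?_
    set X := (∑ i ∈ s, exp (f i) • e i) ^ n with hX
    set Y := (∑ i ∈ s, e i) ^ n with hY
    set S := SS (∑ i ∈ s, e i) (∑ i ∈ s, f i • e i) n with hS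
    have e1 : ∀ i, exp (f i) • (e i * (X - exp (t - f i) • ((1 - (t - f i)) • Y + S))) =
        (exp (f i) • e i) * X - exp t • ((1 - t) • (e i * Y) + ((f i • e i) * Y + e i * S)) := by
      intro i
      have : exp t = exp (f i) * exp (t - f i) := by rw [← exp_add]; simp
      rw [this]
      simp only [mul_sub, mul_add, mul_smul_comm, smul_mul_assoc]
      module
    simp only [e1, Finset.sum_sub_distrib, ← Finset.smul_sum, Finset.sum_add_distrib,
      ← Finset.sum_mul]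
    rw [pow_succ', pow_succ', SS]

lemma SS_smul (v Q : A M) (c : ℝ) (n : ℕ) : SS v (c • Q) n = c • SS v Q n := by
  simp only [SS_eq, Finset.smul_sum, mul_smul_comm, smul_mul_assoc]

lemma one_sided {ι : Type*} (s : Finset ι) (e : ι → A M) (f : ι → ℝ) (he : ∀ i ∈ s, NN (e i))
    {c : ℝ} (hc : 0 < c) (hf : ∀ i ∈ s, |f i| ≤ c) (h1 : ∑ i ∈ s, mass (e i) = 1)
    (h0 : ∑ i ∈ s, f i * mass (e i) = 0) (n : ℕ) {l : ℝ} (τ : ℝ) (hl : 0 < l) :
    ∃ R, NN R ∧ mass R ≤ exp (-(l * τ) + n * (l * c) ^ 2 / 2) / l ∧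
      NN (τ • (∑ i ∈ s, e i) ^ n + R - SS (∑ i ∈ s, e i) (∑ i ∈ s, f i • e i) n) := by
  have h := tilt s e (fun i => l * f i) he n (l * τ)
  have nn : NN (∑ i ∈ s, exp (l * f i) • e i) := NN.sum fun i hi => (he i hi).smul (exp_pos _).le
  have hv : NN (∑ i ∈ s, e i) := NN.sum he
  refine ⟨(exp (-(l * τ)) / l) • (∑ i ∈ s, exp (l * f i) • e i) ^ n,
    (nn.pow n).smul (by positivity), ?_, ?_⟩
  · have m1 : mass (∑ i ∈ s, exp (l * f i) • e i) ≤ exp ((l * c) ^ 2 / 2) := by
      refine le_trans ?_ (cosh_le_exp_half_sq (l * c))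
      rw [map_sum]
      calc ∑ i ∈ s, mass (exp (l * f i) • e i)
          ≤ ∑ i ∈ s, (cosh (l * c) * mass (e i) + sinh (l * c) / c * (f i * mass (e i))) := by
            refine Finset.sum_le_sum fun i hi => ?_
            have := exp_mul_le_cosh_add_mul_sinh (t := f i / c)
              (by rw [abs_div, abs_of_pos hc, div_le_one hc]; exact hf i hi) (l * c)
            rw [show f i / c * (l * c) = l * f i by field_simp] at this
            rw [map_smul, smul_eq_mul]
            refine (mul_le_mul_of_nonneg_right this (he i hi).mass_nonneg).trans (le_of_eq ?_)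
            ring
        _ = cosh (l * c) := by
            rw [Finset.sum_add_distrib, ← Finset.mul_sum, ← Finset.mul_sum, h1, h0]
            ring
    rw [map_smul, map_pow, smul_eq_mul, exp_add, div_mul_eq_mul_div]
    refine div_le_div_of_nonneg_right (mul_le_mul_of_nonneg_left ?_ (exp_pos _).le) hl.le
    rw [mul_div_assoc, exp_nat_mul]
    exact pow_le_pow_left₀ nn.mass_nonneg m1 n
  · have e1 : ∑ i ∈ s, (l * f i) • e i = l • ∑ i ∈ s, f i • e i := by
      simp only [Finset.smul_sum, mul_smul]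
    rw [e1, SS_smul] at h
    refine ((h.smul (c := exp (-(l * τ)) / l) (by positivity)).add
      ((hv.pow n).smul (c := 1 / l) (by positivity))).of_eq ?_
    have e2 : exp (-(l * τ)) / l * exp (l * τ) = 1 / l := by
      rw [div_mul_eq_mul_div, ← exp_add]; simp
    rw [smul_sub, smul_smul, e2]
    match_scalars <;> field_simp <;> ring

theorem hoeff {ι : Type*} (s : Finset ι) (e : ι → A M) (f : ι → ℝ) (he : ∀ i ∈ s, NN (e i))
    {c : ℝ} (hc : 0 < c) (hf : ∀ i ∈ s, |f i| ≤ c) (h1 : ∑ i ∈ s, mass (e i) = 1)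
    (h0 : ∑ i ∈ s, f i * mass (e i) = 0) {r : ℕ} (hr : 0 < r) {B : ℝ} (hB : 1 ≤ B) :
    Dom (SS (∑ i ∈ s, e i) (∑ i ∈ s, f i • e i) (r ^ 2)) (c * B * r) ((∑ i ∈ s, e i) ^ r ^ 2)
      (2 * c * r * exp (-(B ^ 2 / 2))) := by
  have hr' : (0 : ℝ) < r := by exact_mod_cast hr
  have hl : 0 < B / (c * r) := by positivity
  obtain ⟨R, a1, a2, a3⟩ := one_sided s e f he hc hf h1 h0 (r ^ 2) (c * B * r) hl
  obtain ⟨R', b1, b2, b3⟩ := one_sided s e (fun i => -f i) he hc (by simpa using hf) h1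
    (by simpa using h0) (r ^ 2) (c * B * r) hl
  have e1 : ∑ i ∈ s, (-f i) • e i = (-1 : ℝ) • ∑ i ∈ s, f i • e i := by simp
  rw [e1, SS_smul] at b3
  have e2 : exp (-(B / (c * r) * (c * B * r)) + (r ^ 2 : ℕ) * (B / (c * r) * c) ^ 2 / 2) /
      (B / (c * r)) ≤ c * r * exp (-(B ^ 2 / 2)) := by
    have : -(B / (c * r) * (c * B * r)) + (r ^ 2 : ℕ) * (B / (c * r) * c) ^ 2 / 2 =
        -(B ^ 2 / 2) := by
      push_cast
      field_simp
      ring
    rw [this, div_div_eq_mul_div, div_le_iff₀ (by linarith)]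
    have : 0 ≤ c * r * exp (-(B ^ 2 / 2)) := by positivity
    nlinarith
  exact ⟨R + R', a1.add b1, by rw [map_add]; linarith,
    (a3.add b1).of_eq (by abel), (b3.add a1).of_eq (by module)⟩

lemma abs_fam {ι : Type*} (s : Finset ι) (e : ι → A M) (f : ι → ℝ) (he : ∀ i ∈ s, NN (e i))
    {c : ℝ} (hf : ∀ i ∈ s, |f i| ≤ c) : Abs (∑ i ∈ s, f i • e i) (c • ∑ i ∈ s, e i) := by
  rw [Finset.smul_sum]
  exact Abs.sum fun i hi => ((Abs.refl (he i hi)).smul (f i)).mono
    (((he i hi).smul (sub_nonneg.2 (hf i hi))).of_eq (by module))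

/-- Averaging one core. -/
theorem avg_one {Q v : A M} {c δ B : ℝ} (h : Dom Q c v δ) (hv : Prob v) (hc : 0 < c)
    (h0 : mass Q = 0) {r : ℕ} (hr : 0 < r) (hB : 1 ≤ B) (hδ : exp (-(B ^ 2 / 2)) ≤ δ) :
    Dom (SS v Q (r ^ 2)) (2 * c * B * r) (v ^ r ^ 2) ((4 * c * r + 2 * r ^ 2) * δ) := by
  obtain ⟨f, hf, hf0, hn⟩ := h.decomp0 hv hc.le h0
  have k := hoeff v.coeff.support (fun w => single w (v.coeff w)) f
    (fun w _ => NN.single w (hv.1 w)) (c := 2 * c) (by linarith) (fun w _ => hf w)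
    (by simpa [← mass_eq] using hv.2) (by simpa using hf0) hr hB
  rw [← eq_sum v] at k
  set Q1 := ∑ w ∈ v.coeff.support, f w • single w (v.coeff w)
  have k2 : Nm (SS v (Q - Q1) (r ^ 2)) (∑ _k ∈ Finset.range (r ^ 2), 1 * (2 * δ) * 1) := by
    rw [SS_eq]
    exact Nm.sum fun k _ => ((hv.pow _).nm.mul hn).mul (hv.pow _).nm
  have e : SS v Q (r ^ 2) = SS v Q1 (r ^ 2) + SS v (Q - Q1) (r ^ 2) := by
    simp only [SS_eq, ← Finset.sum_add_distrib, mul_sub, sub_mul]
    exact Finset.sum_congr rfl fun k _ => by abel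
  rw [e]
  refine (k.add (k2.dom _)).mono (hv.pow _).1 (le_of_eq (by ring)) ?_
  simp only [Finset.sum_const, Finset.card_range, nsmul_eq_mul]
  push_cast
  have : 0 ≤ c * r := by positivity
  nlinarith

lemma Dom.bilin {N O : Type*} [Monoid N] [Monoid O] (Φ : A M →ₗ[ℝ] A N →ₗ[ℝ] A O)
    (hΦ : ∀ x y, NN x → NN y → NN (Φ x y)) (hm : ∀ x y, mass (Φ x y) = mass x * mass y)
    {Δ P : A M} {Δ' P' : A N} {ε δ ε' δ' : ℝ} (h : Dom Δ ε P δ) (h' : Dom Δ' ε' P' δ')
    (hP : Prob P) (hP' : Prob P') (he : 0 ≤ ε) (he' : 0 ≤ ε') :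
    Dom (Φ Δ Δ') (ε * ε') (Φ P P') (ε * δ' + δ * ε' + δ * δ') := by
  have hd := h.nonneg
  obtain ⟨R, h1, h2, h3⟩ := h
  obtain ⟨R', h1', h2', h3'⟩ := h'
  refine ⟨ε • Φ P R' + ε' • Φ R P' + Φ R R',
    (((hΦ _ _ hP.1 h1').smul he).add ((hΦ _ _ h1 hP'.1).smul he')).add (hΦ _ _ h1 h1'), ?_, ?_⟩
  · simp only [map_add, map_smul, hm, hP.2, hP'.2, smul_eq_mul, one_mul, mul_one]
    have := mul_le_mul h2 h2' h1'.mass_nonneg hd
    nlinarith [mul_le_mul_of_nonneg_left h2' he, mul_le_mul_of_nonneg_left h2 he']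
  · have e : (ε * ε') • Φ P P' + (ε • Φ P R' + ε' • Φ R P' + Φ R R') =
        Φ (ε • P + R) (ε' • P' + R') := by
      simp only [map_add, map_smul, LinearMap.add_apply, LinearMap.smul_apply]
      module
    rw [e]
    exact Abs.bilin Φ hΦ h3 h3'

/-- Left embedding. -/
noncomputable def il : A M →ₐ[ℝ] A (M × M) := mapDomainAlgHom ℝ ℝ (MonoidHom.inl M M)

/-- Right embedding. -/
noncomputable def ir : A M →ₐ[ℝ] A (M × M) := mapDomainAlgHom ℝ ℝ (MonoidHom.inr M M)

lemma il_single (w : M) (r : ℝ) : il (single w r) = single (w, (1 : M)) r := by simp [il]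

lemma ir_single (w : M) (r : ℝ) : ir (single w r) = single ((1 : M), w) r := by simp [ir]

lemma il_ir (x y : A M) : ir y * il x = il x * ir y := by
  induction x using MonoidAlgebra.induction_linear with
  | zero => simp
  | add x x' h h' => simp [mul_add, add_mul, h, h']
  | single w r =>
    induction y using MonoidAlgebra.induction_linear with
    | zero => simp
    | add y y' h h' => simp [mul_add, add_mul, h, h']
    | single w' r' => simp [il_single, ir_single, single_mul_single, mul_comm]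

/-- The sandwich map. -/
noncomputable def sand : A (M × M) →ₗ[ℝ] A M →ₗ[ℝ] A M :=
  (Finsupp.linearCombination ℝ fun p : M × M =>
    (LinearMap.mulLeft ℝ (single p.1 (1 : ℝ))).comp (LinearMap.mulRight ℝ (single p.2 (1 : ℝ)))).comp
    (coeffLinearEquiv ℝ).toLinearMap

lemma sand_single (p : M × M) (r : ℝ) (Z : A M) :
    sand (single p r) Z = r • (single p.1 1 * (Z * single p.2 1)) := by
  simp [sand, coeffLinearEquiv]

lemma sand_il (x y Z : A M) : sand (il x * ir y) Z = x * Z * y := by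
  induction x using MonoidAlgebra.induction_linear with
  | zero => simp
  | add x x' h h' => simp [add_mul, h, h']
  | single w r =>
    induction y using MonoidAlgebra.induction_linear with
    | zero => simp
    | add y y' h h' => simp only [map_add, mul_add, LinearMap.add_apply, h, h']
    | single w' r' =>
      rw [il_single, ir_single, single_mul_single, sand_single]
      have e1 : (single w r : A M) = r • single w 1 := by simp
      have e2 : (single w' r' : A M) = r' • single w' 1 := by simp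
      rw [e1, e2]
      simp only [Prod.mk_mul_mk, mul_one, one_mul, smul_mul_assoc, mul_smul_comm, mul_assoc,
        smul_smul, mul_comm r' r]

lemma sand_nn (x : A (M × M)) (y : A M) (hx : NN x) (hy : NN y) : NN (sand x y) :=
  NN.map (sand.flip y) (fun w => by
    simpa [sand_single] using (NN.single _ zero_le_one).mul (hy.mul (NN.single _ zero_le_one))) hx

lemma sand_mass (x : A (M × M)) (y : A M) : mass (sand x y) = mass x * mass y := by
  induction x using MonoidAlgebra.induction_linear with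
  | zero => simp
  | add x x' h h' => simp [add_mul, h, h']
  | single w r => simp [sand_single]

lemma ilir_pow (v : A M) (n : ℕ) : (il v * ir v) ^ n = il (v ^ n) * ir (v ^ n) := by
  rw [map_pow, map_pow]
  exact Commute.mul_pow (il_ir v v).symm n

lemma ilir_mul (a b c d : A M) : il a * ir b * (il c * ir d) = il (a * c) * ir (b * d) := by
  rw [map_mul, map_mul, mul_assoc, ← mul_assoc (ir b), il_ir]
  simp only [mul_assoc]

/-- Averaging two cores that move jointly. -/
theorem avg_two {Q Q' v Z Z0 : A M} {c c' κ δ B : ℝ} (h : Dom Q c v δ) (h' : Dom Q' c' v δ)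
    (hZ : Dom Z κ Z0 δ) (hv : Prob v) (hZ0 : Prob Z0) (hc : 0 < c) (hc' : 0 < c') (hκ : 0 ≤ κ)
    (c1 : c ≤ 1) (c1' : c' ≤ 1) (κ1 : κ ≤ 1) (δ1 : δ ≤ 1)
    (h0 : mass Q = 0) {r : ℕ} (hr : 0 < r) (hB : 1 ≤ B) (hδ : exp (-(B ^ 2 / 2)) ≤ δ) :
    Dom (∑ k ∈ Finset.range (r ^ 2), v ^ k * Q * v ^ (r ^ 2 - 1 - k) * Z *
        (v ^ k * Q' * v ^ (r ^ 2 - 1 - k)))
      (2 * c * c' * B * r * κ) (v ^ r ^ 2 * Z0 * v ^ r ^ 2) (22 * B * r ^ 2 * δ) := by
  obtain ⟨f, hf, hf0, hn⟩ := h.decomp0 hv hc.le h0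
  obtain ⟨f', hf', hn'⟩ := h'.decomp hv hc'.le
  have e1 : ∑ w ∈ v.coeff.support, v.coeff w = 1 := by rw [← mass_eq, hv.2]
  have k := hoeff (v.coeff.support ×ˢ v.coeff.support)
    (fun p => (single p (v.coeff p.1 * v.coeff p.2) : A (M × M))) (fun p => f p.1 * f' p.2)
    (fun p _ => NN.single p (mul_nonneg (hv.1 _) (hv.1 _))) (c := 2 * c * c') (by positivity)
    (fun p _ => by rw [abs_mul]; exact mul_le_mul (hf _) (hf' _) (abs_nonneg _) (by linarith))
    (by simp only [mass_single]; rw [Finset.sum_product, ← Finset.sum_mul_sum, e1, one_mul])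
    (by
      simp only [mass_single]
      rw [Finset.sum_product]
      have : ∀ a b, f a * f' b * (v.coeff a * v.coeff b) = f a * v.coeff a * (f' b * v.coeff b) :=
        fun a b => by ring
      simp only [this]
      rw [← Finset.sum_mul_sum, hf0, zero_mul]) hr hB
  set Q1 := ∑ w ∈ v.coeff.support, f w • single w (v.coeff w) with hQ1
  set Q1' := ∑ w ∈ v.coeff.support, f' w • single w (v.coeff w) with hQ1'
  have eV : ∑ p ∈ v.coeff.support ×ˢ v.coeff.support,
      (single p (v.coeff p.1 * v.coeff p.2) : A (M × M)) = il v * ir v := by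
    conv_rhs => rw [eq_sum v]
    rw [map_sum, map_sum, Finset.sum_mul_sum, Finset.sum_product]
    simp [il_single, ir_single, single_mul_single]
  have eQ : ∑ p ∈ v.coeff.support ×ˢ v.coeff.support, (f p.1 * f' p.2) •
      (single p (v.coeff p.1 * v.coeff p.2) : A (M × M)) = il Q1 * ir Q1' := by
    rw [hQ1, hQ1', map_sum, map_sum, Finset.sum_mul_sum, Finset.sum_product]
    refine Finset.sum_congr rfl fun a _ => Finset.sum_congr rfl fun b _ => ?_
    simp only [smul_single, smul_eq_mul, il_single, ir_single, single_mul_single, Prod.mk_mul_mk,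
      mul_one, one_mul]
    congr 1
    ring
  rw [eV, eQ] at k
  have pV : Prob (il v * ir v) := by
    rw [← eV]
    refine ⟨NN.sum fun p _ => NN.single p (mul_nonneg (hv.1 _) (hv.1 _)), ?_⟩
    simp only [map_sum, mass_single]
    rw [Finset.sum_product, ← Finset.sum_mul_sum, e1, one_mul]
  have k1 := Dom.bilin sand sand_nn sand_mass k hZ (pV.pow _) hZ0 (by positivity) hκ
  rw [ilir_pow, sand_il, SS_eq, map_sum, LinearMap.sum_apply] at k1
  simp only [ilir_pow, ilir_mul, sand_il] at k1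
  have nQ1 : Nm Q1 (2 * c) := by
    refine ⟨_, abs_fam _ _ f (fun w _ => NN.single w (hv.1 w)) (fun w _ => hf w), ?_⟩
    rw [← eq_sum v, map_smul, hv.2, smul_eq_mul, mul_one]
  have k2 : Nm (∑ k ∈ Finset.range (r ^ 2), (v ^ k * (Q - Q1) * v ^ (r ^ 2 - 1 - k) * Z *
        (v ^ k * Q' * v ^ (r ^ 2 - 1 - k)) + v ^ k * Q1 * v ^ (r ^ 2 - 1 - k) * Z *
        (v ^ k * (Q' - Q1') * v ^ (r ^ 2 - 1 - k))))
      (∑ _k ∈ Finset.range (r ^ 2), (1 * (2 * δ) * 1 * (κ + δ) * (1 * (c' + δ) * 1) +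
        1 * (2 * c) * 1 * (κ + δ) * (1 * δ * 1))) :=
    Nm.sum fun k _ =>
      (((((hv.pow _).nm.mul hn).mul (hv.pow _).nm).mul (hZ.nm hZ0)).mul
        (((hv.pow _).nm.mul (h'.nm hv)).mul (hv.pow _).nm)).add
      (((((hv.pow _).nm.mul nQ1).mul (hv.pow _).nm).mul (hZ.nm hZ0)).mul
        (((hv.pow _).nm.mul hn').mul (hv.pow _).nm))
  have k3 := k1.add (k2.dom _)
  rw [← Finset.sum_add_distrib] at k3
  have e : ∀ k, v ^ k * Q1 * v ^ (r ^ 2 - 1 - k) * Z * (v ^ k * Q1' * v ^ (r ^ 2 - 1 - k)) +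
      (v ^ k * (Q - Q1) * v ^ (r ^ 2 - 1 - k) * Z * (v ^ k * Q' * v ^ (r ^ 2 - 1 - k)) +
        v ^ k * Q1 * v ^ (r ^ 2 - 1 - k) * Z * (v ^ k * (Q' - Q1') * v ^ (r ^ 2 - 1 - k))) =
      v ^ k * Q * v ^ (r ^ 2 - 1 - k) * Z * (v ^ k * Q' * v ^ (r ^ 2 - 1 - k)) := by
    intro k
    simp only [mul_sub, sub_mul]
    abel
  simp only [e] at k3
  refine k3.mono (((hv.pow _).mul hZ0).mul (hv.pow _)).1 (le_of_eq (by ring)) ?_
  simp only [Finset.sum_const, Finset.card_range, nsmul_eq_mul]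
  push_cast
  have hd := h.nonneg
  have r1 : (1 : ℝ) ≤ r := by exact_mod_cast hr
  have cc : c * c' ≤ 1 := mul_le_one₀ c1 hc'.le c1'
  have a1 : 2 * c * c' * B * r * δ ≤ 2 * B * r ^ 2 * δ := by
    have : c * c' * r ≤ r ^ 2 := by nlinarith [mul_pos hc hc']
    nlinarith [mul_le_mul_of_nonneg_left this (show 0 ≤ 2 * B * δ by positivity)]
  have a2 : 2 * (2 * c * c') * r * exp (-(B ^ 2 / 2)) ≤ 4 * r ^ 2 * δ := by
    have : c * c' * r ≤ r ^ 2 := by nlinarith [mul_pos hc hc']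
    nlinarith [mul_le_mul this hδ (exp_pos _).le (by positivity)]
  have a3 : 0 ≤ 2 * (2 * c * c') * r * exp (-(B ^ 2 / 2)) := by positivity
  have a4 : 2 * δ * (κ + δ) * (c' + δ) + 2 * c * (κ + δ) * δ ≤ 12 * δ := by
    have t1 : (κ + δ) * (c' + δ) ≤ 2 * 2 :=
      mul_le_mul (by linarith) (by linarith) (by linarith) (by norm_num)
    have t2 : c * (κ + δ) ≤ 1 * 2 := mul_le_mul c1 (by linarith) (by linarith) (by norm_num)
    nlinarith
  have a5 : 0 ≤ (r : ℝ) ^ 2 * δ := by positivity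
  nlinarith [mul_le_mul_of_nonneg_left a4 (show (0 : ℝ) ≤ r ^ 2 by positivity),
    mul_le_mul_of_nonneg_left κ1 a3, mul_le_mul_of_nonneg_left δ1 a3,
    mul_le_mul_of_nonneg_left hB a5]

end Vale.Agent.P321
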