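import Vale.Agent.P321.Binom
import Vale.Agent.P321.Bessel

/-! A two-replica estimate for sparse periodic defects. -/

namespace Vale.Agent.P321

open Real Finset List

/-- Weight of the surviving sets whose marked positions are defects. -/
noncomputable def HH (p : ℝ) : List Bool → List Bool → ℝ
  | [], [] => 1
  | [], _ :: _ => 0
  | _ :: s, [] => (1 - p) * HH p s []
  | y :: s, τ :: T => (1 - p) * HH p s (τ :: T) + p * (if τ = true ∧ y = false then 0 else HH p s T)

lemma HH_nonneg {p : ℝ} (h0 : 0 ≤ p) (h1 : p ≤ 1) : ∀ s T, 0 ≤ HH p s T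
  | [], [] => zero_le_one
  | [], _ :: _ => le_rfl
  | _ :: s, [] => mul_nonneg (by linarith) (HH_nonneg h0 h1 s [])
  | y :: s, τ :: T => add_nonneg (mul_nonneg (by linarith) (HH_nonneg h0 h1 s _))
      (mul_nonneg h0 (by
        split_ifs
        · exact le_rfl
        · exact HH_nonneg h0 h1 s T))

lemma HH_false (p : ℝ) (s : List Bool) : ∀ x, HH p s (replicate x false) = bn p s.length x := by
  induction s with
  | nil => intro x; cases x <;> simp [HH, bn, replicate_succ]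
  | cons y s ih =>
    intro x
    cases x with
    | zero => simpa [HH, bn_succ_zero] using Or.inl (ih 0)
    | succ x =>
      rw [replicate_succ, HH, length_cons, bn_succ_succ, ← ih, ← ih, replicate_succ]
      simp

lemma HH_none (p : ℝ) (T : List Bool) (n : ℕ) :
    ∀ t, HH p (replicate n false) (replicate t false ++ true :: T) = 0 := by
  induction n with
  | zero => intro t; cases t <;> simp [HH, replicate_succ]
  | succ n ih =>
    intro t
    cases t with
    | zero => simpa [HH, replicate_succ] using Or.inr (ih 0)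
    | succ t =>
      have := ih (t + 1)
      simp only [replicate_succ, cons_append] at this
      simp [HH, replicate_succ, this, ih t]

lemma HH_alpha (p : ℝ) (s T : List Bool) (n : ℕ) : ∀ t,
    HH p (replicate n false ++ true :: s) (replicate t false ++ true :: T) =
      bn p n t * p * HH p s T + HH p (replicate (n + 1) false ++ s)
        (replicate t false ++ true :: T) := by
  induction n with
  | zero =>
    intro t
    cases t with
    | zero => simp [HH, bn]; ring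
    | succ t => simp [HH, bn, replicate_succ]
  | succ n ih =>
    intro t
    cases t with
    | zero =>
      have := ih 0
      simp only [replicate_zero, List.nil_append] at this
      rw [replicate_succ, replicate_succ (n := n + 1), bn_succ_zero]
      simp only [replicate_zero, List.nil_append, cons_append, HH, this]
      simp
      ring
    | succ t =>
      have h1 := ih (t + 1)
      have h2 := ih t
      rw [replicate_succ (n := t), cons_append] at h1
      rw [replicate_succ (n := n), replicate_succ (n := n + 1), bn_succ_succ, replicate_succ (n := t)]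
      simp only [cons_append, HH, h1, h2]
      simp
      ring

lemma HH_scale (p p' : ℝ) : ∀ s T : List Bool,
    HH p s T * (p' ^ T.length * (1 - p') ^ s.length * (1 - p) ^ T.length) =
      HH p' s T * (p ^ T.length * (1 - p) ^ s.length * (1 - p') ^ T.length)
  | [], [] => by simp [HH]
  | [], _ :: _ => by simp [HH]
  | _ :: s, [] => by
    have := HH_scale p p' s []
    simp only [HH, length_cons, pow_succ] at this ⊢
    linear_combination (1 - p) * (1 - p') * this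
  | y :: s, τ :: T => by
    have h1 := HH_scale p p' s (τ :: T)
    have h2 := HH_scale p p' s T
    simp only [HH, length_cons, pow_succ] at h1 ⊢
    split_ifs
    · linear_combination (1 - p) * (1 - p') * h1
    · linear_combination (1 - p) * (1 - p') * h1 + p * p' * (1 - p) * (1 - p') * h2

/-- Strings with periodic defects. -/
def Str (a : ℕ) : ℕ → ℕ → List Bool
  | n, 0 => replicate n false
  | n, r + 1 => replicate (n + a) false ++ true :: Str a a r

lemma Str_pad (a k n r : ℕ) : replicate k false ++ Str a n r = Str a (k + n) r := by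
  cases r with
  | zero => simp [Str]
  | succ r => simp only [Str, add_assoc, replicate_add k, append_assoc]

lemma Str_length (a r : ℕ) : ∀ n, (Str a n r).length = n + (2 * a + 1) * r := by
  induction r with
  | zero => simp [Str]
  | succ r ih => intro n; simp [Str, ih]; ring

lemma HH_Str (p : ℝ) (a t : ℕ) (T : List Bool) (r : ℕ) : ∀ n,
    HH p (Str a n r) (replicate t false ++ true :: T) = ∑ ρ ∈ range r,
      bn p (n + a + (2 * a + 1) * ρ) t * p * HH p (Str a a (r - 1 - ρ)) T := by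
  induction r with
  | zero => intro n; simp [Str, HH_none]
  | succ r ih =>
    intro n
    rw [Str, HH_alpha, Str_pad, ih, Finset.sum_range_succ', add_comm]
    congr 1
    refine Finset.sum_congr rfl fun ρ _ => ?_
    rw [show r + 1 - 1 - (ρ + 1) = r - 1 - ρ by omega]
    congr 3
    ring

/-- The two-replica sum. -/
noncomputable def FF (p β : ℝ) (a n r r' x : ℕ) : ℝ :=
  SumL x fun T => HH p (Str a n r) T * HH p (Str a n r') T * β ^ T.count true

lemma FF_rec (p β : ℝ) (a n r r' x : ℕ) : FF p β a n r r' x =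
    bn p (n + (2 * a + 1) * r) x * bn p (n + (2 * a + 1) * r') x +
      β * p ^ 2 * ∑ t ∈ range x, ∑ ρ ∈ range r, ∑ ρ' ∈ range r',
        bn p (n + a + (2 * a + 1) * ρ) t * bn p (n + a + (2 * a + 1) * ρ') t *
          FF p β a a (r - 1 - ρ) (r' - 1 - ρ') (x - 1 - t) := by
  rw [FF, SumL_first, HH_false, HH_false, Str_length, Str_length, Finset.mul_sum]
  congr 1
  · simp [count_replicate]
  · refine Finset.sum_congr rfl fun t _ => ?_
    simp only [HH_Str, FF, ← SumL_mul, ← SumL_sum]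
    congr 1
    funext T
    rw [Finset.sum_mul_sum, Finset.sum_mul, Finset.mul_sum]
    refine Finset.sum_congr rfl fun ρ _ => ?_
    rw [Finset.sum_mul, Finset.mul_sum]
    refine Finset.sum_congr rfl fun ρ' _ => ?_
    simp only [count_append, count_replicate, count_cons_self, pow_succ]
    simp
    ring

lemma conv_le (φ : ℕ → ℕ → ℝ) (h : ∀ t z, 0 ≤ φ t z) (K : ℕ) :
    ∑ y ∈ range K, ∑ t ∈ range y, φ t (y - 1 - t) ≤ ∑ t ∈ range K, ∑ z ∈ range K, φ t z := by
  have e : ∑ y ∈ range K, ∑ t ∈ range y, φ t (y - 1 - t) =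
      ∑ t ∈ range K, ∑ y ∈ Finset.Ico (t + 1) K, φ t (y - 1 - t) := by
    refine Finset.sum_comm' fun y t => ?_
    simp only [Finset.mem_range, Finset.mem_Ico]
    omega
  rw [e]
  refine Finset.sum_le_sum fun t _ => ?_
  rw [Finset.sum_Ico_eq_sum_range]
  refine le_trans (le_of_eq (Finset.sum_congr rfl fun z _ => ?_))
    (Finset.sum_le_sum_of_subset_of_nonneg (Finset.range_subset_range.2 (Nat.sub_le K (t + 1)))
      fun _ _ _ => h _ _)
  congr 1
  omega

lemma sum_inv_sqrt (R : ℕ) : ∑ ρ ∈ range R, 1 / √(ρ + 1 : ℝ) ≤ 2 * √R := by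
  induction R with
  | zero => simp
  | succ R ih =>
    rw [Finset.sum_range_succ]
    have s1 : √(R : ℝ) ^ 2 = R := sq_sqrt (by positivity)
    have s2 : √(R + 1 : ℝ) ^ 2 = R + 1 := sq_sqrt (by positivity)
    have p2 : 0 < √(R + 1 : ℝ) := sqrt_pos.2 (by positivity)
    have : 1 / √(R + 1 : ℝ) ≤ 2 * √(R + 1 : ℝ) - 2 * √R := by
      rw [div_le_iff₀ p2]
      nlinarith [sq_nonneg (√(R + 1 : ℝ) - √R)]
    push_cast
    linarith

lemma sum_inv_sq (R : ℕ) : ∑ j ∈ range R, 1 / (j + 1 : ℝ) ^ 2 ≤ 2 - 1 / (R + 1 : ℝ) * 2 := by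
  induction R with
  | zero => simp
  | succ R ih =>
    rw [Finset.sum_range_succ]
    have : 1 / (R + 1 : ℝ) ^ 2 ≤ 1 / (R + 1 : ℝ) * 2 - 1 / (R + 1 + 1 : ℝ) * 2 := by
      rw [div_mul_eq_mul_div, div_mul_eq_mul_div, div_sub_div _ _ (by positivity) (by positivity),
        div_le_div_iff₀ (by positivity) (by positivity)]
      nlinarith [Nat.cast_nonneg (α := ℝ) R]
    push_cast
    linarith

variable {p p0 : ℝ}

lemma lam_le (hp : 0 < p0) (h0 : p0 ≤ p) (h1 : p ≤ 1 - p0) {a a' R : ℕ} (ha : 0 < a)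
    (h2 : a ≤ a') (h3 : a' ≤ 2 * a) (hR : R + 1 ≤ 2 * a + 1) (K : ℕ) :
    ∑ ρ ∈ range R, ∑ ρ' ∈ range R, ∑ t ∈ range K,
      bn p (a' + (2 * a + 1) * ρ) t * bn p (a' + (2 * a + 1) * ρ') t ≤
        34 / p0 ^ 3 * (√R / √a) := by
  have a0 : 0 ≤ p := by linarith
  have a1 : p ≤ 1 := by linarith
  have p1 : p0 ≤ 1 := by linarith
  let c : ℕ → ℕ → ℝ := fun ρ ρ' => ∑ t ∈ range K,
    bn p (a' + (2 * a + 1) * ρ) t * bn p (a' + (2 * a + 1) * ρ') t
  let S : ℕ → ℝ := fun ρ => 1 / (p0 * √a) * (1 / √(ρ + 1 : ℝ))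
  have apos : (0 : ℝ) < a := by exact_mod_cast ha
  have hS : ∀ ρ : ℕ, 1 / (p0 * √((a' + (2 * a + 1) * ρ : ℕ) + 1)) ≤ S ρ := by
    intro ρ
    simp only [S]
    rw [div_mul_div_comm, one_mul, mul_assoc, ← sqrt_mul apos.le]
    refine one_div_le_one_div_of_le (by positivity) ?_
    have : (a : ℝ) ≤ a' := by exact_mod_cast h2
    gcongr
    push_cast
    nlinarith [Nat.cast_nonneg (α := ℝ) ρ]
  have S0 : ∀ ρ, 0 ≤ S ρ := fun ρ => by positivity
  have off : ∀ ρ j, ρ + j + 1 < R → c ρ (ρ + j + 1) ≤ S ρ * (4 / p0 ^ 2) * (1 / (j + 1 : ℝ) ^ 2) := by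
    intro ρ j hj
    have := col_off hp h0 h1 (a' + (2 * a + 1) * ρ) ((2 * a + 1) * (j + 1)) (by positivity)
      (range K)
    rw [show a' + (2 * a + 1) * ρ + (2 * a + 1) * (j + 1) = a' + (2 * a + 1) * (ρ + j + 1) by ring]
      at this
    refine this.trans ?_
    rw [mul_assoc]
    refine mul_le_mul (hS ρ) ?_ (by positivity) (S0 ρ)
    rw [div_mul_div_comm, div_le_div_iff₀ (by positivity) (by positivity)]
    have : a' + (2 * a + 1) * ρ + (2 * a + 1) * (j + 1) ≤ (2 * a + 1) ^ 2 := by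
      have : (2 * a + 1) * (ρ + j + 1 + 1) ≤ (2 * a + 1) * (2 * a + 1) :=
        Nat.mul_le_mul_left _ (by omega)
      nlinarith
    have : ((a' + (2 * a + 1) * ρ : ℕ) : ℝ) + ((2 * a + 1) * (j + 1) : ℕ) ≤ (2 * a + 1) ^ 2 := by
      exact_mod_cast this
    have := mul_le_mul_of_nonneg_right this (show 0 ≤ p0 ^ 2 * (j + 1 : ℝ) ^ 2 by positivity)
    push_cast at this ⊢
    nlinarith
  have up : ∀ ρ, ∑ ρ' ∈ range R, (if ρ < ρ' then c ρ ρ' else 0) ≤ S ρ * (8 / p0 ^ 2) := by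
    intro ρ
    rw [← Finset.sum_filter]
    have e : Finset.filter (fun ρ' => ρ < ρ') (range R) = Finset.Ico (ρ + 1) R := by
      ext x; simp; omega
    rw [e, Finset.sum_Ico_eq_sum_range]
    refine (Finset.sum_le_sum fun j hj => (le_of_eq (by rw [add_right_comm])).trans
      (off ρ j (by have := Finset.mem_range.1 hj; omega))).trans ?_
    rw [← Finset.mul_sum]
    have := sum_inv_sq (R - (ρ + 1))
    have k : 0 ≤ 1 / ((R - (ρ + 1) : ℕ) + 1 : ℝ) * 2 := by positivity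
    have k2 : 0 ≤ S ρ * (4 / p0 ^ 2) := by have := S0 ρ; positivity
    calc _ ≤ S ρ * (4 / p0 ^ 2) * 2 := mul_le_mul_of_nonneg_left (by linarith) k2
      _ = _ := by ring
  have split : ∀ ρ ρ', c ρ ρ' = (if ρ' = ρ then c ρ ρ else 0) + (if ρ < ρ' then c ρ ρ' else 0) +
      (if ρ' < ρ then c ρ' ρ else 0) := by
    intro ρ ρ'
    rcases lt_trichotomy ρ ρ' with h | h | h
    · simp [h, h.ne', h.le]
    · simp [h]
    · simp [h, h.ne, h.le, c, mul_comm]
  have tot : ∑ ρ ∈ range R, ∑ ρ' ∈ range R, c ρ ρ' ≤ ∑ ρ ∈ range R, S ρ * (17 / p0 ^ 2) := by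
    rw [Finset.sum_congr rfl fun ρ _ => Finset.sum_congr rfl fun ρ' _ => split ρ ρ']
    simp only [Finset.sum_add_distrib]
    rw [Finset.sum_comm (f := fun ρ ρ' => if ρ' < ρ then c ρ' ρ else 0), ← Finset.sum_add_distrib,
      ← Finset.sum_add_distrib]
    refine Finset.sum_le_sum fun ρ hρ => ?_
    rw [Finset.sum_ite_eq', if_pos hρ]
    have d := (col_diag hp h0 h1 (a' + (2 * a + 1) * ρ) (range K)).trans (hS ρ)
    have : S ρ * 1 ≤ S ρ * (1 / p0 ^ 2) := mul_le_mul_of_nonneg_left (by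
      rw [le_div_iff₀ (by positivity)]; nlinarith) (S0 ρ)
    have e : S ρ * (17 / p0 ^ 2) = S ρ * (1 / p0 ^ 2) + 2 * (S ρ * (8 / p0 ^ 2)) := by ring
    linarith [up ρ]
  refine tot.trans ?_
  rw [← Finset.sum_mul, ← Finset.mul_sum]
  have := sum_inv_sqrt R
  calc _ ≤ 1 / (p0 * √a) * (2 * √R) * (17 / p0 ^ 2) := by gcongr
    _ = _ := by field_simp; ring

lemma FF_nonneg (h0 : 0 ≤ p) (h1 : p ≤ 1) {β : ℝ} (hβ : 0 ≤ β) (a n r r' x : ℕ) :
    0 ≤ FF p β a n r r' x := SumL_nonneg _ _ fun T =>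
  mul_nonneg (mul_nonneg (HH_nonneg h0 h1 _ _) (HH_nonneg h0 h1 _ _)) (pow_nonneg hβ _)

lemma G_le (hp : 0 < p0) (h0 : p0 ≤ p) (h1 : p ≤ 1 - p0) {a R : ℕ} (ha : 0 < a)
    (hR : R + 1 ≤ 2 * a + 1) {β l : ℝ} (hβ : 0 ≤ β) (hl : 34 / p0 ^ 3 * (√R / √a) ≤ l)
    (hbl : 8 * β * l ≤ 1) (K : ℕ) :
    ∑ r ∈ range R, ∑ r' ∈ range R, ∑ y ∈ range K, FF p β a a r r' y ≤ 2 * l := by
  have a0 : 0 ≤ p := by linarith
  have a1 : p ≤ 1 := by linarith
  let Z : ℕ → ℕ → ℝ := fun r r' => ∑ y ∈ range K, FF p β a a r r' y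
  let U : ℕ → ℕ → ℝ := fun ρ ρ' => ∑ t ∈ range K,
    bn p (a + a + (2 * a + 1) * ρ) t * bn p (a + a + (2 * a + 1) * ρ') t
  have b0 := bn_nonneg a0 a1
  have F0 := FF_nonneg a0 a1 hβ a a
  have Z0 : ∀ r r', 0 ≤ Z r r' := fun r r' => Finset.sum_nonneg fun _ _ => F0 _ _ _
  have U0 : ∀ r r', 0 ≤ U r r' := fun r r' => Finset.sum_nonneg fun _ _ =>
    mul_nonneg (b0 _ _) (b0 _ _)
  have s1 : ∀ r r', Z r r' ≤ ∑ y ∈ range K, bn p (a + (2 * a + 1) * r) y *
      bn p (a + (2 * a + 1) * r') y + β * ∑ ρ ∈ range r, ∑ ρ' ∈ range r',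
        U ρ ρ' * Z (r - 1 - ρ) (r' - 1 - ρ') := by
    intro r r'
    simp only [Z]
    rw [Finset.sum_congr rfl fun y _ => FF_rec p β a a r r' y, Finset.sum_add_distrib,
      ← Finset.mul_sum, mul_assoc]
    refine add_le_add le_rfl (mul_le_mul_of_nonneg_left ?_ hβ)
    have c := conv_le (fun t z => ∑ ρ ∈ range r, ∑ ρ' ∈ range r',
      bn p (a + a + (2 * a + 1) * ρ) t * bn p (a + a + (2 * a + 1) * ρ') t *
        FF p β a a (r - 1 - ρ) (r' - 1 - ρ') z) (fun t z => Finset.sum_nonneg fun _ _ =>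
          Finset.sum_nonneg fun _ _ => mul_nonneg (mul_nonneg (b0 _ _) (b0 _ _)) (F0 _ _ _)) K
    refine (mul_le_of_le_one_left (Finset.sum_nonneg fun _ _ => Finset.sum_nonneg fun _ _ =>
      Finset.sum_nonneg fun _ _ => Finset.sum_nonneg fun _ _ =>
        mul_nonneg (mul_nonneg (b0 _ _) (b0 _ _)) (F0 _ _ _)) (by nlinarith)).trans
      (c.trans (le_of_eq ?_))
    simp only [U, Finset.sum_mul_sum]
    rw [Finset.sum_congr rfl fun t _ => Finset.sum_comm, Finset.sum_comm]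
    refine Finset.sum_congr rfl fun ρ _ => ?_
    rw [Finset.sum_congr rfl fun t _ => Finset.sum_comm, Finset.sum_comm]
  have s2 : ∑ r ∈ range R, ∑ r' ∈ range R, ∑ ρ ∈ range r, ∑ ρ' ∈ range r',
      U ρ ρ' * Z (r - 1 - ρ) (r' - 1 - ρ') ≤
      (∑ ρ ∈ range R, ∑ ρ' ∈ range R, U ρ ρ') * ∑ r ∈ range R, ∑ r' ∈ range R, Z r r' := by
    rw [Finset.sum_congr rfl fun r _ => Finset.sum_comm]
    refine (Finset.sum_le_sum fun r _ => Finset.sum_le_sum fun ρ _ =>
      conv_le (fun ρ' z => U ρ ρ' * Z (r - 1 - ρ) z) (fun _ _ => mul_nonneg (U0 _ _) (Z0 _ _))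
        R).trans ?_
    refine (conv_le (fun ρ z => ∑ ρ' ∈ range R, ∑ z' ∈ range R, U ρ ρ' * Z z z')
      (fun _ _ => Finset.sum_nonneg fun _ _ => Finset.sum_nonneg fun _ _ =>
        mul_nonneg (U0 _ _) (Z0 _ _)) R).trans (le_of_eq ?_)
    simp only [Finset.sum_mul_sum]
  have l1 := (lam_le hp h0 h1 ha le_rfl (by omega) hR K).trans hl
  have l2 := (lam_le hp h0 h1 ha (a' := a + a) (by omega) (by omega) hR K).trans hl
  have tot := Finset.sum_le_sum (s := range R) fun r _ =>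
    Finset.sum_le_sum (s := range R) fun r' _ => s1 r r'
  simp only [Finset.sum_add_distrib, ← Finset.mul_sum] at tot
  have G0 : 0 ≤ ∑ r ∈ range R, ∑ r' ∈ range R, Z r r' :=
    Finset.sum_nonneg fun _ _ => Finset.sum_nonneg fun _ _ => Z0 _ _
  have l0 : 0 ≤ l := le_trans (by positivity) hl
  change ∑ r ∈ range R, ∑ r' ∈ range R, Z r r' ≤ 2 * l
  nlinarith [mul_le_mul_of_nonneg_left (s2.trans (mul_le_mul_of_nonneg_right l2 G0)) hβ,
    mul_le_mul_of_nonneg_right hbl G0]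

lemma excess_step (hp : 0 < p0) (h0 : p0 ≤ p) (h1 : p ≤ 1 - p0) {a R : ℕ} (ha : 0 < a)
    (hR : R + 1 ≤ 2 * a + 1) {β l : ℝ} (hβ : 0 ≤ β) (hl : 34 / p0 ^ 3 * (√R / √a) ≤ l)
    (hbl : 8 * β * l ≤ 1) {x : ℕ}
    (ih : ∀ z < x, ∀ r < R, ∀ r' < R, FF p β a a r r' z ≤ 2 / (p0 ^ 2 * (z + 1)))
    {n r r' : ℕ} (hn : n ≤ a) (hr : r ≤ R) (hr' : r' ≤ R) :
    FF p β a n r r' x - bn p (n + (2 * a + 1) * r) x * bn p (n + (2 * a + 1) * r') x ≤
      8 * β * l / (p0 ^ 2 * (x + 1)) := by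
  have a0 : 0 ≤ p := by linarith
  have a1 : p ≤ 1 := by linarith
  have b0 := bn_nonneg a0 a1
  have F0 := FF_nonneg a0 a1 hβ a a
  set c := 2 / (p0 ^ 2 * (x + 1)) with hc
  have c0 : 0 ≤ c := by positivity
  rw [FF_rec, add_sub_cancel_left]
  have k : ∑ t ∈ range x, ∑ ρ ∈ range r, ∑ ρ' ∈ range r',
        bn p (n + a + (2 * a + 1) * ρ) t * bn p (n + a + (2 * a + 1) * ρ') t *
          FF p β a a (r - 1 - ρ) (r' - 1 - ρ') (x - 1 - t) ≤
      ∑ t ∈ range x, ∑ ρ ∈ range r, ∑ ρ' ∈ range r',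
        (2 * c * (bn p (n + a + (2 * a + 1) * ρ) t * bn p (n + a + (2 * a + 1) * ρ') t) +
          c * FF p β a a (r - 1 - ρ) (r' - 1 - ρ') (x - 1 - t)) := by
    refine Finset.sum_le_sum fun t ht => Finset.sum_le_sum fun ρ hρ =>
      Finset.sum_le_sum fun ρ' hρ' => ?_
    rw [Finset.mem_range] at ht hρ hρ'
    have q1 := mul_nonneg (b0 (n + a + (2 * a + 1) * ρ) t) (b0 (n + a + (2 * a + 1) * ρ') t)
    have q2 := F0 (r - 1 - ρ) (r' - 1 - ρ') (x - 1 - t)
    by_cases h : 2 * t + 1 ≤ x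
    · have : FF p β a a (r - 1 - ρ) (r' - 1 - ρ') (x - 1 - t) ≤ 2 * c := by
        refine (ih _ (by omega) _ (by omega) _ (by omega)).trans ?_
        rw [hc, mul_div_assoc', div_le_div_iff₀ (by positivity) (by positivity)]
        have : (x : ℝ) + 1 ≤ 2 * ((x - 1 - t : ℕ) + 1) := by
          exact_mod_cast (by omega : x + 1 ≤ 2 * (x - 1 - t + 1))
        nlinarith [mul_le_mul_of_nonneg_left this (sq_nonneg p0)]
      nlinarith [mul_le_mul_of_nonneg_left this q1, mul_nonneg c0 q2]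
    · have : bn p (n + a + (2 * a + 1) * ρ) t * bn p (n + a + (2 * a + 1) * ρ') t ≤ c := by
        refine (bn_mul_le hp h0 h1 _ _ _).trans ?_
        rw [hc, div_le_div_iff₀ (by positivity) (by positivity)]
        have : (x : ℝ) + 1 ≤ 2 * (t + 1) := by exact_mod_cast (by omega : x + 1 ≤ 2 * (t + 1))
        nlinarith [mul_le_mul_of_nonneg_left this (sq_nonneg p0)]
      nlinarith [mul_le_mul_of_nonneg_right this q2, mul_nonneg c0 q1]
  simp only [Finset.sum_add_distrib, ← Finset.mul_sum] at k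
  have k1 : ∑ t ∈ range x, ∑ ρ ∈ range r, ∑ ρ' ∈ range r',
      bn p (n + a + (2 * a + 1) * ρ) t * bn p (n + a + (2 * a + 1) * ρ') t ≤ l := by
    refine le_trans ?_ ((lam_le hp h0 h1 ha (a' := n + a) (by omega) (by omega) hR x).trans hl)
    rw [Finset.sum_comm]
    refine le_trans (Finset.sum_le_sum fun ρ _ => ?_) (Finset.sum_le_sum_of_subset_of_nonneg
      (Finset.range_subset_range.2 hr) fun _ _ _ => Finset.sum_nonneg fun _ _ =>
        Finset.sum_nonneg fun _ _ => mul_nonneg (b0 _ _) (b0 _ _))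
    rw [Finset.sum_comm]
    exact Finset.sum_le_sum_of_subset_of_nonneg (Finset.range_subset_range.2 hr') fun _ _ _ =>
      Finset.sum_nonneg fun _ _ => mul_nonneg (b0 _ _) (b0 _ _)
  have k2 : ∑ t ∈ range x, ∑ ρ ∈ range r, ∑ ρ' ∈ range r',
      FF p β a a (r - 1 - ρ) (r' - 1 - ρ') (x - 1 - t) ≤ 2 * l := by
    refine le_trans ?_ (G_le hp h0 h1 ha hR hβ hl hbl x)
    rw [Finset.sum_comm, Finset.sum_range_reflect (fun j => ∑ t ∈ range x, ∑ ρ' ∈ range r',
      FF p β a a j (r' - 1 - ρ') (x - 1 - t)) r]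
    refine le_trans (Finset.sum_le_sum fun ρ _ => ?_) (Finset.sum_le_sum_of_subset_of_nonneg
      (Finset.range_subset_range.2 hr) fun _ _ _ => Finset.sum_nonneg fun _ _ =>
        Finset.sum_nonneg fun _ _ => F0 _ _ _)
    rw [Finset.sum_comm, Finset.sum_range_reflect (fun j => ∑ t ∈ range x,
      FF p β a a ρ j (x - 1 - t)) r']
    refine le_trans (Finset.sum_le_sum fun ρ' _ => le_of_eq ?_)
      (Finset.sum_le_sum_of_subset_of_nonneg (Finset.range_subset_range.2 hr') fun _ _ _ =>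
        Finset.sum_nonneg fun _ _ => F0 _ _ _)
    exact Finset.sum_range_reflect (fun j => FF p β a a ρ ρ' j) x
  simp only [← Finset.mul_sum] at k1
  have k3 := k.trans (add_le_add (mul_le_mul_of_nonneg_left k1 (by positivity))
    (mul_le_mul_of_nonneg_left k2 c0))
  have l0 : 0 ≤ l := le_trans (by positivity) hl
  have p2 : β * p ^ 2 ≤ β := mul_le_of_le_one_right hβ (by nlinarith)
  refine (mul_le_mul p2 k3 (Finset.sum_nonneg fun _ _ => Finset.sum_nonneg fun _ _ =>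
    Finset.sum_nonneg fun _ _ => mul_nonneg (mul_nonneg (b0 _ _) (b0 _ _)) (F0 _ _ _)) hβ).trans
    (le_of_eq ?_)
  rw [hc]
  ring

theorem excess (hp : 0 < p0) (h0 : p0 ≤ p) (h1 : p ≤ 1 - p0) {a R : ℕ} (ha : 0 < a)
    (hR : R + 1 ≤ 2 * a + 1) {β l : ℝ} (hβ : 0 ≤ β) (hl : 34 / p0 ^ 3 * (√R / √a) ≤ l)
    (hbl : 8 * β * l ≤ 1) {r : ℕ} (hr : r ≤ R) (x : ℕ) :
    FF p β a 0 r r x - bn p ((2 * a + 1) * r) x ^ 2 ≤ 8 * β * l / (p0 ^ 2 * (x + 1)) := by
  have key : ∀ z, ∀ r < R, ∀ r' < R, FF p β a a r r' z ≤ 2 / (p0 ^ 2 * (z + 1)) := by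
    intro z
    induction z using Nat.strong_induction_on with
    | _ z ih =>
      intro r hr r' hr'
      have e1 := excess_step hp h0 h1 ha hR hβ hl hbl ih le_rfl hr.le hr'.le
      have e2 := bn_mul_le hp h0 h1 (a + (2 * a + 1) * r) (a + (2 * a + 1) * r') z
      have e3 : 8 * β * l / (p0 ^ 2 * (z + 1)) ≤ 1 / (p0 ^ 2 * (z + 1)) := by gcongr
      have e4 : 2 / (p0 ^ 2 * (z + 1)) = 1 / (p0 ^ 2 * (z + 1)) + 1 / (p0 ^ 2 * (z + 1)) := by ring
      linarith
  simpa [sq] using excess_step hp h0 h1 ha hR hβ hl hbl (fun z _ => key z) (Nat.zero_le a) hr hr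

end Vale.Agent.P321
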