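import Vale.Agent.P321.Alg

/-! Amplification of an overlap between two consecutive powers. -/

namespace Vale.Agent.P321

open MonoidAlgebra Real

variable {M : Type*} [Monoid M]

/-- Mixtures over patterns of hidden, short and long blocks. -/
noncomputable def Ex (ω R0 R1 : A M) : ℕ → (ℕ → ℕ → ℝ) → A M
  | 0, φ => φ 0 0 • 1
  | n + 1, φ => ω * Ex ω R0 R1 n (fun h v => φ (h + 1) v) + R0 * Ex ω R0 R1 n φ +
      R1 * Ex ω R0 R1 n (fun h v => φ h (v + 1))

lemma Ex_lin (ω R0 R1 : A M) (n : ℕ) (a b : ℝ) : ∀ φ ψ : ℕ → ℕ → ℝ,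
    Ex ω R0 R1 n (fun h v => a * φ h v + b * ψ h v) =
      a • Ex ω R0 R1 n φ + b • Ex ω R0 R1 n ψ := by
  induction n with
  | zero => intro φ ψ; simp only [Ex]; module
  | succ n ih =>
    intro φ ψ
    simp only [Ex]
    rw [ih φ ψ, ih (fun h v => φ (h + 1) v) (fun h v => ψ (h + 1) v),
      ih (fun h v => φ h (v + 1)) (fun h v => ψ h (v + 1))]
    simp only [mul_add, mul_smul_comm]
    module

lemma Ex_nn {ω R0 R1 : A M} (h : NN ω) (h0 : NN R0) (h1 : NN R1) (n : ℕ) :
    ∀ φ : ℕ → ℕ → ℝ, (∀ h v, 0 ≤ φ h v) → NN (Ex ω R0 R1 n φ) := by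
  induction n with
  | zero => intro φ hφ; exact NN.one.smul (hφ 0 0)
  | succ n ih =>
    intro φ hφ
    exact ((h.mul (ih _ fun _ _ => hφ _ _)).add (h0.mul (ih _ hφ))).add
      (h1.mul (ih _ fun _ _ => hφ _ _))

lemma Ex_mass (ω R0 R1 : A M) (x : ℝ) (n : ℕ) : ∀ c : ℝ,
    mass (Ex ω R0 R1 n fun h _ => c * x ^ h) = c * (mass ω * x + mass R0 + mass R1) ^ n := by
  induction n with
  | zero => intro c; simp [Ex]
  | succ n ih =>
    intro c
    have e : (fun h (_ : ℕ) => c * x ^ (h + 1)) = fun h _ => (c * x) * x ^ h := by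
      funext h _; ring
    simp only [Ex, map_add, map_mul, e, ih]
    ring

/-- Number of ways to complete a pattern. -/
def cc (j h v : ℕ) : ℝ := if v ≤ j then (h.choose (j - v) : ℝ) else 0

lemma Ex_cc {u ω : A M} (a : ℕ) (n : ℕ) : ∀ j,
    Ex ω (u ^ a - ω) (u ^ (a + 1) - ω) n (cc j) = (n.choose j : ℝ) • u ^ (n * a + j) := by
  induction n with
  | zero =>
    intro j
    cases j <;> simp [Ex, cc]
  | succ n ih =>
    intro j
    cases j with
    | zero =>
      have e1 : (fun h v => cc 0 (h + 1) v) = cc 0 := by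
        funext h v; simp [cc]
      have e2 : (fun h v => cc 0 h (v + 1)) = fun h v => 0 * cc 0 h v + 0 * cc 0 h v := by
        funext h v; simp [cc]
      simp only [Ex, e1, e2, Ex_lin, ih]
      simp only [Nat.choose_zero_right, Nat.cast_one, one_smul, zero_smul, add_zero, mul_zero]
      rw [← add_mul, add_sub_cancel, ← pow_add]
      congr 1
      ring
    | succ j =>
      have e1 : (fun h v => cc (j + 1) (h + 1) v) =
          fun h v => 1 * cc (j + 1) h v + 1 * cc j h v := by
        funext h v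
        simp only [cc]
        by_cases h1 : v ≤ j
        · rw [if_pos h1, if_pos (by omega), if_pos (by omega), show j + 1 - v = j - v + 1 by omega,
            Nat.choose_succ_succ']
          push_cast
          ring
        · by_cases h2 : v = j + 1
          · simp [h2]
          · rw [if_neg h1, if_neg (by omega), if_neg (by omega)]
            simp
      have e2 : (fun h v => cc (j + 1) h (v + 1)) = cc j := by
        funext h v; simp [cc]
      simp only [Ex, e1, e2, Ex_lin, ih]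
      rw [Nat.choose_succ_succ']
      have p1 : u ^ ((n + 1) * a + (j + 1)) = u ^ a * u ^ (n * a + (j + 1)) := by
        rw [← pow_add]; congr 1; ring
      have p2 : u ^ ((n + 1) * a + (j + 1)) = u ^ (a + 1) * u ^ (n * a + j) := by
        rw [← pow_add]; congr 1; ring
      push_cast
      rw [add_smul]
      nth_rewrite 1 [p2]
      rw [p1]
      simp only [mul_add, sub_mul, mul_smul_comm, one_smul]
      module

lemma choose_le_cosh (l : ℝ) (h i : ℕ) :
    (h.choose i : ℝ) * exp (l * (2 * i - h)) ≤ (2 * cosh l) ^ h := by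
  by_cases hi : i ≤ h
  · rw [cosh_eq, mul_div_cancel₀ _ two_ne_zero, add_pow]
    refine le_trans (le_of_eq ?_) (Finset.single_le_sum
      (f := fun m => exp l ^ m * exp (-l) ^ (h - m) * (h.choose m : ℝ))
      (fun m _ => by positivity) (Finset.mem_range.2 (Nat.lt_succ_of_le hi)))
    rw [← exp_nat_mul, ← exp_nat_mul, ← exp_add, mul_comm, Nat.cast_sub hi]
    congr 2
    ring
  · rw [Nat.choose_eq_zero_of_lt (by omega)]
    simp only [Nat.cast_zero, zero_mul]
    exact pow_nonneg (by linarith [cosh_pos l]) h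

lemma choose_tail {l t : ℝ} (hl : 0 ≤ l) (h i : ℕ) (ht : t ≤ |(2 * i - h : ℝ)|) :
    (h.choose i : ℝ) ≤ exp (-(l * t)) * (2 * cosh l) ^ h := by
  have key : ∀ l' : ℝ, cosh l' = cosh l → l * t ≤ l' * (2 * i - h) →
      (h.choose i : ℝ) ≤ exp (-(l * t)) * (2 * cosh l) ^ h := by
    intro l' e1 e2
    have := choose_le_cosh l' h i
    rw [e1] at this
    rw [exp_neg, inv_mul_eq_div, le_div_iff₀ (exp_pos _)]
    exact (mul_le_mul_of_nonneg_left (exp_le_exp.2 e2) (Nat.cast_nonneg _)).trans this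
  rcases le_abs.1 ht with k | k
  · exact key l rfl (mul_le_mul_of_nonneg_left k hl)
  · exact key (-l) (cosh_neg l) (by nlinarith)

lemma choose_le_two_pow' (h i : ℕ) : (h.choose i : ℝ) ≤ 2 ^ h := by
  simpa using choose_le_cosh 0 h i

lemma cc_diff {l t h0 ρ : ℝ} (hl : 0 ≤ l) (ht : 0 ≤ t) (hρ : 0 ≤ ρ)
    (hc : (t + 3) * 2 ≤ ρ * (h0 - (t + 2))) (j h v : ℕ) :
    |cc (j + 1) h v - cc j h v| ≤ ρ * cc (j + 1) h v +
      (exp h0 * (2 / exp 1) ^ h + exp (-(l * t)) * (2 * cosh l) ^ h) := by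
  have p1 : 0 ≤ exp h0 * (2 / exp 1) ^ h := by positivity
  have p2 : 0 ≤ exp (-(l * t)) * (2 * cosh l) ^ h :=
    mul_nonneg (exp_pos _).le (pow_nonneg (by linarith [cosh_pos l]) h)
  have p3 : ∀ j, 0 ≤ cc j h v := fun j => by unfold cc; split_ifs <;> positivity
  have p4 := mul_nonneg hρ (p3 (j + 1))
  have bound : ∀ x, cc (j + 1) h v ≤ x → cc j h v ≤ x → |cc (j + 1) h v - cc j h v| ≤ x :=
    fun x a b => abs_le.2 ⟨by linarith [p3 (j + 1)], by linarith [p3 j]⟩
  by_cases k0 : j + 1 < v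
  · have : cc (j + 1) h v = 0 := if_neg (by omega)
    have : cc j h v = 0 := if_neg (by omega)
    simp only [*, sub_zero, abs_zero, mul_zero, zero_add]
    linarith
  by_cases k1 : (h : ℝ) ≤ h0
  · have e : (2 : ℝ) ^ h ≤ exp h0 * (2 / exp 1) ^ h := by
      rw [div_pow, ← exp_nat_mul, mul_one, mul_div_assoc', le_div_iff₀ (exp_pos _), mul_comm]
      exact mul_le_mul_of_nonneg_right (exp_le_exp.2 k1) (by positivity)
    have q : ∀ j, cc j h v ≤ 2 ^ h := fun j => by
      unfold cc
      split_ifs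
      · exact choose_le_two_pow' _ _
      · positivity
    linarith [bound _ (q _) (q _)]
  obtain ⟨i, hi⟩ : ∃ i, j + 1 = v + i := ⟨j + 1 - v, by omega⟩
  have c1 : cc (j + 1) h v = h.choose i := by
    rw [cc, if_pos (by omega), show j + 1 - v = i by omega]
  by_cases k2 : t + 2 ≤ |(2 * i - h : ℝ)|
  · have a1 : cc (j + 1) h v ≤ exp (-(l * t)) * (2 * cosh l) ^ h := by
      rw [c1]
      exact choose_tail hl h i (by linarith)
    have a2 : cc j h v ≤ exp (-(l * t)) * (2 * cosh l) ^ h := by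
      unfold cc
      split_ifs with k3
      · refine choose_tail hl h _ ?_
        have : (i : ℝ) = (j - v : ℕ) + 1 := by exact_mod_cast (by omega : i = j - v + 1)
        rw [this] at k2
        have := abs_add_le (2 * ((j - v : ℕ) : ℝ) - h) 2
        rw [abs_two, show 2 * ((j - v : ℕ) : ℝ) - h + 2 = 2 * ((j - v : ℕ) + 1) - h by ring] at this
        linarith
      · exact p2
    linarith [bound _ a1 a2]
  push Not at k1 k2
  have k3 := abs_lt.1 k2
  have hpos : 0 < h0 - (t + 2) := by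
    by_contra hn
    push Not at hn
    nlinarith
  cases i with
  | zero => simp at k3; linarith [k3.1]
  | succ i =>
    have c2 : cc j h v = h.choose i := by
      rw [cc, if_pos (by omega), show j - v = i by omega]
    have hih : i < h := by
      have : (i : ℝ) < h := by push_cast at k3; linarith [k3.2]
      exact_mod_cast this
    have r : (h.choose (i + 1) : ℝ) * (i + 1) = h.choose i * (h - i) := by
      have := Nat.choose_succ_right_eq h i
      rw [← Nat.cast_sub hih.le]
      exact_mod_cast this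
    have hi' : (0 : ℝ) < h - i := by
      have : (i : ℝ) < h := by exact_mod_cast hih
      linarith
    have e : |(h.choose (i + 1) : ℝ) - h.choose i| ≤ ρ * h.choose (i + 1) := by
      have e1 : ((h.choose (i + 1) : ℝ) - h.choose i) * (h - i) =
          h.choose (i + 1) * (h - 2 * i - 1) := by linear_combination r
      have e2 : |(h : ℝ) - 2 * i - 1| ≤ ρ * (h - i) := by
        push_cast at k3
        have : h0 - (t + 2) ≤ 2 * (h - i) := by linarith [k3.2]
        have := mul_le_mul_of_nonneg_left this hρ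
        rw [abs_le]
        constructor <;> linarith [k3.1, k3.2]
      refine le_of_mul_le_mul_right ?_ hi'
      rw [← abs_of_pos hi', ← abs_mul, e1, abs_mul, abs_of_pos hi', Nat.abs_cast]
      nlinarith [mul_le_mul_of_nonneg_left e2 (Nat.cast_nonneg (α := ℝ) (h.choose (i + 1)))]
    rw [c1, c2]
    linarith

set_option maxHeartbeats 1000000 in
theorem slip {u : A M} (hu : Prob u) {a : ℕ} {B ρ δ : ℝ} (hB : 1 ≤ B)
    (ho : Ov (u ^ a) (u ^ (a + 1)) (1 / B)) (hρ : 0 < ρ) (ρ1 : ρ ≤ 1) {r : ℕ}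
    (hr : 40 * B ^ 2 ≤ ρ * r) (hδ : exp (-(B ^ 2 / 2)) ≤ δ) {N : ℕ}
    (hN : (2 * r ^ 2 + 1) * a + r ^ 2 ≤ N) :
    Dom (u ^ (N + 1) - u ^ N) ρ (u ^ (N + 1)) ((4 * r ^ 2 + 4) * δ) := by
  obtain ⟨ω, o1, o2, o3, o4⟩ := ho
  set n := 2 * r ^ 2 + 1 with hn
  have r0 : (0 : ℝ) ≤ r := Nat.cast_nonneg r
  have r1 : 40 * B ^ 2 ≤ r := by nlinarith
  have rpos : (0 : ℝ) < r := by nlinarith
  have nr : (n : ℝ) = 2 * r ^ 2 + 1 := by rw [hn]; push_cast; ring
  have hc : (2 * B * r + 3) * 2 ≤ ρ * (n / (4 * B) - (2 * B * r + 2)) := by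
    have a1 : 20 * B * r ≤ ρ * (n / (4 * B)) := by
      rw [mul_div_assoc', le_div_iff₀ (by linarith), nr]
      nlinarith [mul_le_mul_of_nonneg_right hr r0]
    have a2 : 1 ≤ B * r := by nlinarith
    nlinarith [mul_le_mul_of_nonneg_right ρ1 (show 0 ≤ 2 * B * r + 2 by positivity)]
  have d := cc_diff (l := B / (2 * r)) (by positivity) (by positivity) hρ.le hc (r ^ 2)
  let E := Ex ω (u ^ a - ω) (u ^ (a + 1) - ω) n
  let X := E (fun h _ => exp (n / (4 * B)) * (2 / exp 1) ^ h) +
    E (fun h _ => exp (-(B / (2 * r) * (2 * B * r))) * (2 * cosh (B / (2 * r))) ^ h)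
  have cpos : (0 : ℝ) < n.choose (r ^ 2 + 1) := by
    exact_mod_cast Nat.choose_pos (by omega)
  have sym : n.choose (r ^ 2) = n.choose (r ^ 2 + 1) := (Nat.choose_symm_half _).symm
  have ab : Abs ((n.choose (r ^ 2 + 1) : ℝ) • (u ^ (n * a + r ^ 2 + 1) - u ^ (n * a + r ^ 2)))
      (ρ • (n.choose (r ^ 2 + 1) : ℝ) • u ^ (n * a + r ^ 2 + 1) + X) := by
    have key : ∀ s : ℝ, |s| = 1 → NN (ρ • E (cc (r ^ 2 + 1)) + X +
        s • (E (cc (r ^ 2 + 1)) - E (cc (r ^ 2)))) := by
      intro s hs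
      have := Ex_nn o1 o3 o4 n (fun h v => 1 * (ρ * cc (r ^ 2 + 1) h v + 1 *
        (1 * (exp (n / (4 * B)) * (2 / exp 1) ^ h) + 1 *
          (exp (-(B / (2 * r) * (2 * B * r))) * (2 * cosh (B / (2 * r))) ^ h))) +
        s * (1 * cc (r ^ 2 + 1) h v + (-1) * cc (r ^ 2) h v)) (fun h v => by
          have e := neg_abs_le (s * (cc (r ^ 2 + 1) h v - cc (r ^ 2) h v))
          rw [abs_mul, hs, one_mul] at e
          linarith [d h v])
      simp only [Ex_lin] at this
      refine this.of_eq ?_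
      simp only [X, E]
      module
    have k1 := key (-1) (by simp)
    have k2 := key 1 (by simp)
    simp only [E, Ex_cc, sym, ← add_assoc] at k1 k2
    exact ⟨k1.of_eq (by module), k2.of_eq (by module)⟩
  have mX : mass X ≤ 2 ^ n * (2 * δ) := by
    have m0 : mass (u ^ a - ω) = 1 - mass ω := by rw [map_sub, (hu.pow _).2]
    have m1 : mass (u ^ (a + 1) - ω) = 1 - mass ω := by rw [map_sub, (hu.pow _).2]
    have m2 : 0 ≤ 1 - mass ω := m0 ▸ o3.mass_nonneg
    have m3 := o1.mass_nonneg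
    simp only [X, E, map_add, Ex_mass, m0, m1]
    have b1 : mass ω * (2 / exp 1) + (1 - mass ω) + (1 - mass ω) ≤ 2 * exp (-(1 / (2 * B))) := by
      have e1 : 2 / exp 1 ≤ 1 := by
        rw [div_le_one (exp_pos _)]
        linarith [add_one_le_exp (1 : ℝ)]
      have e2 := add_one_le_exp (-(1 / (2 * B)))
      have e3 : 1 / (2 * B) = 1 / B / 2 := by field_simp
      nlinarith [mul_le_mul_of_nonneg_left e1 m3]
    have b2 : mass ω * (2 * cosh (B / (2 * r))) + (1 - mass ω) + (1 - mass ω) ≤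
        2 * exp ((B / (2 * r)) ^ 2 / 2) := by
      have e1 := cosh_le_exp_half_sq (B / (2 * r))
      have e2 := one_le_cosh (B / (2 * r))
      nlinarith
    have t1 : exp (n / (4 * B)) * (mass ω * (2 / exp 1) + (1 - mass ω) + (1 - mass ω)) ^ n ≤
        2 ^ n * δ := by
      refine (mul_le_mul_of_nonneg_left (pow_le_pow_left₀ (by positivity) b1 n)
        (exp_pos _).le).trans ?_
      rw [mul_pow, ← exp_nat_mul, mul_left_comm, ← exp_add]
      refine mul_le_mul_of_nonneg_left (le_trans (exp_le_exp.2 ?_) hδ) (by positivity)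
      have : (n : ℝ) / (4 * B) + n * -(1 / (2 * B)) = -(n / (4 * B)) := by field_simp; ring
      rw [this, neg_le_neg_iff, le_div_iff₀ (by linarith), nr]
      nlinarith [mul_le_mul r1 r1 (by positivity) r0, mul_le_mul_of_nonneg_left hB
        (show 0 ≤ B ^ 3 by positivity)]
    have t2 : exp (-(B / (2 * r) * (2 * B * r))) *
        (mass ω * (2 * cosh (B / (2 * r))) + (1 - mass ω) + (1 - mass ω)) ^ n ≤ 2 ^ n * δ := by
      refine (mul_le_mul_of_nonneg_left (pow_le_pow_left₀
        (by have := cosh_pos (B / (2 * r)); positivity) b2 n) (exp_pos _).le).trans ?_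
      rw [mul_pow, ← exp_nat_mul, mul_left_comm, ← exp_add]
      refine mul_le_mul_of_nonneg_left (le_trans (exp_le_exp.2 ?_) hδ) (by positivity)
      have e1 : B / (2 * r) * (2 * B * r) = B ^ 2 := by field_simp
      have e2 : (n : ℝ) * ((B / (2 * r)) ^ 2 / 2) ≤ B ^ 2 / 2 := by
        rw [div_pow, mul_div_assoc', mul_div_assoc', div_le_div_iff_of_pos_right two_pos,
          div_le_iff₀ (by positivity), nr]
        have : 1 ≤ (r : ℝ) := by nlinarith
        nlinarith [mul_le_mul_of_nonneg_left (show 1 ≤ (r : ℝ) ^ 2 by nlinarith)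
          (show 0 ≤ B ^ 2 by positivity)]
      linarith
    linarith
  have cl : (2 : ℝ) ^ n ≤ (n + 1) * n.choose (r ^ 2 + 1) := by
    have : 2 ^ n ≤ (n + 1) * n.choose (r ^ 2 + 1) := by
      rw [← Nat.sum_range_choose, ← sym]
      refine (Finset.sum_le_card_nsmul _ _ (n.choose (r ^ 2)) fun m _ => ?_).trans (by simp)
      have := Nat.choose_le_middle m n
      rwa [show n / 2 = r ^ 2 by omega] at this
    exact_mod_cast this
  have hX : NN X := (Ex_nn o1 o3 o4 n _ fun _ _ => by positivity).add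
    (Ex_nn o1 o3 o4 n _ fun h _ => by have := cosh_pos (B / (2 * r)); positivity)
  have D : Dom (u ^ (n * a + r ^ 2 + 1) - u ^ (n * a + r ^ 2)) ρ (u ^ (n * a + r ^ 2 + 1))
      ((4 * r ^ 2 + 4) * δ) := by
    refine ⟨(1 / (n.choose (r ^ 2 + 1) : ℝ)) • X, hX.smul (by positivity), ?_, ?_⟩
    · rw [map_smul, smul_eq_mul, one_div, inv_mul_le_iff₀ cpos]
      have : 0 ≤ δ := (exp_pos _).le.trans hδ
      rw [nr] at cl
      nlinarith [mul_le_mul_of_nonneg_right cl this]
    · have := ab.smul (1 / (n.choose (r ^ 2 + 1) : ℝ))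
      rw [abs_of_pos (by positivity), smul_smul, one_div_mul_cancel cpos.ne', one_smul,
        smul_add, smul_comm, smul_smul (1 / _), one_div_mul_cancel cpos.ne', one_smul] at this
      exact this
  obtain ⟨t, rfl⟩ := Nat.exists_eq_add_of_le hN
  have := D.mul (Dom.refl (hu.pow t).1) (hu.pow _) (hu.pow _) hρ.le zero_le_one
  rw [sub_mul, ← pow_add, ← pow_add, add_right_comm] at this
  simpa using this

end Vale.Agent.P321
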