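import Vale.Agent.P321.Expand

/-! The recursive step. -/

namespace Vale.Agent.P321

open Real Finset

variable {M : Type*} [Monoid M] {c : Ctx}

lemma Sl.next {u u' : A M} {y j m : ℕ} (hs : Sl c u y) (hu : Prob u')
    (h : Dz c u j (u' - u ^ m) (y + 10) m) (m1 : c.H ^ (y + 10) ≤ m) (m2 : m ≤ c.H ^ (y + 11))
    (hT : 3 * y + 40 ≤ c.T) (hj : j + 1 ≤ c.jm) : Sl c u' (2 * y + 18) := by
  set θ := c.ε (y + 10) with hθ
  have θ0 : 0 < θ := c.ε_pos _
  have θH : θ * c.H ^ (y + 10) = 1 := by simpa using c.ε_nat (y + 10)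
  have θ1 : θ ≤ 1 / 5000 := (c.ε_mono (by omega)).trans c.ε_one
  have H0 := c.H_ge'
  have key : ∀ n ≤ c.H ^ (2 * y + 18), Nm (u' ^ n - u ^ (m * n)) (1 / 4) := by
    intro n hn
    have hn' : (n : ℝ) ≤ c.H ^ (2 * y + 18) := by exact_mod_cast hn
    rw [pow_mul]
    refine (tensor hu (hs.1.pow m) h.2 θ0.le (by linarith) n).mono ?_
    have q1 : n * θ ^ 2 * c.H ^ 2 ≤ 1 := by
      calc n * θ ^ 2 * c.H ^ 2 ≤ c.H ^ (2 * y + 18) * θ ^ 2 * c.H ^ 2 := by gcongr
        _ = (θ * c.H ^ (y + 10)) ^ 2 := by ring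
        _ = 1 := by rw [θH, one_pow]
    have q0 : 0 ≤ n * θ ^ 2 := by positivity
    have q2 : n * θ ^ 2 ≤ 1 / 1000 := by
      nlinarith [mul_le_mul_of_nonneg_left (show (1000 : ℝ) ≤ c.H ^ 2 by nlinarith) q0]
    have q3 : (1 + 4 * θ ^ 2) ^ n ≤ 1 + 2 * (n * (4 * θ ^ 2)) := by
      calc _ ≤ exp (4 * θ ^ 2) ^ n := pow_le_pow_left₀ (by positivity)
            (by linarith [add_one_le_exp (4 * θ ^ 2)]) n
        _ = exp (n * (4 * θ ^ 2)) := (exp_nat_mul _ _).symm
        _ ≤ _ := by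
          have t0 : 0 ≤ n * (4 * θ ^ 2) := by positivity
          have := abs_le.1 (abs_exp_sub_one_le (x := n * (4 * θ ^ 2)) (by
            rw [abs_of_nonneg t0]; linarith))
          rw [abs_of_nonneg t0] at this
          linarith [this.2]
    have q4 : √((1 + 4 * θ ^ 2) ^ n - 1) ≤ 1 / 10 := sqrt_le_iff.2 ⟨by norm_num, by linarith⟩
    have q5 := (c.δ_step (a := y + 9) (by omega) j).trans (c.δ_le hj)
    have p0 := c.δ_pos j
    have q6 : n * (θ * c.δ j) * c.H ≤ 1 := by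
      calc n * (θ * c.δ j) * c.H ≤ c.H ^ (2 * y + 18) * (θ * c.δ j) * c.H := by gcongr
        _ = (θ * c.H ^ (y + 10)) * (c.H ^ (y + 9) * c.δ j) := by ring
        _ ≤ 1 := by rw [θH, one_mul]; exact q5
    have q7 : 0 ≤ n * (θ * c.δ j) := by positivity
    nlinarith [mul_le_mul_of_nonneg_left H0 q7]
  have a1 : 5000 * c.H ^ (2 * y + 17) ≤ c.H ^ (2 * y + 18) := c.pw_succ (2 * y + 17)
  have a2 := c.pw_pos (2 * y + 17)
  refine ⟨hu, c.H ^ (2 * y + 17), by omega, ?_⟩
  have k1 := key (c.H ^ (2 * y + 17)) (by omega)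
  have k2 := key (c.H ^ (2 * y + 17) + 1) (by omega)
  have k3 := (hs.slip (r := y + 13) (η := y + 11) (N := m * c.H ^ (2 * y + 17)) (by omega)
    (by omega) m2 (by
      rw [show y + 2 * (y + 13) + 1 = y + 10 + (2 * y + 17) by ring, pow_add]
      exact Nat.mul_le_mul_right _ m1)).nm (by omega)
  have e1 := (c.ε_mono (e := ((y + 13 : ℕ) : ℤ) - (y + 11 : ℕ) - 1) (e' := 1) (by omega)).trans
    c.ε_one
  refine (Ov.of_nm (hu.pow _).1 (hu.pow _).1 (hu.pow _).2 (hu.pow _).2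
    (((k1.add k2.neg).add k3.neg).of_eq (by rw [mul_add_one]; abel))).mono ?_
  have : (1 : ℝ) / 2 ^ c.T ≤ 1 / 2 ^ 1 :=
    one_div_le_one_div_of_le (by norm_num) (pow_le_pow_right₀ one_le_two c.hT)
  linarith

/-- The law of a word. -/
noncomputable def lw (φ : Bool → A M) (U : List Bool) : A M := (U.map φ).prod

variable {φ : Bool → A M}

lemma lw_append (U V : List Bool) : lw φ (U ++ V) = lw φ U * lw φ V := by simp [lw]

lemma lw_prob (h : ∀ b, Prob (φ b)) (U : List Bool) : Prob (lw φ U) := by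
  induction U with
  | nil => exact Prob.one
  | cons b U ih => exact (h b).mul ih

lemma lw_flat (g : Bool → List Bool) (u : A M) (f : Bool → A M) (h : ∀ b, lw φ (g b) = u + f b)
    (l : List Bool) : lw φ (l.flatMap g) = PP u f l := by
  induction l with
  | nil => rfl
  | cons b l ih => rw [List.flatMap_cons, lw_append, ih, h]; rfl

lemma lw_rep (U : List Bool) (a : ℕ) : lw φ (List.replicate a U).flatten = lw φ U ^ a := by
  induction a with
  | zero => simp [lw]
  | succ a ih => rw [List.replicate_succ, List.flatten_cons, lw_append, ih, pow_succ']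

lemma flat_length (g : Bool → List Bool) {d : ℕ} (h : ∀ b, (g b).length = d) (l : List Bool) :
    (l.flatMap g).length = l.length * d := by
  induction l with
  | nil => simp
  | cons b l ih => rw [List.flatMap_cons, List.length_append, ih, h, List.length_cons]; ring

/-- The data of one level. -/
def Lv (c : Ctx) (φ : Bool → A M) (j yw y ω β : ℕ) (s σD σE κ eD eE t : ℤ) : Prop :=
  ∃ (U0 Up Um : List Bool) (w Q D E : A M) (m b W : ℕ),
    Up.length = U0.length ∧ Um.length = U0.length ∧ U0.length ≤ c.H ^ y ∧ Up ≠ Um ∧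
    lw φ Up = lw φ U0 + (E + D) ∧ lw φ Um = lw φ U0 + (E - D) ∧ Sl c w yw ∧ Sl c (lw φ U0) y ∧
    c.H ^ (yw + 2 * ω + 4) ≤ m ∧ c.H ^ β ≤ b ∧ W ≤ c.H ^ ω ∧ mass Q = 0 ∧ Dz c w j Q s W ∧
    Rep c w j b Q W σD κ m D ∧ Rep c w j b Q W σE κ m E ∧ Dz c w j D eD m ∧ Dz c w j E eE m ∧
    Dz c w j (lw φ U0 - w ^ m) t m

theorem Lv.step (hφ : ∀ b, Prob (φ b)) {j yw y ω β : ℕ} {s σD σE κ eD eE t : ℤ}
    (h : Lv c φ j yw y ω β s σD σE κ eD eE t) (μ : ℕ) {e eP s' κ' e' t' : ℤ}
    (hj : 200 * (j + c.T) + 1 ≤ c.jm) (hT : 3 * y + 40 ≤ c.T) (hT' : 9 * μ + 3 * ω + 4 ≤ c.T)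
    (hβ : 2 * μ + ω ≤ β) (hμ : 6 * μ ≤ y + 10) (ht : 6 * μ + 3 ≤ t) (h1 : e ≤ eD) (h2 : e ≤ eE)
    (h3 : 4 ≤ e) (p1 : eP ≤ σD + σE + 2 * s + μ - 5) (p2 : eP ≤ κ + e - 2)
    (p3 : eP ≤ κ + σD + s - 3) (p4 : eP ≤ κ + σE + s - 3) (p5 : eP ≤ t - 6 * μ + eD + eE - 6)
    (s1 : s' ≤ eD + eE - 6) (s2 : s' ≤ 3 * e - 12) (k1 : κ' ≤ eD - 1 + c.T)
    (e1 : e' ≤ eP - 7) (e2 : e' ≤ 3 * e - 13) (e3 : e' ≤ κ' - 1)
    (t1 : t' ≤ eE - 4) (t2 : t' ≤ 2 * e - 9) (t3 : t' ≤ κ' - 1) (t4 : y + 10 ≤ t') :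
    Lv c φ (200 * (j + c.T)) y (2 * y + 18) 1 (y + 10) s' 0 0 κ' e' e' t' := by
  obtain ⟨U0, Up, Um, w, Q, D, E, m, b, W, l1, l2, l3, ne, lp, lm, sw, su, hm, hb, hW, m0, hQ, rD,
    rE, hD, hE, hθ⟩ := h
  set u := lw φ U0 with hu
  have pu : Prob u := su.1
  have fl : Dz c u j (w ^ m) (-1) 1 :=
    (hθ.to (by rw [pow_one]) rfl le_rfl (by omega)).flip pu
  have uD := hD.trans fl
  have uE := hE.trans fl
  have f1 : ∀ b, Dz c u (4 * j + 2) (E + sg b • D) (e - 2) 1 := fun b =>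
    (uE.add (uD.smul (abs_sg b))).to rfl rfl (by omega) (by omega)
  have f2 : ∀ b, Dz c u (4 * j + 2) (E - sg b • D) (e - 2) 1 := fun b =>
    (uE.sub (uD.smul (abs_sg b))).to rfl rfl (by omega) (by omega)
  set X := tm c.T with hX
  have lX : X.length = 2 ^ c.T := tm_length _
  have B1 := c.B_le
  have TB : c.T < 2 ^ c.T := Nat.lt_two_pow_self
  have lX1 : X.length ≤ c.H ^ 1 := by rw [lX, pow_one]; omega
  have r2 := R2_dz pu f1 (by omega) (a := 1) (by omega) X lX1
  have r3 := R3_dz pu f1 (by omega) (a := 1) (by omega) X lX1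
  have r3' := R3_dz pu f2 (by omega) (a := 1) (by omega) X lX1
  rw [pow_one, one_mul] at r2 r3 r3'
  have half : |(1 / 2 : ℝ)| ≤ 1 := by rw [abs_of_pos] <;> norm_num
  have r4 := (r3'.sub r3).smul half
  set x := PP u (fun b => E + sg b • D) X with hx
  set x' := PP u (fun b => E - sg b • D) X with hx'
  set lin := T1 u (fun b => sg b • D) X with hlin
  have id1 : (1 / 2 : ℝ) • (x' - u ^ X.length - T1 u (fun b => E - sg b • D) X -
      T2 u (fun b => E - sg b • D) X - (x - u ^ X.length - T1 u (fun b => E + sg b • D) X -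
      T2 u (fun b => E + sg b • D) X)) - Qd u D E X = (1 / 2 : ℝ) • (x' - x) + lin := by
    rw [T2_sub, T1_add, T1_sub]
    module
  set a := c.H ^ (y + 10) with ha
  have a0 : 0 < a := c.pw_pos _
  have a1 : 5000 * a ≤ c.H ^ (y + 11) := c.pw_succ _
  have a2 : c.H ^ 1 ≤ a := c.pw_le (by omega)
  have kill : Dz c u (2 * j + 1 + 2 * c.T) (u ^ a * lin * u ^ a) κ' (a + X.length + a) := by
    obtain ⟨z, hz⟩ : ∃ z, a = z + c.T * c.H ^ (y + 9) := ⟨a - c.T * c.H ^ (y + 9), by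
      have : c.T * c.H ^ (y + 9) ≤ c.H * c.H ^ (y + 9) := Nat.mul_le_mul_right _ (by omega)
      rw [← pow_succ'] at this
      exact (Nat.sub_add_cancel this).symm⟩
    refine ((su.kill (by omega) uD le_rfl c.T le_rfl).ctx z z).to ?_ (by omega) (by omega)
      (by omega)
    rw [hz, pow_add, ← mul_assoc, ← mul_assoc, mul_assoc _ _ (u ^ z), ← pow_add _ _ z,
      add_comm _ z, pow_add]
  have q0 := Qd_dz (K := 0) (D := D) (E := E) pu X lX1
    (fun n2 _ => ((uD.ctx 0 n2).mul (uE.ctx 0 0)).to (by simp) (by omega) le_rfl le_rfl)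
    (fun n2 _ => ((uE.ctx 0 n2).mul (uD.ctx 0 0)).to (by simp) (by omega) le_rfl (by omega))
  set K := c.H ^ (6 * μ) with hK
  have K0 : 0 < K := c.pw_pos _
  have K1 : c.H ^ (yw + 6 * μ + 2 * ω + 4) ≤ m * K := by
    rw [show yw + 6 * μ + 2 * ω + 4 = yw + 2 * ω + 4 + 6 * μ by ring, pow_add]
    exact Nat.mul_le_mul_right _ hm
  have K2 : ∀ n2 ≤ X.length, K + 1 + n2 + 1 + K ≤ c.H ^ (6 * μ + 1) := fun n2 hn => by
    have : c.H * 1 ≤ c.H * K := Nat.mul_le_mul_left _ K0
    have := Nat.mul_le_mul_right K c.H_ge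
    rw [pow_succ', ← hK]
    omega
  have q1 := Qd_dz (K := K) (D := D) (E := E) pu X lX1
    (fun n2 hn => pairU pu hθ (by omega) hD hE (K2 n2 hn) (by omega) (eP := eP) (by omega)
      (rD.pair sw rE hE hQ m0 hW hT' (by omega) ((c.pw_le hβ).trans hb) K1 K1 p1 (by omega) p3))
    (fun n2 hn => pairU pu hθ (by omega) hE hD (K2 n2 hn) (by omega) (eP := eP) (by omega)
      (rE.pair sw rD hD hQ m0 hW hT' (by omega) ((c.pw_le hβ).trans hb) K1 K1 (by omega) (by omega)
        p4))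
  obtain ⟨z, hz⟩ : ∃ z, a = z + K := ⟨a - K, by have : K ≤ a := c.pw_le hμ; omega⟩
  have q2 : Dz c u (72 * j + 70) (u ^ a * Qd u D E X * u ^ a) (eP - 5) (a + X.length + a) := by
    refine (q1.ctx z z).to ?_ (by omega) (by omega) (by omega)
    rw [hz, pow_add, ← mul_assoc, ← mul_assoc, mul_assoc _ _ (u ^ z), ← pow_add _ _ z,
      add_comm _ z, pow_add]
  have hθ' : Dz c u (200 * (j + c.T)) (u ^ a * x * u ^ a - u ^ (a + X.length + a)) t'
      (a + X.length + a) := by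
    refine ((((T1_dz pu (fun _ => uE) X lX1).add r2).ctx a a).add kill).to ?_ rfl (by omega)
      (by omega)
    rw [T1_add, pow_add, pow_add]
    noncomm_ring
  have hD' : Dz c u (200 * (j + c.T)) (u ^ a * ((1 / 2 : ℝ) • (x' - x)) * u ^ a) e'
      (a + X.length + a) := by
    refine (((r4.ctx a a).sub q2).sub kill).to ?_ rfl (by omega) (by omega)
    rw [← sub_mul, ← mul_sub, id1, ← sub_mul, ← mul_sub, add_sub_cancel_right]
  have g1 : lw φ (X.flatMap fun b => if b then Up else Um) = x :=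
    lw_flat _ _ _ (fun b => by cases b <;> simp [lp, lm, sg, sub_eq_add_neg]) X
  have g2 : lw φ (X.flatMap fun b => if b then Um else Up) = x' :=
    lw_flat _ _ _ (fun b => by cases b <;> simp [lp, lm, sg, sub_eq_add_neg]) X
  have n1 : (X.flatMap fun b => if b then Up else Um).length = X.length * U0.length :=
    flat_length _ (fun b => by cases b <;> simp [l1, l2]) X
  have n2 : (X.flatMap fun b => if b then Um else Up).length = X.length * U0.length :=
    flat_length _ (fun b => by cases b <;> simp [l1, l2]) X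
  have px : Prob x := g1 ▸ lw_prob hφ _
  have px' : Prob x' := g2 ▸ lw_prob hφ _
  have mD : mass D = 0 := by
    have a := (lw_prob hφ Up).2
    have b := (lw_prob hφ Um).2
    rw [lp, map_add, map_add] at a
    rw [lm, map_add, map_sub] at b
    linarith
  have rD' : Rep c u (200 * (j + c.T)) a ((1 / 2 : ℝ) • (x' - x) + lin) X.length 0 κ'
      (a + X.length + a) (u ^ a * ((1 / 2 : ℝ) • (x' - x)) * u ^ a) := by
    have one : Dz c u (200 * (j + c.T)) 1 0 0 := (Dz.pow pu 0).to (pow_zero _) rfl (by omega) le_rfl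
    have zero : El c u (200 * (j + c.T)) a ((1 / 2 : ℝ) • (x' - x) + lin) X.length 0
        (a + X.length + a) 0 := ⟨0, 1, 0, 0, 0, 0, by simp, Commute.zero_right _,
          Commute.one_right _, Dz.zero pu, one, by simp, by simp⟩
    refine ⟨![u ^ a * ((1 / 2 : ℝ) • (x' - x) + lin) * u ^ a, 0, 0], fun i => ?_,
      kill.neg.to ?_ rfl (by omega) le_rfl⟩
    · fin_cases i
      · exact ⟨1, 1, 0, 0, 0, 0, by simp, Commute.one_right _, Commute.one_right _, one, one,
          by simp, by simp⟩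
      · exact zero
      · exact zero
    · simp only [Fin.sum_univ_three, Matrix.cons_val_zero, Matrix.cons_val_one, Matrix.cons_val]
      noncomm_ring
  let V := (List.replicate a U0).flatten
  have lV : V.length = a * U0.length := by simp [V]
  have wV : lw φ V = u ^ a := lw_rep _ _
  refine ⟨V ++ (X.flatMap fun b => if b then Up else Um) ++ V,
    V ++ (X.flatMap fun b => if b then Um else Up) ++ V,
    V ++ (X.flatMap fun b => if b then Up else Um) ++ V, u, (1 / 2 : ℝ) • (x' - x) + lin, _, _,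
    a + X.length + a, a, X.length, by simp only [List.length_append, n1, n2], rfl, ?_, ?_, ?_, ?_,
    su, ?_, ?_, le_rfl, lX1, ?_, ?_, rD', rD', hD', hD', ?_⟩
  · simp only [List.length_append, n1, lV, ← add_mul]
    calc _ ≤ c.H ^ (y + 11) * c.H ^ y := Nat.mul_le_mul (by omega) l3
      _ ≤ _ := by rw [← pow_add]; exact c.pw_le (by omega)
  · obtain ⟨l, hl⟩ := tm_head c.T
    rw [hX, hl]
    intro hh
    simp only [List.append_assoc, List.append_cancel_left_eq, List.flatMap_cons, if_true] at hh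
    exact ne (List.append_inj hh (by omega)).1.symm
  · simp only [lw_append, wV, g1, g2]
    rw [← add_mul, ← add_mul, ← mul_add, ← mul_add]
    congr 2
    module
  · simp
  · simp only [lw_append, wV, g1]
    exact su.next (((pu.pow a).mul px).mul (pu.pow a)) (hθ'.to rfl rfl le_rfl t4) (by omega)
      (by omega) hT hj
  · have : c.H ^ (y + 2 * 1 + 4) ≤ a := c.pw_le (by omega)
    omega
  · rw [map_add, map_smul, map_sub, px.2, px'.2, T1_mass fun b => by simp [mD]]
    simp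
  · refine (r4.sub (q0.to (by simp) (by simp) le_rfl le_rfl)).to id1 rfl (by omega) (by omega)
  · simpa only [lw_append, wV, g1] using hθ'

end Vale.Agent.P321
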